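import Vale.Agent.P366Z.Sp.Sk
import Mathlib.Analysis.CStarAlgebra.Matrix

/-!
# P366Z: doubled Clifford modules exist (CLX)
-/

open Matrix
open Vale.Agent.P366.Stmt

noncomputable section

namespace Vale.Agent.P366Z.Sp

namespace ClxA

theorem mats (n : ℕ) : ∃ (ι : Type) (_ : Fintype ι) (_ : DecidableEq ι) (_ : Nonempty ι)
    (e : Fin n → Matrix ι ι ℝ), (∀ i, (e i)ᵀ = -e i) ∧
      ∀ i j, e i * e j + e j * e i = if i = j then (-2 : ℝ) • 1 else 0 := by
  induction n with
  | zero => exact ⟨Unit, inferInstance, inferInstance, inferInstance, fun i => i.elim0,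
      fun i => i.elim0, fun i => i.elim0⟩
  | succ n ih =>
    obtain ⟨ι, _, _, _, e, h1, h2⟩ := ih
    have z : (fromBlocks 0 0 0 0 : Matrix (ι ⊕ ι) (ι ⊕ ι) ℝ) = 0 := fromBlocks_zero
    have o : (fromBlocks ((-2 : ℝ) • 1) 0 0 ((-2 : ℝ) • 1) : Matrix (ι ⊕ ι) (ι ⊕ ι) ℝ) =
        (-2 : ℝ) • 1 := by
      rw [← fromBlocks_one, fromBlocks_smul, smul_zero]
    refine ⟨ι ⊕ ι, inferInstance, inferInstance, inferInstance,
      Fin.cons (fromBlocks 0 (-1) 1 0) fun i => fromBlocks (e i) 0 0 (-e i), fun i => ?_,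
      fun i j => ?_⟩
    · refine Fin.cases ?_ (fun i => ?_) i
      · simp [fromBlocks_transpose, fromBlocks_neg]
      · simp [fromBlocks_transpose, fromBlocks_neg, h1]
    · refine Fin.cases ?_ (fun i => ?_) i <;> refine Fin.cases ?_ (fun j => ?_) j
      · simp only [Fin.cons_zero, fromBlocks_multiply, fromBlocks_add, if_true]
        rw [← o]
        congr 1 <;> simp [← two_smul ℝ]
      · simp [fromBlocks_multiply, fromBlocks_add, (Fin.succ_ne_zero j).symm]
      · simp [fromBlocks_multiply, fromBlocks_add]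
      · simp only [Fin.cons_succ, fromBlocks_multiply, fromBlocks_add, Fin.succ_inj,
          Matrix.mul_zero, Matrix.zero_mul, add_zero, zero_add, neg_mul_neg, h2]
        split_ifs
        · exact o
        · exact z

end ClxA

/-- **CLX** -/
theorem clx : CLX := by
  intro n
  obtain ⟨ι, _, _, ⟨i0⟩, e, h1, h2⟩ := ClxA.mats n
  let σ := Fintype.equivFin (ι ⊕ ι)
  let T : Matrix (ι ⊕ ι) (ι ⊕ ι) ℝ →ₐ[ℝ] En (E (Fintype.card (ι ⊕ ι))) :=
    (toEuclideanCLM (n := Fin (Fintype.card (ι ⊕ ι))) (𝕜 := ℝ)).toAlgEquiv.toAlgHom.comp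
      (reindexAlgEquiv ℝ ℝ σ).toAlgHom
  have hT : ∀ A, T A = toEuclideanCLM (n := Fin (Fintype.card (ι ⊕ ι))) (𝕜 := ℝ) (reindex σ σ A) :=
    fun _ => rfl
  have adj : ∀ A u v, inner ℝ (T A u) v = inner ℝ u (T Aᵀ v) := fun A u v => by
    rw [hT, hT, ← transpose_reindex, ← conjTranspose_eq_transpose_of_trivial, ← star_eq_conjTranspose,
      map_star, ContinuousLinearMap.star_eq_adjoint, ContinuousLinearMap.adjoint_inner_right]
  have mul : ∀ A B u, T A (T B u) = T (A * B) u := fun A B u => by rw [map_mul]; rfl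
  let b : Fin n → Matrix (ι ⊕ ι) (ι ⊕ ι) ℝ := fun i => fromBlocks (e i) 0 0 (e i)
  let p : Matrix (ι ⊕ ι) (ι ⊕ ι) ℝ := fromBlocks 0 1 0 0
  let q : Matrix (ι ⊕ ι) (ι ⊕ ι) ℝ := fromBlocks 0 0 1 0
  have b1 : ∀ i, (b i)ᵀ = -b i := fun i => by simp [b, fromBlocks_transpose, fromBlocks_neg, h1]
  have b2 : ∀ i j, b i * b j + b j * b i = if i = j then (-2 : ℝ) • 1 else 0 := fun i j => by
    simp only [b, fromBlocks_multiply, fromBlocks_add, Matrix.mul_zero, Matrix.zero_mul, add_zero,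
      zero_add, h2]
    split_ifs
    · rw [← fromBlocks_one (l := ι) (m := ι), fromBlocks_smul, smul_zero]
    · exact fromBlocks_zero
  refine ⟨_, ⟨⟨fun i => T (b i), fun i u v => ?_, fun i j u => ?_⟩, T p, T q, fun u v => ?_,
    fun u => ?_, fun u => ?_, fun i u => ?_, fun i u => ?_⟩,
    EuclideanSpace.single (σ (Sum.inl i0)) 1, by simp, ?_⟩
  · rw [adj, b1, map_neg, _root_.neg_apply, inner_neg_right]
  · rw [mul, mul, ← _root_.add_apply, ← map_add, b2]
    split_ifs
    · rw [map_smul, map_one]; rfl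
    · rw [map_zero]; rfl
  · rw [adj]
    simp [p, q, fromBlocks_transpose]
  · rw [mul, show p * p = 0 by simp [p, fromBlocks_multiply], map_zero]; rfl
  · rw [mul, mul, ← _root_.add_apply, ← map_add,
      show p * q + q * p = 1 by simp [p, q, fromBlocks_multiply, fromBlocks_add], map_one]; rfl
  · rw [mul, mul, show p * b i = b i * p by simp [p, b, fromBlocks_multiply]]
  · rw [mul, mul, show q * b i = b i * q by simp [q, b, fromBlocks_multiply]]
  · change T p _ = 0
    rw [hT]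
    ext k
    obtain ⟨k, rfl⟩ := σ.surjective k
    rw [ofLp_toEuclideanCLM]
    rcases k with k | k <;> simp [p]

end Vale.Agent.P366Z.Sp
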