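import Vale.Agent.P366Z.Sp.Api
import Vale.Agent.P366Z.GrowA

/-!
# P366Z, row COER: the adjoint operator is coercive
-/

open MeasureTheory Metric Filter Topology Set
open scoped ContDiff ENNReal
open Vale.Agent.P366.Stmt

noncomputable section

namespace Vale.Agent.P366Z.Sp

namespace Coe

open Vale.Agent.P366Z.Grow (abs_sum_le abs_mul_le)

variable {n : ℕ} {V : Type} [NormedAddCommGroup V] [InnerProductSpace ℝ V] {g T : Field n}
  {v v' : E n → ℝ} {R : ℝ}

theorem cont_cq (hg : Met g) (hT : ∀ i j, Smooth fun x => T x i j) (hv : Smooth v)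
    (hv' : Smooth v') (h0 : ∀ x, 0 < v x) (h0' : ∀ x, 0 < v' x) : Continuous (cq g T v v') := by
  have h1 : Continuous (normSq g T) :=
    continuous_finsetSum _ fun i _ => continuous_finsetSum _ fun j _ =>
      continuous_finsetSum _ fun k _ => continuous_finsetSum _ fun l _ =>
        (((hg.sm_up _ _).cont.mul (hg.sm_up _ _).cont).mul (hT _ _).cont).mul (hT _ _).cont
  exact (((hv.rpow h0 _).cont.mul ((continuous_const.mul (hg.sm_lap hv).cont).add
    (hg.sm_scal.cont.mul hv.cont))).div_const _).add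
      (((((sm_tr hg hT).cont.pow 2).div_const _).sub h1).mul (hv'.rpow h0' _).cont)

/-- the weight and its gradient are bounded -/
theorem wt_bd (hn : 3 ≤ n) (hg : Met g) (hf : Flat g R) (hv : Smooth v) {k K : ℝ} (hk : 0 < k)
    (h : ∀ x, k ≤ v x ∧ ‖fderiv ℝ v x‖ ≤ K) :
    ∃ A, ∀ x, |v x ^ (-bb n)| ≤ A ∧ ∀ i, |gr g (fun y => v y ^ (-bb n)) i x| ≤ A := by
  obtain ⟨Λ, hΛ⟩ := hg.ell hf
  have hb := bb_pos hn
  refine ⟨max (k ^ (-bb n)) (n * (Λ * (bb n * k ^ (-bb n - 1) * K))), fun x => ⟨?_, fun i => ?_⟩⟩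
  · rw [abs_of_pos (Real.rpow_pos_of_pos (hk.trans_le (h x).1) _)]
    exact (Real.rpow_le_rpow_of_nonpos hk (h x).1 (by linarith)).trans (le_max_left _ _)
  · refine le_trans (abs_sum_le fun j => abs_mul_le (hΛ.up_bd x i j).1 ?_) (le_max_right _ _)
    rw [pd_rpow (hv.diff x) (hk.trans_le (h x).1).ne']
    refine abs_mul_le (abs_mul_le (by rw [abs_neg, abs_of_pos hb]) ?_)
      ((abs_pd_le (hv.diff x) j).trans (h x).2)
    rw [abs_of_pos (Real.rpow_pos_of_pos (hk.trans_le (h x).1) _)]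
    exact Real.rpow_le_rpow_of_nonpos hk (h x).1 (by linarith)

theorem cur_bd (c : Cm n V) (S : Cn g R) {G : E n → ℝ} {u : E n → V} {x : E n} {A K N : ℝ}
    (i : Fin n) (hG : |G x| ≤ A) (hG' : |gr g G i x| ≤ A) (hu : ‖u x‖ ≤ N)
    (hk : ‖kv c S u i x‖ ≤ K * N) :
    |cur c S G u i x| ≤ (A * K + |((n : ℝ) - 1) / 2| * A) * N ^ 2 := by
  have h1 : |inner ℝ (u x) (kv c S u i x)| ≤ N * (K * N) :=
    (abs_real_inner_le_norm _ _).trans
      (mul_le_mul hu hk (norm_nonneg _) ((norm_nonneg _).trans hu))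
  have h2 : |‖u x‖ ^ 2| ≤ N ^ 2 := by
    rw [abs_of_nonneg (sq_nonneg _)]
    exact pow_le_pow_left₀ (norm_nonneg _) hu 2
  refine (abs_add_le _ _).trans ((add_le_add (abs_mul_le hG h1)
    (abs_mul_le le_rfl (abs_mul_le hG' h2))).trans (le_of_eq ?_))
  ring

/-- the current is bounded by the square of the fields -/
theorem jj_bd (hB : BND) (h : Dat g T v v' R) (c : Cm n V) (S : Cn g R) :
    ∃ A, ∀ (u w : E n → V) (x : E n) (N : ℝ), ContDiff ℝ ∞ u → ContDiff ℝ ∞ w →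
      ‖u x‖ + ‖fderiv ℝ u x‖ ≤ N → ‖w x‖ + ‖fderiv ℝ w x‖ ≤ N →
      ∀ i, |jj c S T v v' u w i x| ≤ A * N ^ 2 := by
  obtain ⟨k, hk, K, hb⟩ := h.bd
  obtain ⟨A1, a1⟩ := wt_bd h.dim h.met h.flat h.smv hk fun x => ⟨(hb x).1, (hb x).2.2.2.2.1⟩
  obtain ⟨A2, a2⟩ := wt_bd h.dim h.met h.flat h.smv' hk fun x => ⟨(hb x).2.2.1, (hb x).2.2.2.2.2⟩
  obtain ⟨K0, hK0, b⟩ := hB n V c g R S h.met h.flat (fun _ => 0) contDiff_const fun _ _ => rfl
  obtain ⟨Λ, hΛ⟩ := h.met.ell h.flat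
  choose K1 p1 h1 using fun i j => bdd_of_const (h.smT i j) (R := R) (c := 0)
    fun y hy => by rw [h.out y hy.le]; rfl
  have q1 : ∀ i j, K1 i j ≤ ∑ i, ∑ j, K1 i j := fun i j =>
    (Finset.single_le_sum (f := fun j => K1 i j) (fun j _ => (p1 i j).le)
      (Finset.mem_univ j)).trans (Finset.single_le_sum (f := fun i => ∑ j, K1 i j)
        (fun i _ => Finset.sum_nonneg fun j _ => (p1 i j).le) (Finset.mem_univ i))
  refine ⟨(A1 * K0 + |((n : ℝ) - 1) / 2| * A1) + (A2 * K0 + |((n : ℝ) - 1) / 2| * A2) +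
    2 * (n * (n * (Λ * (∑ i, ∑ j, K1 i j) * K0))), fun u w x N hu hw e1 e2 i => ?_⟩
  have e3 : ‖u x‖ ≤ N := (le_add_of_nonneg_right (norm_nonneg _)).trans e1
  have e4 : ‖w x‖ ≤ N := (le_add_of_nonneg_right (norm_nonneg _)).trans e2
  have c1 := cur_bd c S i (a1 x).1 ((a1 x).2 i) e3
    (((b u x hu).2.1 i).trans (mul_le_mul_of_nonneg_left e1 hK0.le))
  have c2 := cur_bd c S i (a2 x).1 ((a2 x).2 i) e4
    (((b w x hw).2.1 i).trans (mul_le_mul_of_nonneg_left e2 hK0.le))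
  have c3 : |crs c S T u w i x| ≤ n * (n * (Λ * (∑ i, ∑ j, K1 i j) * (N * (K0 * N)))) :=
    abs_sum_le fun l => abs_sum_le fun j => abs_mul_le
      (abs_mul_le (hΛ.up_bd x i l).1 ((h1 l j x).1.trans (q1 l j)))
      ((abs_real_inner_le_norm _ _).trans (mul_le_mul e3 (((ga c S j x).le_opNorm _).trans
        (mul_le_mul ((b u x hu).1 j) e4 (norm_nonneg _) hK0.le)) (norm_nonneg _)
          ((norm_nonneg _).trans e3)))
  refine (abs_sub _ _).trans ((add_le_add ((abs_add_le _ _).trans (add_le_add c1 c2))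
    (abs_mul_le (A := 2) (by norm_num) c3)).trans (le_of_eq ?_))
  ring

theorem fd_le {L : En V} (hL : ∀ y, ‖L y‖ ≤ ‖y‖) {u : E n → V} (hu : ContDiff ℝ ∞ u) (x : E n) :
    ‖L (u x)‖ + ‖fderiv ℝ (fun y => L (u y)) x‖ ≤ ‖u x‖ + ‖fderiv ℝ u x‖ := by
  refine add_le_add (hL _) ?_
  have h : HasFDerivAt (fun y => L (u y)) (L.comp (fderiv ℝ u x)) x :=
    L.hasFDerivAt.comp x (sm_diff hu x).hasFDerivAt
  rw [h.fderiv]
  exact ContinuousLinearMap.opNorm_le_bound _ (norm_nonneg _) fun y =>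
    (hL _).trans ((fderiv ℝ u x).le_opNorm y)

theorem int_sq (hI : INT) (hg : Met g) (hf : Flat g R) {u : E n → V} (hu : ContDiff ℝ ∞ u)
    (d1 : Dec u) (d2 : Dec (fderiv ℝ u)) :
    Integrable fun x => (‖u x‖ + ‖fderiv ℝ u x‖) ^ 2 * dens g x := by
  obtain ⟨c1, p1, C1, h1⟩ := d1
  obtain ⟨c2, p2, C2, h2⟩ := d2
  have hc : Continuous fun x => ‖u x‖ + ‖fderiv ℝ u x‖ :=
    hu.continuous.norm.add (hu.continuous_fderiv (by simp)).norm
  have q1 : 0 ≤ C1 := by simpa using (norm_nonneg _).trans (h1 0)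
  have q2 : 0 ≤ C2 := by simpa using (norm_nonneg _).trans (h2 0)
  have h3 : ∀ x, ‖‖u x‖ + ‖fderiv ℝ u x‖‖ ≤ (C1 + C2) * Real.exp (-min c1 c2 * ‖x‖) := by
    intro x
    rw [Real.norm_of_nonneg (by positivity), add_mul]
    refine add_le_add ((h1 x).trans ?_) ((h2 x).trans ?_)
    · gcongr
      exact min_le_left _ _
    · gcongr
      exact min_le_right _ _
  have h4 := hI n ℝ g R _ _ hg hf hc hc ⟨_, lt_min p1 p2, _, h3⟩ ⟨C1 + C2, fun x =>
    (h3 x).trans (mul_le_of_le_one_right (by positivity) (Real.exp_le_one_iff.2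
      (mul_nonpos_of_nonpos_of_nonneg (neg_nonpos.2 (lt_min p1 p2).le) (norm_nonneg _))))⟩
  refine h4.congr (Eventually.of_forall fun x => ?_)
  simp only [real_inner_self_eq_norm_sq, Real.norm_eq_abs, sq_abs]

end Coe

theorem coer_of (hW : WIT) (hB : BND) (hI : INT) : COER := by
  intro n V _ _ c g T R S v v' h ρ
  obtain ⟨k0, hk0, K, hb⟩ := h.bd
  have hM : 0 < k0 ^ (-bb n) := Real.rpow_pos_of_pos hk0 _
  have hG : ∀ t, k0 ≤ t → t ^ (-bb n) ≤ k0 ^ (-bb n) := fun t ht =>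
    Real.rpow_le_rpow_of_nonpos hk0 ht (by linarith [bb_pos h.dim])
  obtain ⟨m, hm, hmin⟩ := (isCompact_closedBall (0 : E n) ρ).exists_forall_le'
    (f := fun x => min (cq g T v v' x) (cq g T v' v x)) (a := 0)
    ((Coe.cont_cq h.met h.smT h.smv h.smv' h.v_pos h.v'_pos).min
      (Coe.cont_cq h.met h.smT h.smv' h.smv h.v'_pos h.v_pos)).continuousOn
    fun x _ => lt_min (h.pos x).1 (h.pos x).2.1
  obtain ⟨A, hA⟩ := Coe.jj_bd hB h c.toCm S
  have hpot := h.pot c
  obtain ⟨K0, -, hK⟩ := hB n V c.toCm g R S h.met h.flat _ hpot.sm' fun x hx => (hpot.out x hx).2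
  obtain ⟨C, hC, hcut⟩ := fderiv_cut n
  refine ⟨m / 2 / k0 ^ (-bb n), by positivity, fun u hu d1 d2 => ?_⟩
  have n1 : ∀ y, ‖c.p y‖ ≤ ‖y‖ := fun y => (abs_le_of_sq_le_sq' (by
    linarith [c.norm_split y, sq_nonneg ‖c.p (c.q y)‖]) (norm_nonneg _)).2
  have n2 : ∀ y, ‖(c.p * c.q) y‖ ≤ ‖y‖ := fun y => (abs_le_of_sq_le_sq' (by
    have := c.norm_split y
    rw [mul_apply_eq_comp]
    linarith [sq_nonneg ‖c.p y‖]) (norm_nonneg _)).2
  have u1 : ContDiff ℝ ∞ fun x => c.p (u x) := c.p.contDiff.comp hu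
  have w1 : ContDiff ℝ ∞ fun x => (c.p * c.q) (u x) := (c.p * c.q).contDiff.comp hu
  obtain ⟨J, hJ⟩ : ∃ J, J = jj c.toCm S T v v' (fun x => c.p (u x))
    fun x => (c.p * c.q) (u x) := ⟨_, rfl⟩
  obtain ⟨z, hz⟩ : ∃ z, z = dq c.toCm S (bo c.q c.p g T v v') u := ⟨_, rfl⟩
  have J1 : ∀ i, Smooth (J i) := fun i => hJ ▸ h.sm_jj c.toCm S u1 w1 i
  have J2 : ∀ x i, |J i x| ≤ A * (‖u x‖ + ‖fderiv ℝ u x‖) ^ 2 := fun x =>
    hJ ▸ hA _ _ x _ u1 w1 (Coe.fd_le n1 hu x) (Coe.fd_le n2 hu x)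
  have z1 : Continuous z := hz ▸ (sm_dq c.toCm S hpot.sm' hu).continuous
  have hd := h.met.sm_dens.cont
  have i0 := Coe.int_sq hI h.met h.flat hu d1 d2
  have i1 : Integrable fun x => ‖z x‖ ^ 2 * dens g x := by
    refine (i0.const_mul (K0 ^ 2)).mono' ((z1.norm.pow 2).mul hd).aestronglyMeasurable
      (Eventually.of_forall fun x => ?_)
    rw [Real.norm_of_nonneg (mul_nonneg (sq_nonneg _) (dens_nonneg g x)), ← mul_assoc, ← mul_pow]
    exact mul_le_mul_of_nonneg_right (pow_le_pow_left₀ (norm_nonneg _)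
      (hz ▸ (hK u x hu).2.2.1) 2) (dens_nonneg g x)
  have key : ∀ x, (cq g T v v' x * ‖c.p (u x)‖ ^ 2 + cq g T v' v x * ‖c.p (c.q (u x))‖ ^ 2) / 2 ≤
      dv g J x + k0 ^ (-bb n) * ‖z x‖ ^ 2 := by
    intro x
    have a1 := hW n V c.toCm g T R S v v' _ _ x h u1 w1
    have a2 : di c.toCm S (fun x => c.p (u x)) x - al g T v x • (c.p * c.q) (u x) = c.p (z x) := by
      rw [di_p S c.pe (sm_diff hu x), hz]
      simp only [dq, bo, add_apply, smul_apply, mul_apply_eq_comp, map_add (c.p),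
        map_smul, c.pp, smul_zero, add_zero, neg_smul, map_neg, neg_apply]
      abel
    have a3 : di c.toCm S (fun x => (c.p * c.q) (u x)) x + al g T v' x • c.p (u x) =
        c.p (c.q (z x)) := by
      rw [di_p S c.pqe (sm_diff hu x), hz]
      simp only [dq, bo, add_apply, smul_apply, mul_apply_eq_comp, map_add (c.q), map_add (c.p),
        map_smul, c.pqp, c.qq, smul_zero, zero_add, neg_smul, map_neg, neg_apply,
        neg_zero]
    have a4 := c.norm_split (z x)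
    have a5 := mul_le_mul_of_nonneg_right (hG _ (hb x).1) (sq_nonneg ‖c.p (z x)‖)
    have a6 := mul_le_mul_of_nonneg_right (hG _ (hb x).2.2.1) (sq_nonneg ‖c.p (c.q (z x))‖)
    rw [rhs, a2, a3, ← hJ] at a1
    rw [← a4]
    refine le_trans a1 ?_
    linarith
  rw [← hz, div_mul_eq_mul_div, div_le_iff₀' hM]
  set I := ∫ x, (‖u x‖ + ‖fderiv ℝ u x‖) ^ 2 * dens g x with hI'
  have lim : Tendsto (fun r : ℝ => n * (C / r * A) * I + k0 ^ (-bb n) * ∫ x, ‖z x‖ ^ 2 * dens g x)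
      atTop (𝓝 (n * (0 * A) * I + k0 ^ (-bb n) * ∫ x, ‖z x‖ ^ 2 * dens g x)) :=
    ((((tendsto_const_nhds.div_atTop tendsto_id).mul_const A).const_mul _).mul_const I).add_const _
  rw [zero_mul, mul_zero, zero_mul, zero_add] at lim
  refine ge_of_tendsto lim ?_
  filter_upwards [eventually_gt_atTop 0, eventually_ge_atTop ρ] with r hr hrρ
  have b1 : Integrable fun x => cut r x * dv g J x * dens g x :=
    integrable_of_out (((sm_cut r).cont.mul (h.met.sm_dv J1).cont).mul hd) (R := 2 * r)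
      fun y hy => by simp [cut_zero hr hy]
  have b2 := i1.const_mul (k0 ^ (-bb n))
  have b3 : IntegrableOn (fun x => m / 2 * (‖u x‖ ^ 2 * dens g x)) (ball (0 : E n) ρ) :=
    ((continuous_const.mul ((hu.continuous.norm.pow 2).mul hd)).continuousOn.integrableOn_compact
      (isCompact_closedBall 0 ρ)).mono_set ball_subset_closedBall
  have b4 := integral_mono ((integrable_indicator_iff measurableSet_ball).2 b3) (b1.add b2)
    fun x => by
      have c0 := dens_nonneg g x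
      have c1 := mul_le_mul_of_nonneg_right (mul_le_mul_of_nonneg_left (key x) (cut_nonneg r x)) c0
      have c2 : cut r x * (k0 ^ (-bb n) * (‖z x‖ ^ 2 * dens g x)) ≤
          k0 ^ (-bb n) * (‖z x‖ ^ 2 * dens g x) :=
        mul_le_of_le_one_left (by positivity) (cut_le_one r x)
      have c3 : (ball (0 : E n) ρ).indicator (fun x => m / 2 * (‖u x‖ ^ 2 * dens g x)) x ≤
          cut r x * ((cq g T v v' x * ‖c.p (u x)‖ ^ 2 +
            cq g T v' v x * ‖c.p (c.q (u x))‖ ^ 2) / 2) * dens g x := by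
        by_cases hx : x ∈ ball (0 : E n) ρ
        · have e1 := hmin x (ball_subset_closedBall hx)
          have e2 := mul_le_mul_of_nonneg_right (e1.trans (min_le_left _ _))
            (sq_nonneg ‖c.p (u x)‖)
          have e3 := mul_le_mul_of_nonneg_right (e1.trans (min_le_right _ _))
            (sq_nonneg ‖c.p (c.q (u x))‖)
          rw [indicator_of_mem hx, cut_one ((mem_ball_zero_iff.1 hx).le.trans hrρ), one_mul,
            ← mul_assoc, ← c.norm_split (u x)]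
          exact mul_le_mul_of_nonneg_right (by linarith) c0
        · have e1 := (h.pos x).1
          have e2 := (h.pos x).2.1
          have e3 := cut_nonneg r x
          rw [indicator_of_notMem hx]
          positivity
      simp only [Pi.add_apply]
      linarith
  simp only [Pi.add_apply] at b4
  rw [integral_indicator measurableSet_ball, integral_add b1 b2, integral_const_mul,
    integral_const_mul, h.met.ibp_dv (lip_cut hr) (supp_cut hr)
      fun i => ContDiff.of_le (J1 i) (by norm_cast)] at b4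
  refine b4.trans (add_le_add ((neg_le_abs _).trans ?_) le_rfl)
  rw [hI', ← integral_const_mul, ← Real.norm_eq_abs]
  refine norm_integral_le_of_norm_le (i0.const_mul _) (Eventually.of_forall fun x => ?_)
  rw [norm_mul, Real.norm_of_nonneg (dens_nonneg g x), ← mul_assoc]
  refine mul_le_mul_of_nonneg_right ((Grow.abs_sum_le fun i => Grow.abs_mul_le
    ((abs_pd_le ((sm_cut r).diff x) i).trans (hcut r hr x)) (J2 x i)).trans (le_of_eq ?_))
    (dens_nonneg g x)
  ring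

end Vale.Agent.P366Z.Sp
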