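import Vale.Agent.P366Z.Sp.Api

/-!
# P366Z, block `SPINEX`: divergences of the currents, the weight
-/

open MeasureTheory Metric Filter Topology Set
open scoped ContDiff ENNReal
open Vale.Agent.P366.Stmt

noncomputable section

namespace Vale.Agent.P366Z.Sp

variable {n : ℕ}

theorem dcur_of (h1 : OMD) (h2 : SL) : DCUR := by
  intro n V _ _ c g R S hg hF G u x hG hu
  have d1 : DifferentiableAt ℝ u x := hu.differentiable (by simp) x
  have d2 : ∀ i, DifferentiableAt ℝ (fun y => inner ℝ (u y) (kv c S u i y)) x := fun i =>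
    d1.inner ℝ ((sm_kv c S hg hu i).differentiable (by simp) x)
  have d3 : DifferentiableAt ℝ (fun y => inner ℝ (u y) (u y)) x := d1.inner ℝ d1
  have d4 : ∀ i, DifferentiableAt ℝ (gr g G i) x := fun i => (hg.sm_gr hG i).diff x
  have e : cur c S G u = fun i y => G y * inner ℝ (u y) (kv c S u i y) +
      ((n : ℝ) - 1) / 2 * (inner ℝ (u y) (u y) * gr g G i y) := by
    funext i y
    rw [cur, real_inner_self_eq_norm_sq, mul_comm (gr g G i y)]
  rw [e, hg.dv_add (fun i => (hG.diff x).fun_mul (d2 i)) fun i => (d3.fun_mul (d4 i)).const_mul _,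
    hg.dv_smul (hG.diff x) d2, dv_const_mul, hg.dv_smul d3 d4, h2 n V c g R S hg hF u x hu,
    real_inner_self_eq_norm_sq, Finset.mul_sum Finset.univ _ 2, mul_comm (lap g G x)]
  refine congrArg₂ (· + ·) rfl (congrArg₂ (· * ·) rfl (congrArg₂ (· + ·) rfl
    (Finset.sum_congr rfl fun i _ => ?_)))
  rw [(h1 n V c g R S hg hF u u x d1 d1).1, real_inner_comm]
  ring

theorem sum3 (F : Fin n → Fin n → Fin n → ℝ) :
    ∑ i, ∑ k, ∑ j, F i k j = ∑ j, ∑ i, ∑ k, F i k j :=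
  (Finset.sum_congr rfl fun _ _ => Finset.sum_comm).trans Finset.sum_comm

theorem crs_alg (h T A : Fin n → Fin n → ℝ) (Γ D : Fin n → Fin n → Fin n → ℝ) (Q : Fin n → ℝ)
    (hs : ∀ i j, h i j = h j i) (hΓ : ∀ k i j, Γ k i j = Γ k j i) :
    ∑ i, (∑ k, ∑ j, (((-∑ l, Γ i i l * h l k - ∑ l, Γ k i l * h i l) * T k j + h i k * D i k j) *
      Q j + h i k * T k j * (A i j - ∑ l, Γ j i l * Q l)) +
      ∑ m, Γ i i m * ∑ k, ∑ j, h m k * T k j * Q j) =
    ∑ j, (∑ i, ∑ k, h i k * (D k i j - ∑ l, (Γ l k i * T l j + Γ l k j * T i l))) * Q j +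
      ∑ i, ∑ k, ∑ j, h i k * T k j * A i j := by
  have e1 : ∑ i, ∑ k, ∑ j, ∑ l, Γ i i l * h l k * T k j * Q j =
      ∑ i, ∑ m, ∑ k, ∑ j, Γ i i m * (h m k * T k j * Q j) :=
    Finset.sum_congr rfl fun i _ => (sum3 _).trans (by simp only [mul_assoc])
  have e2 : ∑ i, ∑ k, ∑ j, ∑ l, Γ k i l * h i l * T k j * Q j =
      ∑ j, ∑ i, ∑ k, ∑ l, h i k * (Γ l k i * T l j) * Q j :=
    (sum3 _).trans (Finset.sum_congr rfl fun j _ => Finset.sum_congr rfl fun i _ =>
      Finset.sum_comm.trans (Finset.sum_congr rfl fun k _ => Finset.sum_congr rfl fun l _ => by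
        rw [hΓ l i k]; ring))
  have e3 : ∑ i, ∑ k, ∑ j, h i k * D i k j * Q j = ∑ j, ∑ i, ∑ k, h i k * D k i j * Q j :=
    (sum3 _).trans (Finset.sum_congr rfl fun j _ => Finset.sum_comm.trans
      (Finset.sum_congr rfl fun i _ => Finset.sum_congr rfl fun k _ => by rw [hs k i]))
  have e4 : ∑ i, ∑ k, ∑ j, ∑ l, h i k * T k j * (Γ j i l * Q l) =
      ∑ j, ∑ i, ∑ k, ∑ l, h i k * (Γ l k j * T i l) * Q j :=
    ((Finset.sum_congr rfl fun _ _ => sum3 _).trans Finset.sum_comm).trans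
      (Finset.sum_congr rfl fun j _ => Finset.sum_comm.trans (Finset.sum_congr rfl fun i _ =>
        Finset.sum_congr rfl fun k _ => Finset.sum_congr rfl fun l _ => by rw [hs k i]; ring))
  simp only [add_mul, sub_mul, neg_mul, mul_add, mul_sub, Finset.sum_mul, Finset.mul_sum,
    Finset.sum_add_distrib, Finset.sum_sub_distrib, Finset.sum_neg_distrib]
  linarith

theorem dcrs_of (h1 : OMD) : DCRS := by
  intro n V _ _ c g R S hg hF T u w x hT _ hu hw
  have d1 : DifferentiableAt ℝ u x := hu.differentiable (by simp) x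
  have d2 : DifferentiableAt ℝ w x := hw.differentiable (by simp) x
  have d3 : ∀ j, DifferentiableAt ℝ (fun y => inner ℝ (u y) (ga c S j y (w y))) x := fun j =>
    d1.inner ℝ (((sm_ga c S j).differentiable (by simp) x).clm_apply d2)
  have d4 : ∀ i k j, DifferentiableAt ℝ (fun y => up g i k y * T y k j) x := fun i k j =>
    ((hg.sm_up i k).diff x).mul ((hT k j).diff x)
  rw [hg.dv_chr fun i => (sm_crs c S hg hT hu hw i).diff x]
  refine Eq.trans (Finset.sum_congr rfl fun i _ => congrArg (· + _) ?_)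
    (crs_alg (fun i k => up g i k x) (T x) _ (fun k i j => chr g k i j x)
      (fun k i j => pd k (fun y => T y i j) x) _ (fun i j => hg.up_sy i j x)
      fun k i j => hg.chr_sy k i j x)
  refine (pd_sum _ (fun k _ => .fun_sum fun j _ => (d4 i k j).fun_mul (d3 j)) i).trans
    (Finset.sum_congr rfl fun k _ => (pd_sum _ (fun j _ => (d4 i k j).fun_mul (d3 j)) i).trans
      (Finset.sum_congr rfl fun j _ => ?_))
  rw [pd_mul (d4 i k j) (d3 j), pd_mul ((hg.sm_up i k).diff x) ((hT k j).diff x), hg.pd_up,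
    (h1 n V c g R S hg hF u w x d1 d2).2.2.1]

theorem pow : POW := by
  intro n g v v' x hn hg hv hv' h0 h0'
  have p1 : ∀ {v : E n → ℝ}, Smooth v → (∀ y, 0 < v y) → ∀ p i y,
      pd i (fun y => v y ^ p) y = p * v y ^ (p - 1) * pd i v y := fun hv h0 p i y =>
    pd_rpow (hv.diff y) (h0 y).ne' p i
  have a1 := h0 x
  have a2 := h0' x
  have b1 := Real.rpow_pos_of_pos a1 (-bb n)
  have b2 := Real.rpow_pos_of_pos a2 (-bb n)
  refine ⟨?_, fun k => ?_, fun i => ?_⟩
  · have e : gr g (fun y => v y ^ (-bb n)) = fun i y => -bb n * v y ^ (-bb n - 1) * gr g v i y := by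
      funext i y
      simp only [gr, p1 hv h0, Finset.mul_sum]
      exact Finset.sum_congr rfl fun j _ => by ring
    have e' : ∑ i, pd i (fun y => -bb n * v y ^ (-bb n - 1)) x * gr g v i x =
        -bb n * ((-bb n - 1) * v x ^ (-bb n - 1 - 1)) * ip g v v x := by
      rw [ip_eq_gr, Finset.mul_sum]
      exact Finset.sum_congr rfl fun i _ => by rw [pd_const_mul, p1 hv h0]; ring
    rw [lap, e, hg.dv_smul (((hv.rpow h0 _).diff x).const_mul _) fun i => (hg.sm_gr hv i).diff x,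
      e', ip_of_pd (fun i => p1 hv h0 _ i x) fun i => p1 hv h0 _ i x, cl, ← lap,
      Real.rpow_sub_one a1.ne' (-bb n - 1), Real.rpow_sub_one a1.ne']
    have k1 := n_bb hn
    have k2 := nm1_bb hn
    field_simp
    linear_combination (-4 * v x * lap g v x) * k2 - 2 * ((n : ℝ) - 1) * bb n * ip g v v x * k1
  · simp only [gr, p1 hv h0, p1 hv' h0', Finset.mul_sum, Finset.sum_div, ← Finset.sum_add_distrib]
    refine Finset.sum_congr rfl fun j _ => ?_
    rw [pd_const_mul, pd_log ((hv.diff x).fun_mul (hv'.diff x)) (mul_pos a1 a2).ne',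
      pd_mul (hv.diff x) (hv'.diff x), Real.rpow_sub_one a1.ne', Real.rpow_sub_one a2.ne']
    field_simp
    ring
  · have := nm2_pos hn
    rw [p1 hv h0, Real.rpow_sub_one a1.ne']
    generalize v x ^ (-bb n) = t at b1
    rw [bb]
    field_simp

theorem rpow_lip {k p s t : ℝ} (hk : 0 < k) (hp : p ≤ 1) (hs : k ≤ s) (ht : k ≤ t) :
    |s ^ p - t ^ p| ≤ |p| * k ^ (p - 1) * |s - t| :=
  (convex_Ici k).norm_image_sub_le_of_norm_hasDerivWithin_le (f := fun s : ℝ => s ^ p)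
    (f' := fun s => p * s ^ (p - 1))
    (fun y hy => (Real.hasDerivAt_rpow_const (Or.inl (hk.trans_le hy).ne')).hasDerivWithinAt)
    (fun y hy => by
      rw [norm_mul, Real.norm_of_nonneg (Real.rpow_nonneg (hk.le.trans hy) _)]
      exact mul_le_mul_of_nonneg_left (Real.rpow_le_rpow_of_nonpos hk hy (by linarith))
        (norm_nonneg _)) ht hs

theorem asg_of (h : ASY) : ASG := by
  rintro n v a β hn hv ⟨k, hk, K, hb⟩ hA
  have : Nontrivial (E n) := Module.nontrivial_of_finrank_pos (R := ℝ) (by simp; omega)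
  have : NoncompactSpace (E n) := NormedSpace.noncompactSpace ℝ _
  have ha : k ≤ a := ge_of_tendsto' (h n v v a a β β hn hv hv hA).1.1 fun x => (hb x).1
  obtain ⟨C, R, hC⟩ := hA
  have hb0 := bb_pos hn
  have hn' : (3 : ℝ) ≤ n := by exact_mod_cast hn
  have hγ : 0 < gam n := zero_lt_one.trans (one_lt_gam hn)
  set L := |-bb n - 1| * k ^ (-bb n - 1 - 1) with hL
  have hL0 : 0 ≤ L := by positivity
  refine ⟨hk.trans_le ha, gam n * (k ^ (-bb n - 1) * C) + (n - 1) * |β| * (L * (|β| + |C|)),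
    max R 1, fun x hx i => ?_⟩
  obtain ⟨h1, h2⟩ := hC x ((le_max_left _ _).trans hx)
  have r1 : 1 ≤ ‖x‖ := (le_max_right _ _).trans hx
  have r0 : 0 < ‖x‖ := zero_lt_one.trans_le r1
  have s0 : 0 < ‖x‖ ^ (-n : ℝ) := Real.rpow_pos_of_pos r0 _
  have t1 : ‖x‖ ^ (2 - n : ℝ) ≤ ‖x‖⁻¹ :=
    (Real.rpow_le_rpow_of_exponent_le r1 (by linarith)).trans_eq (Real.rpow_neg_one _)
  have t2 : ‖x‖ ^ (1 - n : ℝ) ≤ ‖x‖⁻¹ :=
    (Real.rpow_le_rpow_of_exponent_le r1 (by linarith)).trans_eq (Real.rpow_neg_one _)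
  have t3 : |v x - a| ≤ (|β| + |C|) * ‖x‖⁻¹ := by
    have e : v x - a = β * ‖x‖ ^ (2 - n : ℝ) + (v x - a - β * ‖x‖ ^ (2 - n : ℝ)) := by ring
    rw [e, add_mul]
    refine (abs_add_le _ _).trans (add_le_add ?_ (h1.trans ?_))
    · rw [abs_mul, abs_of_nonneg (Real.rpow_nonneg r0.le _)]
      exact mul_le_mul_of_nonneg_left t1 (abs_nonneg _)
    · exact mul_le_mul (le_abs_self _) t2 (Real.rpow_nonneg r0.le _) (abs_nonneg _)
  have t4 : |v x ^ (-bb n - 1) - a ^ (-bb n - 1)| ≤ L * ((|β| + |C|) * ‖x‖⁻¹) :=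
    (rpow_lip hk (by linarith) (hb x).1 ha).trans (mul_le_mul_of_nonneg_left t3 hL0)
  have t5 : |x i| ≤ ‖x‖ := PiLp.norm_apply_le x i
  have t6 : |v x ^ (-bb n - 1)| ≤ k ^ (-bb n - 1) := by
    rw [abs_of_nonneg (Real.rpow_nonneg (hk.le.trans (hb x).1) _)]
    exact Real.rpow_le_rpow_of_nonpos hk (hb x).1 (by linarith)
  have e : ((n : ℝ) - 1) / 2 * pd i (fun y => v y ^ (-bb n)) x -
      ((n : ℝ) - 1) * β * a ^ (-bb n - 1) * x i * ‖x‖ ^ (-n : ℝ) =
      -gam n * (v x ^ (-bb n - 1) * (pd i v x + (n - 2) * β * x i * ‖x‖ ^ (-n : ℝ))) +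
        (n - 1) * β * ((v x ^ (-bb n - 1) - a ^ (-bb n - 1)) * x i * ‖x‖ ^ (-n : ℝ)) := by
    rw [pd_rpow (hv.diff x) (hk.trans_le (hb x).1).ne']
    linear_combination (-(v x ^ (-bb n - 1) * pd i v x) / 2) * nm1_bb hn +
      (v x ^ (-bb n - 1) * β * x i * ‖x‖ ^ (-n : ℝ)) * nm2_gam hn
  rw [e, add_mul]
  refine (abs_add_le _ _).trans (add_le_add ?_ ?_)
  · rw [abs_mul, abs_neg, abs_of_pos hγ, abs_mul, mul_assoc (gam n), mul_assoc _ C]
    exact mul_le_mul_of_nonneg_left (mul_le_mul t6 (h2 i) (abs_nonneg _) (by positivity)) hγ.le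
  · rw [abs_mul, abs_mul, abs_mul, abs_mul, abs_of_pos s0, abs_of_pos (by linarith : (0 : ℝ) < n - 1),
      mul_assoc ((n - 1) * |β|)]
    refine mul_le_mul_of_nonneg_left (mul_le_mul_of_nonneg_right ?_ s0.le)
      (mul_nonneg (by linarith) (abs_nonneg _))
    refine (mul_le_mul t4 t5 (abs_nonneg _) (by positivity)).trans_eq ?_
    rw [mul_assoc L, mul_assoc (|β| + |C|), inv_mul_cancel₀ r0.ne', mul_one]

end Vale.Agent.P366Z.Sp
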