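import Vale.Agent.P366Z.Sp.Api

/-!
# P366Z: the assembly of the block `SPINEX`
-/

open MeasureTheory Metric Filter Topology Set
open scoped ContDiff ENNReal
open Vale.Agent.P366.Stmt

noncomputable section

namespace Vale.Agent.P366Z.Sp

variable {n : ℕ} {V : Type} [NormedAddCommGroup V] [InnerProductSpace ℝ V]

theorem cont_rhs {g T : Field n} {v v' : E n → ℝ} {R : ℝ} (h : Dat g T v v' R) (c : Cm n V)
    (S : Cn g R) {u w : E n → V} (hu : ContDiff ℝ ∞ u) (hw : ContDiff ℝ ∞ w) :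
    Continuous (rhs c S T v v' u w) := by
  have h1 := (sm_al h.dim h.met h.smT h.smv h.v_pos).cont
  have h2 := (sm_al h.dim h.met h.smT h.smv' h.v'_pos).cont
  exact (((h.met.sm_dv (h.sm_jj c S hu hw)).cont).add ((h.smv.rpow h.v_pos _).cont.mul
    (((sm_di c S hu).continuous.sub (h1.smul hw.continuous)).norm.pow 2))).add
    ((h.smv'.rpow h.v'_pos _).cont.mul
      (((sm_di c S hw).continuous.add (h2.smul hu.continuous)).norm.pow 2))

theorem int_cut {f : E n → ℝ} (hf : Continuous f) {r : ℝ} (hr : 0 < r) :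
    Integrable fun x => cut r x * f x :=
  integrable_of_out ((sm_cut r).cont.mul hf) (R := 2 * r) fun y hy => by
    rw [cut_zero hr hy, zero_mul]

theorem fin_key (hF : FLUX) (hI : ITER) (hCo : COER) {g T : Field n} {v v' : E n → ℝ} {R : ℝ}
    (h : Dat g T v v' R) (hL : Lin n V) (c : Cl2 n V) (S : Cn g R) {y₀ : V} (hy : ‖y₀‖ = 1)
    (hp : c.p y₀ = 0) {c₀ C₁ R₁ : ℝ} (hc : ∀ x : E n, R₁ ≤ ‖x‖ → ∀ i,
      |((n : ℝ) - 1) / 2 * pd i (fun y => v y ^ (-bb n)) x - c₀ * x i * ‖x‖ ^ (-n : ℝ)| ≤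
        C₁ * ‖x‖ ^ (-n : ℝ)) {e : ℝ} (he : 0 < e) :
    ∃ u w : E n → V, ContDiff ℝ ∞ u ∧ ContDiff ℝ ∞ w ∧ (∃ R' : ℝ, ∀ x, R' ≤ ‖x‖ → u x = y₀) ∧
      ∀ᶠ r in atTop, ∫ x, cut r x * (rhs c.toCm S T v v' u w x * dens g x) ≤
        c₀ * omega n + e := by
  obtain ⟨k, hk, K, hb⟩ := h.bd
  have hpot := h.pot c
  have hM : 0 < k ^ (-bb n) := Real.rpow_pos_of_pos hk _
  have hG : ∀ t, k ≤ t → t ^ (-bb n) ≤ k ^ (-bb n) := fun t ht =>
    Real.rpow_le_rpow_of_nonpos hk ht (by linarith [bb_pos h.dim])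
  have f1 : ContDiff ℝ ∞ fun x => -dq c.toCm S (bo c.p c.q g T v v') (fun _ => y₀) x :=
    (sm_dq c.toCm S hpot.sm contDiff_const).neg
  have f2 : ∀ x : E n, R + 1 ≤ ‖x‖ →
      -dq c.toCm S (bo c.p c.q g T v v') (fun _ => y₀) x = 0 := fun x hx => by
    have hx' : R < ‖x‖ := by linarith
    simp [dq, di_out _ S hx', pv_const, (hpot.out x hx').1]
  obtain ⟨ξ, x1, ⟨R', x2⟩, x3⟩ := hI n V c.toCm g R S h.met h.flat h.dim hL _ _ hpot
    (hCo n V c g T R S v v' h) _ f1 ⟨R + 1, f2⟩ (e / 2 / k ^ (-bb n)) (by positivity)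
  have z1 : ContDiff ℝ ∞ fun x => y₀ + ξ x := contDiff_const.add x1
  have u1 : ContDiff ℝ ∞ fun x => (c.p * c.q) (y₀ + ξ x) := (c.p * c.q).contDiff.comp z1
  have w1 : ContDiff ℝ ∞ fun x => c.p (y₀ + ξ x) := c.p.contDiff.comp z1
  have y1 : (c.p * c.q) y₀ = y₀ := by
    have := c.pq y₀
    rwa [hp, map_zero, add_zero] at this
  have u2 : ∀ x, R' ≤ ‖x‖ → (c.p * c.q) (y₀ + ξ x) = y₀ := fun x hx => by
    rw [x2 x hx, add_zero, y1]
  have w2 : ∀ x, R' ≤ ‖x‖ → c.p (y₀ + ξ x) = 0 := fun x hx => by rw [x2 x hx, add_zero, hp]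
  refine ⟨_, _, u1, w1, ⟨R', u2⟩, ?_⟩
  obtain ⟨J, hJ⟩ : ∃ J, J = jj c.toCm S T v v' (fun x => (c.p * c.q) (y₀ + ξ x))
    fun x => c.p (y₀ + ξ x) := ⟨_, rfl⟩
  have J1 : ∀ i, Smooth (J i) := fun i => hJ ▸ h.sm_jj c.toCm S u1 w1 i
  have J2 : ∀ i, Smooth fun x => dens g x * J i x := fun i => ContDiff.mul h.met.sm_dens (J1 i)
  have J3 := hF n (fun i x => dens g x * J i x) c₀ h.dim J2
    ⟨C₁, max R₁ (max R R' + 1), fun x hx i => by
      have a1 : R < ‖x‖ := by linarith [le_max_right R₁ (max R R' + 1), le_max_left R R']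
      have a2 : R' < ‖x‖ := by linarith [le_max_right R₁ (max R R' + 1), le_max_right R R']
      have a3 : ∀ j, pv j (fun x => (c.p * c.q) (y₀ + ξ x)) x = 0 := fun j =>
        pv_out (fun y hy => u2 y hy.le) a2 j
      have a4 : dens g x * J i x = ((n : ℝ) - 1) / 2 * pd i (fun y => v y ^ (-bb n)) x := by
        rw [h.flat.dens_eq a1.le, hJ]
        simp only [jj, cur, crs, kv, nb_out _ S a1, di_out _ S a1, a3, u2 x a2.le, w2 x a2.le, hy,
          gr_of_eq (h.flat x a1.le), gr_eu]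
        simp
      rw [a4]
      exact hc x ((le_max_left _ _).trans hx) i⟩
  obtain ⟨d, hd⟩ : ∃ d : E n → V, d = fun x => -dq c.toCm S (bo c.p c.q g T v v') (fun _ => y₀) x -
    dq c.toCm S (bo c.p c.q g T v v') ξ x := ⟨_, rfl⟩
  have d1 : Continuous d := hd ▸ (f1.sub (sm_dq c.toCm S hpot.sm x1)).continuous
  have d2 : ∀ x : E n, max R R' + 1 ≤ ‖x‖ → d x = 0 := fun x hx => by
    have a2 : R' < ‖x‖ := by linarith [le_max_right R R']
    have a3 : ξ =ᶠ[𝓝 x] fun _ => 0 := by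
      filter_upwards [(isOpen_lt continuous_const continuous_norm).mem_nhds a2] with z hz
      exact x2 z (le_of_lt hz)
    rw [hd]
    simp only
    rw [f2 x (by linarith [le_max_left R R']), dq_congr _ S _ a3]
    simp [dq, di, nb, pv_const]
  have d3 : Integrable fun x => ‖d x‖ ^ 2 * dens g x :=
    integrable_of_out ((d1.norm.pow 2).mul h.met.sm_dens.cont) (R := max R R' + 1)
      fun y hy => by simp [d2 y hy]
  have d4 : ∫ x, ‖d x‖ ^ 2 * dens g x < e / 2 / k ^ (-bb n) := by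
    rw [hd]
    exact x3
  have d5 : ∀ x, rhs c.toCm S T v v' (fun x => (c.p * c.q) (y₀ + ξ x)) (fun x => c.p (y₀ + ξ x)) x *
      dens g x ≤ ∑ i, pd i (fun y => dens g y * J i y) x +
        k ^ (-bb n) * (‖d x‖ ^ 2 * dens g x) := fun x => by
    have a1 : dq c.toCm S (bo c.p c.q g T v v') (fun x => y₀ + ξ x) x = -d x := by
      rw [dq_add _ S _ (differentiableAt_const _) (sm_diff x1 x), hd]
      simp only
      abel
    have a2 : di c.toCm S (fun x => (c.p * c.q) (y₀ + ξ x)) x - al g T v x • c.p (y₀ + ξ x) =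
        c.p (c.q (-d x)) := by
      rw [di_p S c.pqe (sm_diff z1 x), ← a1]
      simp only [dq, bo, add_apply, smul_apply, mul_apply_eq_comp, map_add (c.q), map_add (c.p),
        map_smul, c.pqp, c.qq, map_zero, smul_zero, add_zero, neg_smul, map_neg, neg_apply]
      abel
    have a3 : di c.toCm S (fun x => c.p (y₀ + ξ x)) x + al g T v' x • (c.p * c.q) (y₀ + ξ x) =
        c.p (-d x) := by
      rw [di_p S c.pe (sm_diff z1 x), ← a1]
      simp only [dq, bo, add_apply, smul_apply, mul_apply_eq_comp, map_add (c.p),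
        map_smul, c.pp, smul_zero, zero_add, neg_smul, map_neg, neg_apply, neg_zero]
    have a4 := c.norm_split (-d x)
    rw [norm_neg] at a4
    have a5 := mul_le_mul_of_nonneg_right (hG _ (hb x).1) (sq_nonneg ‖c.p (c.q (-d x))‖)
    have a6 := mul_le_mul_of_nonneg_right (hG _ (hb x).2.2.1) (sq_nonneg ‖c.p (-d x)‖)
    have a7 := h.met.dens_pos x
    rw [rhs, a2, a3, ← hJ, dv, add_assoc, add_mul, div_mul_cancel₀ _ a7.ne', ← mul_assoc, ← a4]
    refine add_le_add le_rfl (mul_le_mul_of_nonneg_right ?_ a7.le)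
    linarith
  have J4 : Continuous fun x => ∑ i, pd i (fun y => dens g y * J i y) x :=
    continuous_finsetSum _ fun i _ => ((J2 i).pd i).cont
  filter_upwards [J3.eventually (gt_mem_nhds (show c₀ * omega n < c₀ * omega n + e / 2 by
    linarith)), eventually_gt_atTop 0] with r h1 hr
  have b1 := int_cut J4 hr
  have b2 := d3.const_mul (k ^ (-bb n))
  have b3 := integral_mono (int_cut ((cont_rhs h c.toCm S u1 w1).mul h.met.sm_dens.cont) hr)
    (b1.add b2) fun x => by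
      have c1 := mul_le_mul_of_nonneg_left (d5 x) (cut_nonneg r x)
      have c2 : cut r x * (k ^ (-bb n) * (‖d x‖ ^ 2 * dens g x)) ≤
          k ^ (-bb n) * (‖d x‖ ^ 2 * dens g x) := mul_le_of_le_one_left
        (mul_nonneg hM.le (mul_nonneg (sq_nonneg _) (dens_nonneg g x))) (cut_le_one r x)
      simp only [Pi.add_apply, Pi.mul_apply]
      linarith
  simp only [Pi.add_apply, Pi.mul_apply] at b3
  rw [integral_add b1 b2, integral_const_mul] at b3
  rw [lt_div_iff₀ hM] at d4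
  linarith

theorem spinex_of (hA : ASY) (hF : FLUX) (hG : ASG) (hX : CLX) (hC : CON) (hW : WIT) (hW2 : WIT2)
    (hL : LIN2) (hI : ITER) (hCo : COER) : SPINEX := by
  intro n hn
  have hn0 : 0 < n := by omega
  have hn1 : (0 : ℝ) < (n : ℝ) - 1 := by linarith [nm2_pos hn]
  have hω := omega_pos hn0
  refine ⟨((n : ℝ) - 1) * omega n, mul_pos hn1 hω, ?_⟩
  rintro g T v v' R a β hg hf hT hTs hT0 hv hv' ⟨k, hk, K, hb⟩ hasy hpos
  obtain ⟨N, c, y₀, hy, hp⟩ := hX n
  obtain ⟨S⟩ := hC n g R hg hf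
  obtain ⟨C, hC'⟩ := (hA n v v a a β β hn hv hv hasy).1.2
  have h : Dat g T v v' R := ⟨hn, hg, hf, hT, hTs, hT0, hv, hv', ⟨k, hk, max K C, fun x =>
    ⟨(hb x).1, (hb x).2.1.trans (le_max_left _ _), (hb x).2.2.1,
      (hb x).2.2.2.1.trans (le_max_left _ _), (hC' x).trans (le_max_right _ _),
      (hb x).2.2.2.2.trans (le_max_left _ _)⟩⟩, hpos⟩
  obtain ⟨ha, C₁, R₁, hc⟩ := hG n v a β hn hv ⟨k, hk, K, fun x => ⟨(hb x).1, (hb x).2.1⟩⟩ hasy
  have key := fun e he => fin_key hF hI hCo h (hL n N hn0) c S hy hp hc (e := e) he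
  have pos : ∀ u w : E n → E N, ContDiff ℝ ∞ u → ContDiff ℝ ∞ w → ∀ (r : ℝ) (x : E n),
      0 ≤ cut r x * (rhs c.toCm S T v v' u w x * dens g x) := fun u w hu hw r x => by
    refine mul_nonneg (cut_nonneg r x) (mul_nonneg
      (le_trans ?_ (hW n _ c.toCm g T R S v v' u w x h hu hw)) (dens_nonneg g x))
    have h1 := (hpos x).1
    have h2 := (hpos x).2.1
    positivity
  have hap : 0 < a ^ (-bb n - 1) := Real.rpow_pos_of_pos ha _
  refine ⟨?_, fun e he => ?_⟩
  · have h1 : 0 ≤ ((n : ℝ) - 1) * β * a ^ (-bb n - 1) * omega n :=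
      le_of_forall_pos_le_add fun e he => by
        obtain ⟨u, w, hu, hw, -, h2⟩ := key e he
        obtain ⟨r, hr⟩ := h2.exists
        exact (integral_nonneg (pos u w hu hw r)).trans hr
    by_contra h2
    have h3 : ((n : ℝ) - 1) * β * a ^ (-bb n - 1) * omega n < 0 :=
      mul_neg_of_neg_of_pos (mul_neg_of_neg_of_pos (mul_neg_of_pos_of_neg hn1 (not_le.1 h2)) hap) hω
    linarith
  · obtain ⟨u, w, hu, hw, h1, h2⟩ := key e he
    refine ⟨N, ⟨c.e, c.skew, c.rel⟩, u, y₀, hu, hy, h1, ?_⟩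
    have := nontriv hn0
    have e1 : {x : E n | R ≤ ‖x‖} =ᵐ[volume] ⋃ m : ℕ, {x : E n | R < ‖x‖ ∧ ‖x‖ ≤ m} := by
      have h3 : ∀ᵐ x : E n, x ∉ sphere (0 : E n) R :=
        measure_eq_zero_iff_ae_notMem.1 (Measure.addHaar_sphere volume 0 R)
      filter_upwards [h3] with x hx
      have h4 : ‖x‖ ≠ R := by simpa using hx
      refine propext ⟨fun h5 => ?_, fun h5 => ?_⟩
      · obtain ⟨m, hm⟩ := exists_nat_ge ‖x‖
        exact mem_iUnion.2 ⟨m, lt_of_le_of_ne h5 h4.symm, hm⟩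
      · obtain ⟨m, hm⟩ := mem_iUnion.1 h5
        exact le_of_lt hm.1
    have e2 : Monotone fun m : ℕ => {x : E n | R < ‖x‖ ∧ ‖x‖ ≤ m} :=
      fun m m' hm x hx => ⟨hx.1, hx.2.trans (by exact_mod_cast hm)⟩
    rw [setLIntegral_congr e1, setLIntegral_iUnion_of_directed _ e2.directed_le]
    refine iSup_le fun m => ?_
    obtain ⟨r, h3, h4, h5⟩ := (h2.and ((eventually_ge_atTop (m : ℝ)).and
      (eventually_gt_atTop 0))).exists
    have h6 := int_cut ((cont_rhs h c.toCm S hu hw).mul hg.sm_dens.cont) h5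
    have h7 : MeasurableSet {x : E n | R < ‖x‖ ∧ ‖x‖ ≤ m} :=
      (measurableSet_lt measurable_const measurable_norm).inter
        (measurableSet_le measurable_norm measurable_const)
    calc _ ≤ ∫⁻ x in {x : E n | R < ‖x‖ ∧ ‖x‖ ≤ m},
          ENNReal.ofReal (cut r x * (rhs c.toCm S T v v' u w x * dens g x)) := by
          refine setLIntegral_mono' h7 fun x hx => ENNReal.ofReal_le_ofReal ?_
          rw [cut_one (hx.2.trans h4), hf.dens_eq hx.1.le, one_mul, mul_one]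
          exact hW2 n _ c.toCm g T R S v v' u w x h hu hw hx.1
      _ ≤ ∫⁻ x, ENNReal.ofReal (cut r x * (rhs c.toCm S T v v' u w x * dens g x)) :=
          setLIntegral_le_lintegral _ _
      _ = ENNReal.ofReal (∫ x, cut r x * (rhs c.toCm S T v v' u w x * dens g x)) :=
          (ofReal_integral_eq_lintegral_ofReal h6 (Eventually.of_forall (pos u w hu hw r))).symm
      _ ≤ _ := ENNReal.ofReal_le_ofReal (h3.trans (le_of_eq (by ring)))

end Vale.Agent.P366Z.Sp
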