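import Vale.Agent.P366Z.Sp.Sk
import Vale.Agent.P366Z.Calc3
import Mathlib.LinearAlgebra.Matrix.BilinearForm

/-!
# P366Z: orthonormal frames and connection coefficients (FRM, CON)
-/

open Filter Topology Matrix
open scoped ContDiff
open Vale.Agent.P366.Stmt

noncomputable section

namespace Vale.Agent.P366Z.Sp

namespace ConA

variable {n : ℕ} {g : Field n}

/-- the metric as a bilinear form -/
def B (g : Field n) (x : E n) : LinearMap.BilinForm ℝ (Fin n → ℝ) := Matrix.toBilin' (mat g x)

theorem B_eq (x : E n) (u v : Fin n → ℝ) : B g x u v = ∑ i, ∑ j, g x i j * u i * v j := by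
  rw [B, Matrix.toBilin'_apply]
  exact Finset.sum_congr rfl fun i _ => Finset.sum_congr rfl fun j _ => by rw [mul_comm (u i)]; rfl

theorem B_sy (hg : Met g) (x : E n) (u v : Fin n → ℝ) : B g x u v = B g x v u := by
  rw [B_eq, B_eq, Finset.sum_comm]
  exact Finset.sum_congr rfl fun i _ => Finset.sum_congr rfl fun j _ => by rw [hg.sy]; ring

theorem B_sm (hg : Met g) {u v : E n → Fin n → ℝ} (hu : ∀ i, Smooth fun x => u x i)
    (hv : ∀ i, Smooth fun x => v x i) : Smooth fun x => B g x (u x) (v x) := by
  simp only [B_eq]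
  exact ContDiff.sum fun i _ => ContDiff.sum fun j _ =>
    ContDiff.mul (ContDiff.mul (hg.sm i j) (hu i)) (hv j)

theorem B_eu {x : E n} (h : g x = eu n x) (a b : Fin n) :
    B g x (Pi.single a 1) (Pi.single b 1) = if a = b then 1 else 0 := by
  rw [B, Matrix.toBilin'_single]
  exact congrFun (congrFun h a) b

theorem gs (hg : Met g) (k : ℕ) (hk : k ≤ n) : ∃ f : Fin n → E n → Fin n → ℝ,
    (∀ a i, Smooth fun x => f a x i) ∧
    (∀ a b : Fin n, a.val < k → b.val < k → ∀ x, B g x (f a x) (f b x) = if a = b then 1 else 0) ∧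
    (∀ a i : Fin n, a.val < k → a < i → ∀ x, f a x i = 0) ∧
    ∀ a : Fin n, a.val < k → ∀ x, g x = eu n x → f a x = Pi.single a 1 := by
  induction k with
  | zero => exact ⟨0, fun _ _ => contDiff_const, fun _ _ h => absurd h (Nat.not_lt_zero _),
      fun _ _ h => absurd h (Nat.not_lt_zero _), fun _ h => absurd h (Nat.not_lt_zero _)⟩
  | succ k ih =>
    obtain ⟨f, h1, h2, h3, h4⟩ := ih (by omega)
    obtain ⟨κ, hκ⟩ : ∃ κ : Fin n, κ.val = k := ⟨⟨k, hk⟩, rfl⟩
    let S := Finset.univ.filter fun a : Fin n => a.val < k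
    have hS : ∀ a ∈ S, a.val < k := fun a ha => (Finset.mem_filter.1 ha).2
    let u : E n → Fin n → ℝ := fun x =>
      Pi.single κ 1 - ∑ a ∈ S, B g x (Pi.single κ 1) (f a x) • f a x
    have ui : ∀ x i, u x i = (Pi.single κ 1 : Fin n → ℝ) i -
        ∑ a ∈ S, B g x (Pi.single κ 1) (f a x) * f a x i := fun x i => by
      simp [u, Finset.sum_apply]
    have u1 : ∀ i, Smooth fun x => u x i := fun i => by
      simp only [ui]
      exact contDiff_const.sub (ContDiff.sum fun a _ =>
        ContDiff.mul (B_sm hg (fun _ => contDiff_const) (h1 a)) (h1 a i))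
    have u2 : ∀ x i, κ ≤ i → u x i = (Pi.single κ 1 : Fin n → ℝ) i := fun x i hi => by
      rw [ui, Finset.sum_eq_zero fun a ha => ?_, sub_zero]
      have := hS a ha
      rw [h3 a i this (lt_of_lt_of_le (Fin.lt_def.2 (by omega)) hi), mul_zero]
    have u3 : ∀ x, 0 < B g x (u x) (u x) := fun x => by
      rw [B_eq]
      refine hg.g_pos x fun h0 => ?_
      have := u2 x κ le_rfl
      rw [h0] at this
      simp at this
    have u4 : ∀ x (b : Fin n), b.val < k → B g x (u x) (f b x) = 0 := fun x b hb => by
      simp only [u, map_sub, map_sum, map_smul, LinearMap.sub_apply, LinearMap.sum_apply,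
        LinearMap.smul_apply, smul_eq_mul]
      rw [Finset.sum_eq_single b (fun a ha hab => by rw [h2 a b (hS a ha) hb, if_neg hab, mul_zero])
        (fun h => absurd (Finset.mem_filter.2 ⟨Finset.mem_univ b, hb⟩) h), h2 b b hb hb,
        if_pos rfl, mul_one, sub_self]
    let w : E n → Fin n → ℝ := fun x => (√(B g x (u x) (u x)))⁻¹ • u x
    have cs : ∀ a : Fin n, a.val < k + 1 → a = κ ∨ (a ≠ κ ∧ a.val < k) := fun a ha => by
      by_cases h : a = κ
      · exact Or.inl h
      · exact Or.inr ⟨h, lt_of_le_of_ne (by omega) fun e => h (Fin.ext (e.trans hκ.symm))⟩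
    have w4 : ∀ x (b : Fin n), b.val < k → B g x (w x) (f b x) = 0 := fun x b hb => by
      simp only [w, map_smul, LinearMap.smul_apply, u4 x b hb, smul_zero]
    refine ⟨Function.update f κ w, fun a i => ?_, fun a b ha hb x => ?_, fun a i ha hi x => ?_,
      fun a ha x hx => ?_⟩
    · by_cases h : a = κ
      · rw [h, Function.update_self]
        exact ContDiff.mul (((B_sm hg u1 u1).sqrt fun x => (u3 x).ne').inv
          fun x => (Real.sqrt_pos.2 (u3 x)).ne') (u1 i)
      · rw [Function.update_of_ne h]
        exact h1 a i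
    · rcases cs a ha with rfl | ⟨ha1, ha2⟩ <;> rcases cs b hb with hb0 | ⟨hb1, hb2⟩
      · subst hb0
        have := Real.sqrt_pos.2 (u3 x)
        simp only [Function.update_self, w, map_smul, LinearMap.smul_apply, smul_eq_mul, if_true]
        rw [← mul_assoc, ← mul_inv, Real.mul_self_sqrt (u3 x).le, inv_mul_cancel₀ (u3 x).ne']
      · rw [Function.update_self, Function.update_of_ne hb1, if_neg hb1.symm, w4 x b hb2]
      · subst hb0
        rw [Function.update_self, Function.update_of_ne ha1, if_neg ha1, B_sy hg, w4 x a ha2]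
      · rw [Function.update_of_ne ha1, Function.update_of_ne hb1, h2 a b ha2 hb2]
    · rcases cs a ha with rfl | ⟨ha1, ha2⟩
      · rw [Function.update_self]
        simp only [w, Pi.smul_apply, u2 x i hi.le, Pi.single_eq_of_ne hi.ne', smul_zero]
      · rw [Function.update_of_ne ha1, h3 a i ha2 hi]
    · rcases cs a ha with rfl | ⟨ha1, ha2⟩
      · have e : u x = Pi.single a 1 := by
          simp only [u]
          rw [Finset.sum_eq_zero fun b hb => ?_, sub_zero]
          have := hS b hb
          rw [h4 b this x hx, B_eu hx, if_neg fun e => by subst e; omega, zero_smul]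
        rw [Function.update_self]
        simp only [w, e, B_eu hx, if_true, Real.sqrt_one, inv_one, one_smul]
      · rw [Function.update_of_ne ha1, h4 a ha2 x hx]

theorem up_of_on {x : E n} {F : Fin n → Fin n → ℝ}
    (h : ∀ a b, ∑ i, ∑ j, g x i j * F a i * F b j = if a = b then 1 else 0) (i j : Fin n) :
    ∑ a, F a i * F a j = up g i j x := by
  have e1 : Matrix.of F * (mat g x * (Matrix.of F)ᵀ) = 1 := by
    ext a b
    rw [Matrix.one_apply, ← h a b]
    simp only [Matrix.mul_apply, Matrix.transpose_apply, Matrix.of_apply, Finset.mul_sum]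
    exact Finset.sum_congr rfl fun i _ => Finset.sum_congr rfl fun j _ => by
      rw [show mat g x i j = g x i j from rfl]; ring
  have e2 : mat g x * ((Matrix.of F)ᵀ * Matrix.of F) = 1 := by
    rw [← Matrix.mul_assoc]
    exact mul_eq_one_comm.1 e1
  rw [up, Matrix.inv_eq_right_inv e2]
  simp [Matrix.mul_apply]

end ConA

open ConA

/-- **FRM** -/
theorem frm : FRM := by
  intro n g R hg hf
  obtain ⟨f, h1, h2, -, h4⟩ := gs hg n le_rfl
  have on : ∀ a b x, ∑ i, ∑ j, g x i j * f a x i * f b x j = if a = b then 1 else 0 :=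
    fun a b x => (B_eq x _ _).symm.trans (h2 a b a.2 b.2 x)
  refine ⟨fun a i x => f a x i, h1, fun i j x => up_of_on (fun a b => on a b x) i j, on,
    fun a i x hx => ?_⟩
  rw [h4 a a.2 x (hf x hx), Pi.single_apply]
  exact if_congr eq_comm rfl rfl

/-- **CON** -/
theorem con_of (h : FRM) : CON := by
  intro n g R hg hf
  obtain ⟨f, hF⟩ := h n g R hg hf
  let D : Fin n → Fin n → Fin n → E n → ℝ := fun i a j x =>
    pd i (f a j) x + ∑ k, chr g j i k x * f a k x
  have sD : ∀ i a j, Smooth (D i a j) := fun i a j =>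
    ContDiff.add ((hF.sm a j).pd i) (ContDiff.sum fun k _ =>
      ContDiff.mul (hg.sm_chr j i k) (hF.sm a k))
  refine ⟨⟨f, fun i a b x => B g x (fun j => D i a j x) fun k => f b k x, hF,
    fun i a b => B_sm hg (sD i a) (hF.sm b), fun i a b x => ?_, fun i a b x hx => ?_,
    fun i a j x => ?_⟩⟩
  · have e0 : pd i (fun y => ∑ j, ∑ k, g y j k * f a j y * f b k y) x = 0 := by
      simp only [hF.on]
      exact pd_const _ _ _
    have dg := fun j k => (hg.sm j k).diff x
    have df := fun a j => (hF.sm a j).diff x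
    rw [pd_sum _ fun j _ => DifferentiableAt.fun_sum fun k _ =>
      ((dg j k).fun_mul (df a j)).fun_mul (df b k)] at e0
    simp only [pd_sum _ fun k _ => ((dg _ k).fun_mul (df a _)).fun_mul (df b k),
      pd_mul ((dg _ _).fun_mul (df a _)) (df b _), pd_mul (dg _ _) (df a _), hg.pd_g] at e0
    rw [eq_neg_iff_add_eq_zero, B_sy hg x (fun j => D i b j x), B_eq, B_eq, ← e0]
    have s1 : ∑ j, ∑ k, g x j k * (∑ l, chr g j i l x * f a l x) * f b k x =
        ∑ j, ∑ k, (∑ l, g x k l * chr g l i j x) * f a j x * f b k x := by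
      simp only [Finset.mul_sum, Finset.sum_mul]
      rw [Finset.sum_comm, Finset.sum_comm (f := fun j k => ∑ l, g x k l * chr g l i j x *
        f a j x * f b k x)]
      refine Finset.sum_congr rfl fun k _ => Finset.sum_comm.trans ?_
      exact Finset.sum_congr rfl fun j _ => Finset.sum_congr rfl fun l _ => by
        rw [hg.sy x l k]; ring
    have s2 : ∑ j, ∑ k, g x j k * f a j x * (∑ l, chr g k i l x * f b l x) =
        ∑ j, ∑ k, (∑ l, g x j l * chr g l i k x) * f a j x * f b k x := by
      simp only [Finset.mul_sum, Finset.sum_mul]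
      refine Finset.sum_congr rfl fun j _ => Finset.sum_comm.trans ?_
      exact Finset.sum_congr rfl fun k _ => Finset.sum_congr rfl fun l _ => by ring
    simp only [D, mul_add, add_mul, Finset.sum_add_distrib, s1, s2]
    ring
  · have e : (fun j => D i a j x) = 0 := funext fun j => by
      have e1 : f a j =ᶠ[𝓝 x] fun _ => if a = j then 1 else 0 :=
        (continuous_norm.continuousAt.eventually (lt_mem_nhds hx)).mono
          fun y hy => hF.flat a j y hy.le
      simp only [D, pd_congr e1, pd_const, chr_of_ev (hf.ev hx), chr_eu, zero_mul,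
        Finset.sum_const_zero, add_zero, Pi.zero_apply]
    simp only [e, map_zero, LinearMap.zero_apply]
  · change D i a j x = _
    have e : ∑ b, B g x (fun j => D i a j x) (fun k => f b k x) * f b j x =
        ∑ k, up g j k x * ∑ l, g x k l * D i a l x := by
      simp only [B_eq, ← hF.up, Finset.mul_sum, Finset.sum_mul]
      rw [Finset.sum_comm (f := fun k l => ∑ b, f b j x * f b k x * (g x k l * D i a l x)),
        Finset.sum_comm]
      refine Finset.sum_congr rfl fun l _ => Finset.sum_comm.trans ?_
      exact Finset.sum_congr rfl fun k _ => Finset.sum_congr rfl fun b _ => by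
        rw [hg.sy x l k]; ring
    rw [e, hg.up_g_mul]

end Vale.Agent.P366Z.Sp
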