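import Vale.Agent.P366Z.Sp.Iter
import Vale.Agent.P366Z.Int
import Mathlib.Analysis.SpecialFunctions.JapaneseBracket

/-!
# P366Z: integrability, integration by parts and cutting off
-/

open MeasureTheory Metric Filter Topology Set
open scoped ContDiff ENNReal
open Vale.Agent.P366.Stmt

noncomputable section

namespace Vale.Agent.P366Z.Sp

namespace IbpH

variable {n : ℕ} {g : Field n} {R : ℝ}

theorem int_dec {h : E n → ℝ} (hc : Continuous h) (hd : Dec h) : Integrable h := by
  obtain ⟨c, c0, C, C0, hC⟩ := dec_nonneg hd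
  have h1 := (integrable_one_add_norm (E := E n) (μ := volume) (r := ((n + 1 : ℕ) : ℝ))
    (by simp)).const_mul (C * (Real.exp c * (n + 1).factorial / c ^ (n + 1)))
  refine h1.mono' hc.aestronglyMeasurable (.of_forall fun x => (hC x).trans ?_)
  have h2 := Real.pow_div_factorial_le_exp (c * (1 + ‖x‖)) (by positivity) (n + 1)
  rw [mul_add, mul_one, Real.exp_add, div_le_iff₀ (by positivity), ← mul_one_add, mul_pow] at h2
  rw [mul_assoc, Real.rpow_neg (by positivity), Real.rpow_natCast, neg_mul, Real.exp_neg]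
  refine mul_le_mul_of_nonneg_left ?_ C0
  rw [← div_eq_mul_inv, div_div, le_div_iff₀ (by positivity), inv_mul_le_iff₀ (Real.exp_pos _)]
  linarith

theorem int_mul (hg : Met g) (hf : Flat g R) {W : Type} [NormedAddCommGroup W] {u : E n → W}
    {h : E n → ℝ} (hc : Continuous h) (hu : Dec u) {K : ℝ} (hK : ∀ x, |h x| ≤ K * ‖u x‖) :
    Integrable fun x => h x * dens g x := by
  obtain ⟨Λ, hΛ⟩ := hg.ell hf
  have := hΛ.one
  refine int_dec (hc.mul hg.sm_dens.cont) (dec_of_le hu hu (K := |K| * Λ) (by positivity)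
    fun x => ?_)
  have h1 := mul_le_mul ((hK x).trans (mul_le_mul_of_nonneg_right (le_abs_self K) (norm_nonneg _)))
    (hΛ.dens_hi x) (dens_nonneg g x) (by positivity)
  have h2 : 0 ≤ |K| * ‖u x‖ * Λ := by positivity
  rw [norm_mul, Real.norm_of_nonneg (dens_nonneg g x), Real.norm_eq_abs]
  linarith

theorem dct {F : ℝ → E n → ℝ} {f b : E n → ℝ} (hF : ∀ r, Continuous (F r)) (hb : Integrable b)
    (h : ∀ r, 1 ≤ r → ∀ x, |F r x| ≤ b x) (he : ∀ r x, ‖x‖ < r → F r x = f x) :
    Tendsto (fun r => ∫ x, F r x) atTop (𝓝 (∫ x, f x)) :=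
  tendsto_integral_filter_of_dominated_convergence b
    (.of_forall fun r => (hF r).aestronglyMeasurable)
    ((eventually_ge_atTop 1).mono fun r hr => .of_forall (h r hr)) hb (.of_forall fun x =>
      tendsto_const_nhds.congr' ((eventually_gt_atTop ‖x‖).mono fun r hr => (he r x hr).symm))

theorem pd_cut (n : ℕ) : ∃ C, 0 < C ∧ ∀ r, 1 ≤ r → ∀ (x : E n) i, |pd i (cut r) x| ≤ C := by
  obtain ⟨C, C0, h⟩ := fderiv_cut n
  exact ⟨C, C0, fun r hr x i => (abs_pd_le ((sm_cut r).diff x) i).trans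
    ((h r (one_pos.trans_le hr) x).trans (div_le_self C0.le hr))⟩

/-- the theorem of divergence on the whole space -/
theorem div_zero (hg : Met g) {X : Fin n → E n → ℝ} (hX : ∀ i, ContDiff ℝ 1 (X i))
    (hi : ∀ i, Integrable fun x => X i x * dens g x)
    (hd : Integrable fun x => dv g X x * dens g x) : ∫ x, dv g X x * dens g x = 0 := by
  obtain ⟨C, C0, hC⟩ := pd_cut n
  have h1 := dct (F := fun r x => cut r x * dv g X x * dens g x) (fun r =>
    ((sm_cut r).cont.mul (hg.cont_dv hX)).mul hg.sm_dens.cont) hd.abs (fun r _ x => by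
      rw [mul_assoc, abs_mul, abs_of_nonneg (cut_nonneg r x)]
      exact mul_le_of_le_one_left (abs_nonneg _) (cut_le_one r x))
    fun r x hx => by rw [cut_one hx.le, one_mul]
  have h2 := dct (F := fun r x => (∑ i, pd i (cut r) x * X i x) * dens g x) (f := fun _ => 0)
    (fun r => (continuous_finsetSum _ fun i _ =>
      ((sm_cut r).pd i).cont.mul (hX i).continuous).mul hg.sm_dens.cont)
    (integrable_finsetSum Finset.univ fun i _ => (hi i).abs.const_mul C) (fun r hr x => by
      rw [Finset.sum_mul]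
      refine (Finset.abs_sum_le_sum_abs _ _).trans (Finset.sum_le_sum fun i _ => ?_)
      rw [mul_assoc, abs_mul]
      exact mul_le_mul_of_nonneg_right (hC r hr x i) (abs_nonneg _))
    fun r x hx => by simp [pd_cut_in hx]
  have h3 := h2.neg
  rw [integral_zero, neg_zero] at h3
  exact tendsto_nhds_unique h1 (h3.congr' ((eventually_gt_atTop 0).mono fun r hr =>
    (hg.ibp_dv (lip_cut hr) (supp_cut hr) hX).symm))

end IbpH

open IbpH

theorem int : INT := fun _ _ _ _ _ _ _ _ hg hf hu hw hd ⟨K, hK⟩ =>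
  int_mul hg hf (hu.inner hw) hd (K := K) fun x => (abs_real_inner_le_norm _ _).trans
    ((mul_le_mul_of_nonneg_left (hK x) (norm_nonneg _)).trans_eq (mul_comm _ _))

theorem ibp_of (hO : OMD) (hB : BND) (hI : INT) : IBP := by
  intro n V _ _ c g R S hg hf _ B B' hP u w hu hw d0 d1 ⟨K, hK⟩
  obtain ⟨K1, p1, h1⟩ := hB n V c g R S hg hf B hP.sm fun x hx => (hP.out x hx).1
  obtain ⟨K2, p2, h2⟩ := hB n V c g R S hg hf B' hP.sm' fun x hx => (hP.out x hx).2
  have i1 := hI n V g R u (dq c S B w) hg hf hu.continuous (sm_dq c S hP.sm hw).continuous d0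
    ⟨K1 * (K + K), fun x => (h1 w x hw).2.2.1.trans
      (mul_le_mul_of_nonneg_left (add_le_add (hK x).1 (hK x).2) p1.le)⟩
  have i2 := hI n V g R (dq c S B' u) w hg hf (sm_dq c S hP.sm' hu).continuous hw.continuous
    (dec_of_le d0 d1 p2.le fun x => (h2 u x hu).2.2.1) ⟨K, fun x => (hK x).1⟩
  have e : ∀ x, dv g (fun i y => inner ℝ (u y) (ga c S i y (w y))) x * dens g x =
      inner ℝ (u x) (dq c S B w x) * dens g x - inner ℝ (dq c S B' u x) (w x) * dens g x :=
    fun x => by
      rw [(hO n V c g R S hg hf u w x (sm_diff hu x) (sm_diff hw x)).2.2.2, dq, dq,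
        inner_add_left, inner_add_right, real_inner_comm (B x (w x)), hP.adj,
        real_inner_comm (B' x (u x))]
      ring
  have h3 := div_zero hg (X := fun i y => inner ℝ (u y) (ga c S i y (w y)))
    (fun i => (hu.inner ℝ ((sm_ga c S i).clm_apply hw)).of_le (by norm_cast))
    (fun i => hI n V g R u _ hg hf hu.continuous ((sm_ga c S i).clm_apply hw).continuous d0
      ⟨K1 * K, fun x => ((ga c S i x).le_opNorm _).trans
        (mul_le_mul ((h1 w x hw).1 i) (hK x).1 (norm_nonneg _) p1.le)⟩)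
    ((i1.sub i2).congr (.of_forall fun x => (e x).symm))
  simp only [e] at h3
  rwa [integral_sub i1 i2, sub_eq_zero] at h3

theorem cut_of (hB : BND) (_ : INT) : CUT := by
  intro n V _ _ c g R S hg hf B f ξ e sB hc hξ d0 d1 d2 he
  obtain ⟨K, p1, h1⟩ := hB n V c g R S hg hf (fun _ => 0) contDiff_const fun _ _ => rfl
  obtain ⟨C, C0, hC⟩ := pd_cut n
  have hs : ∀ r, ContDiff ℝ ∞ fun x => cut r x • ξ x := fun r => ContDiff.smul (sm_cut r) hξ
  have e1 := fun r x => dq_smul c S B ((sm_cut r).diff x) (sm_diff hξ x)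
  set b : E n → ℝ := fun x => ‖f x‖ + ‖dq c S B ξ x‖ + n * (C * (K * ‖ξ x‖)) with hb
  have b0 : ∀ x, 0 ≤ b x := fun x => by positivity
  have b1 : Dec b := dec_of_le (dec_of_le (h := fun x => ‖f x‖ + ‖dq c S B ξ x‖) d0 d2 zero_le_one
    fun x => by rw [one_mul, Real.norm_of_nonneg (by positivity)]) d1 (K := 1 + n * (C * K))
    (by positivity) fun x => by
      rw [Real.norm_of_nonneg (b0 x), Real.norm_of_nonneg (by positivity), hb]
      have k1 : 0 ≤ n * (C * K) * (‖f x‖ + ‖dq c S B ξ x‖) := by positivity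
      linarith [norm_nonneg (ξ x)]
  have b2 : Continuous b := (hc.norm.add (sm_dq c S sB hξ).continuous.norm).add
    (continuous_const.mul (continuous_const.mul (continuous_const.mul hξ.continuous.norm)))
  obtain ⟨M, -, hM⟩ := dec_bdd b1
  have h2 := dct (F := fun r x => ‖f x - dq c S B (fun x => cut r x • ξ x) x‖ ^ 2 * dens g x)
    (f := fun x => ‖f x - dq c S B ξ x‖ ^ 2 * dens g x)
    (fun r => ((hc.sub (sm_dq c S sB (hs r)).continuous).norm.pow 2).mul hg.sm_dens.cont)
    (int_mul hg hf (h := fun x => b x ^ 2) (b2.pow 2) b1 (K := M) fun x => by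
      rw [abs_pow, sq]
      exact mul_le_mul_of_nonneg_right (hM x) (abs_nonneg _))
    (fun r hr x => by
      rw [abs_of_nonneg (mul_nonneg (sq_nonneg _) (dens_nonneg g x))]
      refine mul_le_mul_of_nonneg_right (pow_le_pow_left₀ (norm_nonneg _) ?_ 2) (dens_nonneg g x)
      rw [e1, hb]
      refine (norm_sub_le _ _).trans ((add_le_add_right ((norm_add_le _ _).trans
        (add_le_add ?_ ?_)) _).trans_eq (add_assoc _ _ _).symm)
      · rw [norm_smul, Real.norm_of_nonneg (cut_nonneg r x)]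
        exact mul_le_of_le_one_left (norm_nonneg _) (cut_le_one r x)
      · refine (norm_sum_le _ _).trans ((Finset.sum_le_card_nsmul _ _ (C * (K * ‖ξ x‖))
          fun i _ => ?_).trans_eq (by simp))
        rw [norm_smul]
        exact mul_le_mul (hC r hr x i) (((ga c S i x).le_opNorm _).trans
          (mul_le_mul_of_nonneg_right ((h1 ξ x hξ).1 i) (norm_nonneg _))) (norm_nonneg _) C0.le)
    fun r x hx => by simp [e1, cut_one hx.le, pd_cut_in hx]
  obtain ⟨r, h3, h4⟩ := ((h2.eventually (gt_mem_nhds he)).and (eventually_gt_atTop 0)).exists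
  exact ⟨_, hs r, ⟨2 * r, fun x hx => by rw [cut_zero h4 hx, zero_smul]⟩, h3⟩

end Vale.Agent.P366Z.Sp
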