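import Vale.Agent.P366Z.Sp.Api

/-!
# P366Z: approximate solutions by the iteration of the resolvent
-/

open MeasureTheory Metric Filter Topology Set
open scoped ContDiff ENNReal
open Vale.Agent.P366.Stmt

noncomputable section

namespace Vale.Agent.P366Z.Sp

variable {n : ℕ}

section Dec

variable {W W' W'' : Type} [NormedAddCommGroup W] [NormedAddCommGroup W'] [NormedAddCommGroup W'']

theorem dec_nonneg {f : E n → W} (h : Dec f) :
    ∃ c > (0 : ℝ), ∃ C : ℝ, 0 ≤ C ∧ ∀ x, ‖f x‖ ≤ C * Real.exp (-c * ‖x‖) := by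
  obtain ⟨c, hc, C, h⟩ := h
  exact ⟨c, hc, max C 0, le_max_right _ _, fun x => (h x).trans
    (mul_le_mul_of_nonneg_right (le_max_left _ _) (Real.exp_pos _).le)⟩

theorem dec_bdd {f : E n → W} (h : Dec f) : ∃ K, 0 ≤ K ∧ ∀ x, ‖f x‖ ≤ K := by
  obtain ⟨c, hc, C, hC, h⟩ := dec_nonneg h
  refine ⟨C, hC, fun x => (h x).trans (mul_le_of_le_one_right hC ?_)⟩
  exact Real.exp_le_one_iff.2 (by nlinarith [norm_nonneg x])

theorem dec_of_le {f : E n → W} {f' : E n → W'} {h : E n → W''} (h1 : Dec f) (h2 : Dec f')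
    {K : ℝ} (hK : 0 ≤ K) (e : ∀ x, ‖h x‖ ≤ K * (‖f x‖ + ‖f' x‖)) : Dec h := by
  obtain ⟨c, hc, C, hC, h1⟩ := dec_nonneg h1
  obtain ⟨c', hc', C', hC', h2⟩ := dec_nonneg h2
  refine ⟨min c c', lt_min hc hc', K * (C + C'), fun x => (e x).trans ?_⟩
  have h3 : ∀ a, min c c' ≤ a → Real.exp (-a * ‖x‖) ≤ Real.exp (-min c c' * ‖x‖) := fun a ha =>
    Real.exp_le_exp.2 (by nlinarith [norm_nonneg x])
  have h4 := (h1 x).trans (mul_le_mul_of_nonneg_left (h3 c (min_le_left _ _)) hC)
  have h5 := (h2 x).trans (mul_le_mul_of_nonneg_left (h3 c' (min_le_right _ _)) hC')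
  rw [mul_assoc]
  exact mul_le_mul_of_nonneg_left (by linarith) hK

theorem dec_of_supp {f : E n → W} (hf : Continuous f) {R : ℝ} (e : ∀ x, R < ‖x‖ → f x = 0) :
    Dec f := by
  obtain ⟨K, hK, h⟩ := bdd_of_out hf (R := R) (C := 0) fun y hy => by rw [e y hy, norm_zero]
  refine ⟨1, one_pos, K * Real.exp R, fun x => ?_⟩
  by_cases hx : R < ‖x‖
  · rw [e x hx, norm_zero]
    positivity
  · rw [mul_assoc, ← Real.exp_add]
    exact (h x).trans (le_mul_of_one_le_right hK.le (Real.one_le_exp (by linarith)))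

end Dec

variable {V : Type} [NormedAddCommGroup V] [InnerProductSpace ℝ V]

/-- the class of the iterates -/
structure Gd (u : E n → V) : Prop where
  sm : ContDiff ℝ ∞ u
  d0 : Dec u
  d1 : Dec (fderiv ℝ u)
  d2 : ∃ K, ∀ x, ‖fderiv ℝ (fderiv ℝ u) x‖ ≤ K

/-- the scalar product -/
def sp (g : Field n) (u w : E n → V) : ℝ := ∫ x, inner ℝ (u x) (w x) * dens g x

theorem sp_comm (g : Field n) (u w : E n → V) : sp g u w = sp g w u := by
  simp only [sp, real_inner_comm]

theorem sp_self (g : Field n) (u : E n → V) : sp g u u = ∫ x, ‖u x‖ ^ 2 * dens g x := by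
  simp only [sp, real_inner_self_eq_norm_sq]

theorem sp_nonneg (g : Field n) (u : E n → V) : 0 ≤ sp g u u := by
  rw [sp_self]
  exact integral_nonneg fun x => mul_nonneg (sq_nonneg _) (dens_nonneg g x)

/-- the abstract part of the iteration -/
theorem seq_small {s : ℕ → ℕ → ℝ} {d b : ℕ → ℝ} {l k : ℝ} (hl : 0 < l) (hk : 0 < k)
    (hs : ∀ i j, s i j = s j i) (h1 : ∀ i j, s (i + 1) j = s (j + 1) i)
    (h2 : ∀ i, l * s (i + 1) i = l * s (i + 1) (i + 1) + d (i + 1))
    (h3 : ∀ i, 2 * s (i + 1) i ≤ s (i + 1) (i + 1) + s i i) (h0 : ∀ i, 0 ≤ s i i)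
    (hd : ∀ i, 0 ≤ d i) (h4 : ∀ i, k * b i ≤ d i)
    (h5 : ∀ i, ∀ t > 0, 2 * s i 0 ≤ t * b i + s 0 0 / t) {e : ℝ} (he : 0 < e) :
    ∃ i, s i i < e := by
  have e1 : ∀ j i, s i j = s (i + j) 0 := by
    intro j
    induction j with
    | zero => exact fun i => rfl
    | succ j ih =>
      intro i
      rw [hs, h1, ih, show i + 1 + j = i + (j + 1) by ring]
  have a1 : ∀ i, l * s (i + 1) (i + 1) + 2 * d (i + 1) ≤ l * s i i := fun i => by
    have := mul_le_mul_of_nonneg_left (h3 i) hl.le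
    have := h2 i
    nlinarith
  have a2 : Antitone fun i => s i i := antitone_nat_of_succ_le fun i => by
    have h6 := a1 i
    have h7 := hd (i + 1)
    exact le_of_mul_le_mul_left (by linarith) hl
  have a3 := tendsto_atTop_ciInf a2 ⟨0, by rintro _ ⟨i, rfl⟩; exact h0 i⟩
  have a4 : Tendsto (fun i => l * s i i - l * s (i + 1) (i + 1)) atTop (𝓝 0) := by
    have h6 := (a3.const_mul l).sub (((tendsto_add_atTop_iff_nat 1).2 a3).const_mul l)
    rwa [sub_self] at h6
  have ht : 0 < s 0 0 / e + 1 := by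
    have := div_nonneg (h0 0) he.le
    linarith
  obtain ⟨M, hM⟩ := eventually_atTop.1 (a4.eventually
    (gt_mem_nhds (show (0 : ℝ) < e * k / (s 0 0 / e + 1) by positivity)))
  refine ⟨M + 1, ?_⟩
  have b1 := hM (2 * M + 1) (by omega)
  have b2 := a1 (2 * M + 1)
  have b3 := h5 (2 * M + 1 + 1) _ ht
  have b4 := h4 (2 * M + 1 + 1)
  have b5 := hd (2 * M + 1 + 1)
  have b6 : s 0 0 / (s 0 0 / e + 1) ≤ e := by
    rw [div_le_iff₀ ht, mul_add, mul_div_cancel₀ _ he.ne']
    linarith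
  have b7 : d (2 * M + 1 + 1) < e * k / (s 0 0 / e + 1) := by linarith
  rw [lt_div_iff₀ ht] at b7
  have b8 : (s 0 0 / e + 1) * b (2 * M + 1 + 1) < e := by
    refine lt_of_mul_lt_mul_left (a := k) ?_ hk.le
    nlinarith
  rw [e1, show M + 1 + (M + 1) = 2 * M + 1 + 1 by ring]
  linarith

theorem iter_of (hO : OPR) (hB : BND) (hI : INT) (hP : IBP) (hC : CUT) : ITER := by
  intro n V _ _ c g R S hg hf hn hL B B' hp hco f hfs ⟨R', hR'⟩ e he
  obtain ⟨A, C, o1, o2, o3, o4, o5⟩ := hO n V c g R S hg hf B B' hp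
  obtain ⟨l, hl, hres⟩ := hL g (R + 1) A C hg (hf.mono (by linarith)) o1 o2 o3 o4
  obtain ⟨K, hK, hb⟩ := hB n V c g R S hg hf B' hp.sm' fun x hx => (hp.out x hx).2
  have step : ∀ u : E n → V, Gd u → ∃ u', Gd u' ∧
      ∀ x, l • u' x + dq c S B (dq c S B' u') x = l • u x := fun u hu => by
    have h1 : Dec fun x => l • u x := dec_of_le hu.d0 hu.d0 hl.le fun x => by
      rw [norm_smul, Real.norm_of_nonneg hl.le]
      exact mul_le_mul_of_nonneg_left (le_add_of_nonneg_right (norm_nonneg _)) hl.le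
    have h2 : Dec (fderiv ℝ fun x => l • u x) := dec_of_le hu.d1 hu.d1 hl.le fun x => by
      rw [fderiv_fun_const_smul (sm_diff hu.sm x), norm_smul, Real.norm_of_nonneg hl.le]
      exact mul_le_mul_of_nonneg_left (le_add_of_nonneg_right (norm_nonneg _)) hl.le
    obtain ⟨u', h3, h4, h5, h6, h7⟩ := hres _ (hu.sm.const_smul l) h1 h2
    refine ⟨u', ⟨h3, h4, h5, h6⟩, fun x => ?_⟩
    rw [o5 u' x h3, ← h7 x]
    abel
  have hf0 : Gd f := by
    have h1 : ∀ x, R' < ‖x‖ → fderiv ℝ f x = 0 := fun x hx => by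
      have : f =ᶠ[𝓝 x] fun _ => 0 := by
        filter_upwards [(isOpen_lt continuous_const continuous_norm).mem_nhds hx] with z hz
        exact hR' z (le_of_lt hz)
      rw [this.fderiv_eq]
      simp
    have h2 : ContDiff ℝ ∞ (fderiv ℝ f) := hfs.fderiv_right (m := ∞) (by norm_cast)
    have h3 : ∀ x, R' < ‖x‖ → ‖fderiv ℝ (fderiv ℝ f) x‖ ≤ 0 := fun x hx => by
      have : fderiv ℝ f =ᶠ[𝓝 x] fun _ => 0 := by
        filter_upwards [(isOpen_lt continuous_const continuous_norm).mem_nhds hx] with z hz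
        exact h1 z hz
      rw [this.fderiv_eq, fderiv_const_apply]
      exact (ContinuousLinearMap.opNorm_zero).le
    obtain ⟨K', -, h4⟩ := bdd_of_out (h2.continuous_fderiv (by simp)) h3
    exact ⟨hfs, dec_of_supp hfs.continuous fun x hx => hR' x hx.le,
      dec_of_supp h2.continuous h1, K', h4⟩
  choose nx hnx using step
  let F : ℕ → {u : E n → V // Gd u} := fun i =>
    Nat.rec ⟨f, hf0⟩ (fun _ p => ⟨nx p.1 p.2, (hnx p.1 p.2).1⟩) i
  have hF : ∀ i x, l • (F (i + 1)).1 x + dq c S B (dq c S B' (F (i + 1)).1) x = l • (F i).1 x :=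
    fun i => (hnx (F i).1 (F i).2).2
  have hF0 : (F 0).1 = f := rfl
  have w1 : ∀ u : E n → V, Gd u → ContDiff ℝ ∞ (dq c S B' u) := fun u hu => sm_dq c S hp.sm' hu.sm
  have w2 : ∀ u : E n → V, Gd u → Dec (dq c S B' u) := fun u hu =>
    dec_of_le hu.d0 hu.d1 hK.le fun x => (hb u x hu.sm).2.2.1
  have w3 : ∀ u : E n → V, Gd u →
      ∃ K, ∀ x, ‖dq c S B' u x‖ ≤ K ∧ ‖fderiv ℝ (dq c S B' u) x‖ ≤ K := fun u hu => by
    obtain ⟨K0, p0, h0⟩ := dec_bdd hu.d0
    obtain ⟨K1, p1, h1⟩ := dec_bdd hu.d1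
    obtain ⟨K2, h2⟩ := hu.d2
    refine ⟨K * (K0 + K1 + K2), fun x => ⟨(hb u x hu.sm).2.2.1.trans ?_,
      (hb u x hu.sm).2.2.2.trans ?_⟩⟩
    · have := (ContinuousLinearMap.opNorm_nonneg _).trans (h2 x)
      exact mul_le_mul_of_nonneg_left (by linarith [h0 x, h1 x]) hK.le
    · exact mul_le_mul_of_nonneg_left (by linarith [h0 x, h1 x, h2 x]) hK.le
  have it : ∀ u w : E n → V, Continuous u → Continuous w → Dec u → Dec w →
      Integrable fun x => inner ℝ (u x) (w x) * dens g x := fun u w h1 h2 h3 h4 =>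
    let ⟨K', _, h5⟩ := dec_bdd h4
    hI n V g R u w hg hf h1 h2 h3 ⟨K', h5⟩
  have ig : ∀ i j, Integrable fun x => inner ℝ ((F i).1 x) ((F j).1 x) * dens g x := fun i j =>
    it _ _ (F i).2.sm.continuous (F j).2.sm.continuous (F i).2.d0 (F j).2.d0
  have id1 : ∀ i j, l * sp g (F (i + 1)).1 (F j).1 = l * sp g (F (i + 1)).1 (F (j + 1)).1 +
      sp g (dq c S B' (F (i + 1)).1) (dq c S B' (F (j + 1)).1) := fun i j => by
    have h1 := hP n V c g R S hg hf hn B B' hp _ _ (F (i + 1)).2.sm (w1 _ (F (j + 1)).2)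
      (F (i + 1)).2.d0 (F (i + 1)).2.d1 (w3 _ (F (j + 1)).2)
    have h2 : ∀ x, inner ℝ ((F (i + 1)).1 x) (dq c S B (dq c S B' (F (j + 1)).1) x) * dens g x =
        l * (inner ℝ ((F (i + 1)).1 x) ((F j).1 x) * dens g x) -
          l * (inner ℝ ((F (i + 1)).1 x) ((F (j + 1)).1 x) * dens g x) := fun x => by
      rw [eq_sub_of_add_eq' (hF j x), inner_sub_right, real_inner_smul_right,
        real_inner_smul_right]
      ring
    simp only [h2] at h1
    rw [integral_sub ((ig (i + 1) j).const_mul l) ((ig (i + 1) (j + 1)).const_mul l),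
      integral_const_mul,
      integral_const_mul] at h1
    unfold sp
    linarith
  obtain ⟨k, hk, hco⟩ := hco R'
  obtain ⟨i, hi⟩ := seq_small (s := fun i j => sp g (F i).1 (F j).1)
    (d := fun i => sp g (dq c S B' (F i).1) (dq c S B' (F i).1))
    (b := fun i => ∫ x in ball (0 : E n) R', ‖(F i).1 x‖ ^ 2 * dens g x) hl hk
    (fun i j => sp_comm _ _ _)
    (fun i j => mul_left_cancel₀ hl.ne' (by
      rw [id1, id1, sp_comm g (F (i + 1)).1, sp_comm g (dq c S B' (F (i + 1)).1)]))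
    (fun i => id1 i i)
    (fun i => by
      unfold sp
      rw [← integral_const_mul, ← integral_add (ig (i + 1) (i + 1)) (ig i i)]
      refine integral_mono ((ig (i + 1) i).const_mul 2) ((ig (i + 1) (i + 1)).add (ig i i))
        fun x => ?_
      have h1 := norm_sub_sq_real ((F (i + 1)).1 x) ((F i).1 x)
      have h2 := sq_nonneg ‖(F (i + 1)).1 x - (F i).1 x‖
      have h3 := dens_nonneg g x
      simp only [real_inner_self_eq_norm_sq]
      nlinarith)
    (fun i => sp_nonneg _ _) (fun i => sp_nonneg _ _)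
    (fun i => by
      rw [sp_self]
      exact hco _ (F i).2.sm (F i).2.d0 (F i).2.d1)
    (fun i t ht => by
      have h1 : Integrable fun x => ‖(F i).1 x‖ ^ 2 * dens g x := by
        simpa only [real_inner_self_eq_norm_sq] using ig i i
      have h2 := h1.indicator (measurableSet_ball (x := (0 : E n)) (ε := R'))
      unfold sp
      rw [← integral_const_mul, ← integral_indicator measurableSet_ball, ← integral_const_mul,
        ← integral_div, ← integral_add (h2.const_mul t) ((ig 0 0).div_const t)]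
      refine integral_mono ((ig i 0).const_mul 2) ((h2.const_mul t).add ((ig 0 0).div_const t))
        fun x => ?_
      have h3 := dens_nonneg g x
      simp only [hF0, real_inner_self_eq_norm_sq]
      by_cases hx : x ∈ ball (0 : E n) R'
      · rw [indicator_of_mem hx]
        have h4 := real_inner_le_norm ((F i).1 x) (f x)
        have h5 : 2 * (‖(F i).1 x‖ * ‖f x‖) ≤ t * ‖(F i).1 x‖ ^ 2 + ‖f x‖ ^ 2 / t := by
          have h6 : t * ‖(F i).1 x‖ ^ 2 + ‖f x‖ ^ 2 / t - 2 * (‖(F i).1 x‖ * ‖f x‖) =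
              (t * ‖(F i).1 x‖ - ‖f x‖) ^ 2 / t := by
            field_simp
            ring
          have h7 : 0 ≤ (t * ‖(F i).1 x‖ - ‖f x‖) ^ 2 / t := by positivity
          linarith
        have h8 := mul_le_mul_of_nonneg_right (show 2 * inner ℝ ((F i).1 x) (f x) ≤
          t * ‖(F i).1 x‖ ^ 2 + ‖f x‖ ^ 2 / t by linarith) h3
        calc 2 * (inner ℝ ((F i).1 x) (f x) * dens g x)
            = 2 * inner ℝ ((F i).1 x) (f x) * dens g x := by ring
          _ ≤ _ := h8
          _ = _ := by ring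
      · rw [indicator_of_notMem hx, hR' x (by simpa using hx)]
        simp) he
  have xi : ∀ i, ∃ ξ : E n → V, ContDiff ℝ ∞ ξ ∧ Dec ξ ∧
      ∀ x, f x - dq c S B ξ x = (F i).1 x := by
    intro i
    induction i with
    | zero =>
      refine ⟨fun _ => 0, contDiff_const, dec_of_supp continuous_const (R := 0) fun _ _ => rfl,
        fun x => ?_⟩
      simp [dq, di, nb, pv_const, hF0]
    | succ i ih =>
      obtain ⟨ξ, h1, h2, h3⟩ := ih
      have h4 := w1 _ (F (i + 1)).2
      refine ⟨fun x => ξ x + l⁻¹ • dq c S B' (F (i + 1)).1 x, h1.add (h4.const_smul _),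
        dec_of_le h2 (w2 _ (F (i + 1)).2) (K := 1 + l⁻¹) (by positivity) fun x => ?_, fun x => ?_⟩
      · refine (norm_add_le _ _).trans ?_
        rw [norm_smul, Real.norm_of_nonneg (inv_pos.2 hl).le]
        have := mul_nonneg (inv_pos.2 hl).le (norm_nonneg (ξ x))
        nlinarith [norm_nonneg (dq c S B' (F (i + 1)).1 x)]
      · rw [dq_add c S B (sm_diff h1 x) (sm_diff (h4.const_smul _) x),
          dq_const_smul c S B _ (sm_diff h4 x), eq_sub_of_add_eq' (hF i x), smul_sub, smul_smul,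
          smul_smul, inv_mul_cancel₀ hl.ne', one_smul, one_smul, ← h3 x]
        abel
  obtain ⟨ξ, h1, h2, h3⟩ := xi i
  refine hC n V c g R S hg hf B f ξ e hp.sm hfs.continuous h1 hf0.d0 h2
    (dec_of_le hf0.d0 (F i).2.d0 zero_le_one fun x => ?_) ?_
  · rw [one_mul, show dq c S B ξ x = f x - (F i).1 x by rw [← h3 x]; abel]
    exact norm_sub_le _ _
  · simp only [h3]
    rwa [sp_self] at hi

end Vale.Agent.P366Z.Sp
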