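import Vale.Agent.P366Z.Sp.Api

/-!
# P366Z: the curvature term of the square of the Dirac operator
-/

open MeasureTheory Metric Filter Topology Set
open scoped ContDiff ENNReal
open Vale.Agent.P366.Stmt

noncomputable section

namespace Vale.Agent.P366Z.Sp

variable {n : ℕ} {V : Type} [NormedAddCommGroup V] [InnerProductSpace ℝ V]

/-- the curvature tensor in coordinates -/
def rc (g : Field n) (k m i j : Fin n) (x : E n) : ℝ :=
  pd i (chr g k j m) x - pd j (chr g k i m) x +
    ∑ l, (chr g k i l x * chr g l j m x - chr g k j l x * chr g l i m x)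

theorem rc_anti (g : Field n) (k m i j : Fin n) (x : E n) : rc g k m i j x = -rc g k m j i x := by
  simp only [rc, Finset.sum_sub_distrib]
  ring

theorem rc_cyc {g : Field n} (hg : Met g) (k m i j : Fin n) (x : E n) :
    rc g k m i j x + rc g k i j m x + rc g k j m i x = 0 := by
  have h : ∀ a b c, chr g a b c = chr g a c b := fun a b c => funext (hg.chr_sy a b c)
  simp only [rc, Finset.sum_sub_distrib]
  rw [h k m i, h k m j, h k j i]
  simp only [h _ m i, h _ m j, h _ j i]
  ring

theorem rc_scal {g : Field n} (hg : Met g) (x : E n) :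
    ∑ m, ∑ j, up g m j x * ∑ i, rc g i m i j x = scal g x := by
  have h : ∀ a b c, chr g a b c = chr g a c b := fun a b c => funext (hg.chr_sy a b c)
  unfold scal rc
  refine Finset.sum_congr rfl fun m _ => Finset.sum_congr rfl fun j _ => congrArg _
    (Finset.sum_congr rfl fun i _ => ?_)
  rw [h i j m, h i i m]
  simp only [h _ j m, h _ i m]

variable {g : Field n} {R : ℝ} (c : Cm n V) (S : Cn g R)

/-- the curvature of the spin connection -/
def fc (i j : Fin n) (x : E n) : En V := pv i (om c S j) x - pv j (om c S i) x +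
  (om c S i x * om c S j x - om c S j x * om c S i x)

theorem fc_biv (i j : Fin n) (x : E n) :
    ∑ k, c.e k * (fc c S i j x * c.e k - c.e k * fc c S i j x) = (4 : ℝ) • fc c S i j x := by
  have h1 : ∀ i j a b, pd i (S.A j a b) x = -pd i (S.A j b a) x := fun i j a b => by
    rw [← pd_neg]
    exact congrArg (pd i · x) (funext (S.anti j a b))
  rw [fc, pv_om, pv_om, om, om, rho_bracket c fun a b => S.anti i a b x, ← rho_sub, ← rho_add]
  refine rho_biv c fun a b => ?_
  rw [h1 i j a b, h1 j i a b]
  have h2 : ∑ d, (S.A j a d x * S.A i d b x - S.A i a d x * S.A j d b x) =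
      -∑ d, (S.A j b d x * S.A i d a x - S.A i b d x * S.A j d a x) := by
    rw [← Finset.sum_neg_distrib]
    refine Finset.sum_congr rfl fun d _ => ?_
    rw [S.anti j a d, S.anti i d b, S.anti i a d, S.anti j d b]
    ring
  rw [h2]
  ring

theorem pv_pv_ga (hg : Met g) (i j k : Fin n) (x : E n) : pv i (pv j (ga c S k)) x =
    -(pv i (om c S j) x * ga c S k x + om c S j x * pv i (ga c S k) x -
      (pv i (ga c S k) x * om c S j x + ga c S k x * pv i (om c S j) x)) -
    ∑ l, (pd i (chr g k j l) x • ga c S l x + chr g k j l x • pv i (ga c S l) x) := by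
  have h1 := fun j => sm_diff (sm_om c S j) x
  have h2 := fun j => sm_diff (sm_ga c S j) x
  have h3 := fun l => (hg.sm_chr k j l).diff x
  rw [show pv j (ga c S k) = _ from funext (cmp c S j k),
    pv_sub (((h1 j).fun_mul (h2 k)).fun_sub ((h2 k).fun_mul (h1 j))).fun_neg
      (DifferentiableAt.fun_sum fun l _ => (h3 l).fun_smul (h2 l)), pv_neg,
    pv_sub ((h1 j).fun_mul (h2 k)) ((h2 k).fun_mul (h1 j)), pv_mul (h1 j) (h2 k),
    pv_mul (h2 k) (h1 j), pv_sum _ fun l _ => (h3 l).fun_smul (h2 l)]
  simp only [pv_smul (h3 _) (h2 _)]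

theorem fc_ga (hg : Met g) (i j k : Fin n) (x : E n) :
    fc c S i j x * ga c S k x - ga c S k x * fc c S i j x = -∑ m, rc g k m i j x • ga c S m x := by
  have h := pv_comm (x := x) (sm_ga c S k) i j
  rw [pv_pv_ga c S hg, pv_pv_ga c S hg] at h
  simp only [cmp c S i, cmp c S j] at h
  have e1 : ∀ i j, ∑ l, (pd i (chr g k j l) x • ga c S l x + chr g k j l x •
      (-(om c S i x * ga c S l x - ga c S l x * om c S i x) - ∑ m, chr g l i m x • ga c S m x)) =
      ∑ l, pd i (chr g k j l) x • ga c S l x -
        (om c S i x * ∑ l, chr g k j l x • ga c S l x -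
          (∑ l, chr g k j l x • ga c S l x) * om c S i x) -
        ∑ m, (∑ l, chr g k j l x * chr g l i m x) • ga c S m x := fun i j => by
    simp only [Finset.sum_add_distrib, smul_sub, smul_neg, Finset.sum_sub_distrib,
      Finset.sum_neg_distrib, Finset.mul_sum, Finset.sum_mul, mul_smul_comm, smul_mul_assoc,
      Finset.smul_sum, Finset.sum_smul, smul_smul]
    rw [Finset.sum_comm (f := fun l m => (chr g k j l x * chr g l i m x) • ga c S m x)]
    abel
  rw [e1, e1] at h
  have e2 : ∑ m, rc g k m i j x • ga c S m x =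
      ∑ l, pd i (chr g k j l) x • ga c S l x - ∑ l, pd j (chr g k i l) x • ga c S l x +
        (∑ m, (∑ l, chr g k i l x * chr g l j m x) • ga c S m x -
          ∑ m, (∑ l, chr g k j l x * chr g l i m x) • ga c S m x) := by
    simp only [rc, Finset.sum_sub_distrib, add_smul, sub_smul, Finset.sum_add_distrib]
  rw [e2, fc, ← sub_eq_zero, ← neg_eq_zero, ← sub_eq_zero.2 h]
  noncomm_ring

theorem sum_th (hg : Met g) (l i : Fin n) (x : E n) :
    ∑ a, (∑ p, g x l p * S.f a p x) * S.f a i x = if l = i then 1 else 0 := by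
  rw [← hg.mul_up l i x]
  simp only [Finset.sum_mul, ← S.fr.up, Finset.mul_sum]
  rw [Finset.sum_comm]
  exact Finset.sum_congr rfl fun p _ => Finset.sum_congr rfl fun a _ => by ring

theorem sum3r {M : Type*} [AddCommMonoid M] (T : Fin n → Fin n → Fin n → M) :
    ∑ a, ∑ b, ∑ l, T a b l = ∑ l, ∑ a, ∑ b, T a b l :=
  (Finset.sum_congr rfl fun _ _ => Finset.sum_comm).trans Finset.sum_comm

theorem sum3_cyc (T : Fin n → Fin n → Fin n → ℝ) :
    ∑ m, ∑ i, ∑ j, T m i j = ∑ m, ∑ i, ∑ j, T i j m := sum3r T

theorem lich_of (hA : ALGL) : LICH := by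
  intro n V _ _ c g R S hg _ x
  obtain ⟨th, hth⟩ : ∃ th : Fin n → Fin n → ℝ, th = fun k l => ∑ p, g x l p * S.f k p x := ⟨_, rfl⟩
  obtain ⟨f, hf⟩ : ∃ f : Fin n → Fin n → ℝ, f = fun a i => S.f a i x := ⟨_, rfl⟩
  have e1 : ∀ k, c.e k = ∑ l, th k l • ga c S l x := fun k => by
    rw [hth]
    exact e_eq c S k x
  have e2 : ∀ m, ga c S m x = ∑ d, f d m • c.e d := fun m => by
    rw [hf]
    rfl
  have e3 : ∀ l i, ∑ a, th a l * f a i = if l = i then 1 else 0 := fun l i => by
    rw [hth, hf]
    exact sum_th S hg l i x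
  have e4 : ∀ m j, ∑ b, f b m * f b j = up g m j x := fun m j => by
    rw [hf]
    exact S.fr.up m j x
  have h := hA n V c (fun a b => ∑ i, ∑ j, (f a i * f b j) • fc c S i j x)
    (fun k d a b => ∑ l, th k l * ∑ m, ∑ i, ∑ j, rc g l m i j x * (f d m * f a i * f b j))
    (fun k d a b => by
      rw [← Finset.sum_neg_distrib]
      refine Finset.sum_congr rfl fun l _ => ?_
      rw [← mul_neg, ← Finset.sum_neg_distrib]
      refine congrArg _ (Finset.sum_congr rfl fun m _ => ?_)
      rw [Finset.sum_comm, ← Finset.sum_neg_distrib]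
      refine Finset.sum_congr rfl fun i _ => ?_
      rw [← Finset.sum_neg_distrib]
      refine Finset.sum_congr rfl fun j _ => ?_
      rw [rc_anti]
      ring)
    (fun k d a b => by
      rw [← Finset.sum_add_distrib, ← Finset.sum_add_distrib]
      refine Finset.sum_eq_zero fun l _ => ?_
      rw [← mul_add, ← mul_add, sum3_cyc fun m i j => rc g l m i j x * (f a m * f b i * f d j),
        sum3_cyc fun m i j => rc g l m i j x * (f b m * f d i * f a j),
        sum3_cyc fun m i j => rc g l i j m x * (f b i * f d j * f a m)]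
      simp only [← Finset.sum_add_distrib]
      refine mul_eq_zero_of_right _ (Finset.sum_eq_zero fun m _ => Finset.sum_eq_zero fun i _ =>
        Finset.sum_eq_zero fun j _ => ?_)
      linear_combination (f d m * f a i * f b j) * rc_cyc hg l m i j x)
    (fun a b k => by
      have h1 : ∀ i j, fc c S i j x * c.e k - c.e k * fc c S i j x =
          -∑ d, (∑ l, th k l * ∑ m, rc g l m i j x * f d m) • c.e d := fun i j => by
        have h2 : fc c S i j x * c.e k - c.e k * fc c S i j x = ∑ l, th k l •
            (fc c S i j x * ga c S l x - ga c S l x * fc c S i j x) := by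
          rw [e1 k]
          simp only [Finset.mul_sum, Finset.sum_mul, mul_smul_comm, smul_mul_assoc, smul_sub,
            Finset.sum_sub_distrib]
        rw [h2]
        simp only [fc_ga c S hg]
        simp only [e2, smul_neg, Finset.sum_neg_distrib, Finset.smul_sum, smul_smul,
          Finset.sum_smul, Finset.mul_sum]
        exact congrArg _ (sum3r _)
      have h3 : (∑ i, ∑ j, (f a i * f b j) • fc c S i j x) * c.e k -
          c.e k * ∑ i, ∑ j, (f a i * f b j) • fc c S i j x =
          ∑ i, ∑ j, (f a i * f b j) • (fc c S i j x * c.e k - c.e k * fc c S i j x) := by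
        simp only [Finset.mul_sum, Finset.sum_mul, mul_smul_comm, smul_mul_assoc, smul_sub,
          Finset.sum_sub_distrib]
      rw [h3]
      simp only [h1, smul_neg, Finset.sum_neg_distrib, Finset.smul_sum, smul_smul]
      refine congrArg _ ((sum3r _).trans (Finset.sum_congr rfl fun d _ => ?_))
      simp only [← Finset.sum_smul]
      refine congrArg (· • c.e d) ?_
      simp only [Finset.mul_sum]
      rw [sum3r]
      refine Finset.sum_congr rfl fun l _ => ?_
      rw [sum3r]
      exact Finset.sum_congr rfl fun m _ => Finset.sum_congr rfl fun i _ =>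
        Finset.sum_congr rfl fun j _ => by ring)
    (fun a b => by
      have h3 : ∀ k, c.e k * ((∑ i, ∑ j, (f a i * f b j) • fc c S i j x) * c.e k -
          c.e k * ∑ i, ∑ j, (f a i * f b j) • fc c S i j x) =
          ∑ i, ∑ j, (f a i * f b j) • (c.e k * (fc c S i j x * c.e k - c.e k * fc c S i j x)) :=
        fun k => by
          simp only [Finset.mul_sum, Finset.sum_mul, mul_smul_comm, smul_mul_assoc, smul_sub,
            Finset.sum_sub_distrib, mul_sub]
      simp only [h3, Finset.smul_sum]
      rw [← sum3r]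
      refine Finset.sum_congr rfl fun i _ => Finset.sum_congr rfl fun j _ => ?_
      rw [← Finset.smul_sum, fc_biv, smul_comm])
  have h4 : ∑ a, ∑ b, ∑ l, th a l * ∑ m, ∑ i, ∑ j, rc g l m i j x * (f b m * f a i * f b j) =
      scal g x := by
    have h5 : ∀ l m i j, ∑ a, ∑ b, th a l * (rc g l m i j x * (f b m * f a i * f b j)) =
        if l = i then up g m j x * rc g l m i j x else 0 := fun l m i j => by
      have h6 : ∑ a, ∑ b, th a l * (rc g l m i j x * (f b m * f a i * f b j)) =
          (∑ a, th a l * f a i) * ((∑ b, f b m * f b j) * rc g l m i j x) := by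
        rw [Finset.sum_mul]
        refine Finset.sum_congr rfl fun a _ => ?_
        rw [Finset.sum_mul, Finset.mul_sum]
        exact Finset.sum_congr rfl fun b _ => by ring
      rw [h6, e3, e4]
      split_ifs <;> simp
    rw [← rc_scal hg]
    simp only [Finset.mul_sum]
    rw [sum3r]
    simp only [sum3r (fun a b m => ∑ i, ∑ j, th a _ * (rc g _ m i j x * (f b m * f a i * f b j))),
      sum3r (fun a b i => ∑ j, th a _ * (rc g _ _ i j x * (f b _ * f a i * f b j))),
      sum3r (fun a b j => th a _ * (rc g _ _ _ j x * (f b _ * f a _ * f b j))), h5]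
    rw [sum3r fun m j i => up g m j x * rc g i m i j x]
    refine Finset.sum_congr rfl fun l _ => Finset.sum_congr rfl fun m _ => ?_
    rw [Finset.sum_eq_single l (fun i _ hi => by simp [hi.symm]) (by simp)]
    simp
  rw [h4] at h
  rw [← h]
  simp only [e2, Finset.sum_mul, Finset.mul_sum, smul_mul_assoc, mul_smul_comm, Finset.smul_sum,
    smul_smul]
  refine (Finset.sum_congr rfl fun _ _ => Finset.sum_congr rfl fun _ _ => Finset.sum_comm).trans
    ((sum3r _).trans (Finset.sum_congr rfl fun a _ => (sum3r _).trans ?_))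
  exact Finset.sum_congr rfl fun b _ => Finset.sum_congr rfl fun i _ =>
    Finset.sum_congr rfl fun j _ => by rw [mul_comm (f b j), fc]

end Vale.Agent.P366Z.Sp
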