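import Vale.Agent.P366Z.Sp.Api

/-!
# P366Z: the resolvent in the Euclidean spaces
-/

open MeasureTheory Metric Filter Topology Set
open scoped ContDiff ENNReal
open Vale.Agent.P366.Stmt

noncomputable section

namespace Vale.Agent.P366Z.Sp

namespace Lin2A

variable {n : ℕ}

theorem dec_bd {V : Type} [NormedAddCommGroup V] {f : E n → V} (h : Dec f) :
    ∃ C, ∀ x, ‖f x‖ ≤ C := by
  obtain ⟨c, hc, C, h⟩ := h
  refine ⟨|C|, fun x => (h x).trans ((mul_le_mul_of_nonneg_right (le_abs_self C)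
    (Real.exp_pos _).le).trans (mul_le_of_le_one_right (abs_nonneg C) ?_))⟩
  exact Real.exp_le_one_iff.2 (mul_nonpos_of_nonpos_of_nonneg (neg_nonpos.2 hc.le) (norm_nonneg x))

theorem bl_of {V : Type} [NormedAddCommGroup V] [NormedSpace ℝ V] {f : E n → V}
    (hf : ContDiff ℝ ∞ f) (h : Dec f) (h' : Dec (fderiv ℝ f)) : ∃ M, BL M f := by
  obtain ⟨C, hC⟩ := dec_bd h
  obtain ⟨D, hD⟩ := dec_bd h'
  refine ⟨max C D, fun x => (hC x).trans (le_max_left _ _), fun x y => ?_⟩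
  exact convex_univ.norm_image_sub_le_of_norm_fderiv_le (𝕜 := ℝ) (fun z _ => sm_diff hf z)
    (fun z _ => (hD z).trans (le_max_right _ _)) (mem_univ y) (mem_univ x)

theorem lv_coord {N : ℕ} {g : Field n} (hg : Met g) {u : E n → E N} (hu : ContDiff ℝ ∞ u)
    (x : E n) (a : Fin N) : lv g u x a = lap g (fun y => u y a) x := by
  have h1 : ContDiff ℝ ∞ fun y => u y a := (EuclideanSpace.proj (𝕜 := ℝ) a).contDiff.comp hu
  have h2 : ∀ j, (fun y => pv j u y a) = pd j fun y => u y a := fun j =>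
    funext fun y => pv_coord (sm_diff hu y) j a
  rw [hg.lap_eq (h1.contDiffAt.of_le (by norm_cast)), lv]
  simp only [PiLp.add_apply, WithLp.ofLp_sum, Finset.sum_apply, PiLp.smul_apply, smul_eq_mul,
    pv_coord (sm_diff (sm_pv hu _) x), pv_coord (sm_diff hu x), h2]

end Lin2A

open Lin2A in
theorem lin2_of (h : LINV) : LIN2 := by
  intro n N hn g ρ A C hg hF hA hA' hC hK
  obtain ⟨l₀, h⟩ := h n N g ρ A C hn hg hF hA hA' hC hK
  obtain ⟨K, h⟩ := h (max l₀ 1) (le_max_left _ _)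
  refine ⟨max l₀ 1, one_pos.trans_le (le_max_right _ _), fun f hf d1 d2 => ?_⟩
  obtain ⟨M, hM⟩ := bl_of hf d1 d2
  obtain ⟨u, -, -, h2, h3, h4, h5⟩ := h M f hM
  refine ⟨u, h4 hf, (h5 d1).1, (h5 d1).2, ⟨K * M, fun x => h2.1 x trivial⟩, fun x => ?_⟩
  ext a
  rw [← h3 x a, ← lv_coord hg (h4 hf)]
  rfl

end Vale.Agent.P366Z.Sp
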