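import Vale.Agent.P366Z.Sp.Api

/-!
# P366Z: the block `SPINEX`, rows OPR and BND
-/

open MeasureTheory Metric Filter Topology Set
open scoped ContDiff ENNReal
open Vale.Agent.P366.Stmt

noncomputable section

namespace Vale.Agent.P366Z.Sp

namespace OprH

variable {n : ℕ} {V : Type} [NormedAddCommGroup V] [InnerProductSpace ℝ V] {R : ℝ}

variable (n V R) in
/-- smooth fields of endomorphisms which vanish outside the ball -/
def Z : AddSubmonoid (E n → En V) where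
  carrier := {B | ContDiff ℝ ∞ B ∧ ∀ x, R < ‖x‖ → B x = 0}
  add_mem' h h' := ⟨h.1.add h'.1, fun x hx => by rw [Pi.add_apply, h.2 x hx, h'.2 x hx, add_zero]⟩
  zero_mem' := ⟨contDiff_const, fun _ _ => rfl⟩

variable (n V R) in
/-- smooth fields of endomorphisms which are constant outside the ball -/
def Kc : AddSubmonoid (E n → En V) where
  carrier := {B | ContDiff ℝ ∞ B ∧ ∃ a, ∀ x, R < ‖x‖ → B x = a}
  add_mem' := fun ⟨h, a, k⟩ ⟨h', a', k'⟩ =>
    ⟨h.add h', a + a', fun x hx => by rw [Pi.add_apply, k x hx, k' x hx]⟩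
  zero_mem' := ⟨contDiff_const, 0, fun _ _ => rfl⟩

variable {A B : E n → En V}

theorem zk (h : B ∈ Z n V R) : B ∈ Kc n V R := ⟨h.1, 0, h.2⟩

theorem z_mul (h : B ∈ Z n V R) (h' : ContDiff ℝ ∞ A) : (fun x => B x * A x) ∈ Z n V R :=
  ⟨h.1.mul h', fun x hx => by simp only [h.2 x hx, zero_mul]⟩

theorem mul_z (h : ContDiff ℝ ∞ B) (h' : A ∈ Z n V R) : (fun x => B x * A x) ∈ Z n V R :=
  ⟨h.mul h'.1, fun x hx => by simp only [h'.2 x hx, mul_zero]⟩

theorem k_mul (h : B ∈ Kc n V R) (h' : A ∈ Kc n V R) : (fun x => B x * A x) ∈ Kc n V R :=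
  let ⟨h, a, k⟩ := h
  let ⟨h', a', k'⟩ := h'
  ⟨h.mul h', a * a', fun x hx => by simp only [k x hx, k' x hx]⟩

theorem pv_z (h : B ∈ Z n V R) (i : Fin n) : pv i B ∈ Z n V R :=
  ⟨sm_pv h.1 i, fun _ hx => pv_out h.2 hx i⟩

theorem k_bd (h : B ∈ Kc n V R) : ∀ᶠ M : ℝ in atTop, ∀ x, ‖B x‖ ≤ M ∧ ‖fderiv ℝ B x‖ ≤ M := by
  obtain ⟨h, a, k⟩ := h
  obtain ⟨K, -, h1⟩ := bdd_of_out h.continuous (R := R) (C := ‖a‖) fun y hy => (k y hy).symm ▸ le_rfl
  obtain ⟨K', -, h2⟩ := bdd_of_out (h.continuous_fderiv (by simp)) (R := R) (C := 0)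
    fun y hy => by
      have : B =ᶠ[𝓝 y] fun _ => a := by
        filter_upwards [(isOpen_lt continuous_const continuous_norm).mem_nhds hy] with z hz
        exact k z hz
      rw [this.fderiv_eq]
      simp
  filter_upwards [eventually_ge_atTop K, eventually_ge_atTop K'] with M k1 k2 x
  exact ⟨(h1 x).trans k1, (h2 x).trans k2⟩

/-- operators of first order with coefficients in `Φ` -/
def Op (Φ : AddSubmonoid (E n → En V)) (D : (E n → V) → E n → V) : Prop :=
  ∃ (A : Fin n → E n → En V) (C : E n → En V), (∀ i, A i ∈ Φ) ∧ C ∈ Φ ∧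
    ∀ (u : E n → V) (x : E n), ContDiff ℝ ∞ u → D u x = ∑ i, A i x (pv i u x) + C x (u x)

variable {Φ Φ' : AddSubmonoid (E n → En V)} {D D' : (E n → V) → E n → V}

theorem op0 (h : B ∈ Φ) : Op Φ fun u x => B x (u x) :=
  ⟨0, B, fun _ => zero_mem _, h, fun u x _ => by simp⟩

theorem op1 (h : B ∈ Φ) (i : Fin n) : Op Φ fun u x => B x (pv i u x) := by
  refine ⟨Pi.single i B, 0, fun j => ?_, zero_mem _, fun u x _ => ?_⟩
  · by_cases e : j = i
    · rwa [e, Pi.single_eq_same]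
    · rw [Pi.single_eq_of_ne e]
      exact zero_mem _
  · rw [Finset.sum_eq_single i (fun j _ e => by simp [Pi.single_eq_of_ne e]) (by simp)]
    simp

theorem Op.add (h : Op Φ D) (h' : Op Φ D') : Op Φ fun u x => D u x + D' u x := by
  obtain ⟨A, C, h1, h2, h3⟩ := h
  obtain ⟨A', C', h1', h2', h3'⟩ := h'
  refine ⟨A + A', C + C', fun i => add_mem (h1 i) (h1' i), add_mem h2 h2', fun u x hu => ?_⟩
  simp only [h3 u x hu, h3' u x hu, Pi.add_apply, add_apply, Finset.sum_add_distrib]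
  abel

theorem Op.congr (h : Op Φ D) (e : ∀ u x, ContDiff ℝ ∞ u → D' u x = D u x) : Op Φ D' :=
  let ⟨A, C, h1, h2, h3⟩ := h
  ⟨A, C, h1, h2, fun u x hu => (e u x hu).trans (h3 u x hu)⟩

theorem op_sum {F : Fin n → (E n → V) → E n → V} (h : ∀ i, Op Φ (F i)) :
    Op Φ fun u x => ∑ i, F i u x := by
  choose A C h1 h2 h3 using h
  refine ⟨∑ k, A k, ∑ k, C k, fun i => ?_, sum_mem fun k _ => h2 k, fun u x hu => ?_⟩
  · rw [Finset.sum_apply]
    exact sum_mem fun k _ => h1 k i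
  · simp only [h3 _ u x hu, Finset.sum_apply, sum_apply, Finset.sum_add_distrib]
    rw [Finset.sum_comm]

theorem Op.mul (h : Op Φ D) (hB : ∀ A ∈ Φ, (fun x => B x * A x) ∈ Φ') :
    Op Φ' fun u x => B x (D u x) := by
  obtain ⟨A, C, h1, h2, h3⟩ := h
  exact ⟨fun i x => B x * A i x, fun x => B x * C x, fun i => hB _ (h1 i), hB _ h2,
    fun u x hu => by simp only [h3 u x hu, map_add, map_sum, mul_apply_eq_comp]⟩

theorem Op.smul (h : Op Φ D) {f : E n → ℝ}
    (hB : ∀ A ∈ Φ, (fun x => (f x • (1 : En V)) * A x) ∈ Φ') : Op Φ' fun u x => f x • D u x :=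
  (h.mul (B := fun x => f x • 1) hB).congr fun _ _ _ => rfl

theorem sm_one {f : E n → ℝ} (hf : Smooth f) : ContDiff ℝ ∞ fun x => f x • (1 : En V) :=
  ContDiff.fun_smul hf contDiff_const

theorem fd_app {X Y : Type} [NormedAddCommGroup X] [NormedSpace ℝ X] [NormedAddCommGroup Y]
    [NormedSpace ℝ Y] {c : E n → X →L[ℝ] Y} {w : E n → X} {x : E n} (hc : DifferentiableAt ℝ c x)
    (hw : DifferentiableAt ℝ w x) : ‖fderiv ℝ (fun y => c y (w y)) x‖ ≤
      ‖c x‖ * ‖fderiv ℝ w x‖ + ‖fderiv ℝ c x‖ * ‖w x‖ := by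
  rw [fderiv_clm_apply hc hw]
  refine (norm_add_le _ _).trans (add_le_add (ContinuousLinearMap.opNorm_comp_le _ _) ?_)
  rw [← ContinuousLinearMap.opNorm_flip]
  exact ContinuousLinearMap.le_opNorm _ _

theorem Op.bd (h : Op (Kc n V R) D) : ∀ᶠ K : ℝ in atTop, ∀ (u : E n → V) (x : E n),
    ContDiff ℝ ∞ u → ‖D u x‖ ≤ K * (‖u x‖ + ‖fderiv ℝ u x‖) ∧
      ‖fderiv ℝ (D u) x‖ ≤ K * (‖u x‖ + ‖fderiv ℝ u x‖ + ‖fderiv ℝ (fderiv ℝ u) x‖) := by
  obtain ⟨A, C, h1, h2, h3⟩ := h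
  obtain ⟨M, ⟨a1, a2⟩, a0⟩ := (((eventually_all.2 fun i => k_bd (h1 i)).and (k_bd h2)).and
    (eventually_ge_atTop 0)).exists
  filter_upwards [eventually_ge_atTop ((n + 1) * M)] with K hK u x hu
  have p1 := norm_nonneg (u x)
  have p2 := norm_nonneg (fderiv ℝ u x)
  have p3 := norm_nonneg (fderiv ℝ (fderiv ℝ u) x)
  have p4 : (0 : ℝ) ≤ n * M := by positivity
  have b1 : ∀ i, ‖A i x (pv i u x)‖ ≤ M * ‖fderiv ℝ u x‖ := fun i =>
    (A i x).le_of_opNorm_le_of_le (a1 i x).1 (norm_pv_le i u x)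
  have b2 : ∀ i, ‖fderiv ℝ (pv i u) x‖ ≤ ‖fderiv ℝ (fderiv ℝ u) x‖ := fun i => by
    refine (fd_app (c := fderiv ℝ u) (w := fun _ => EuclideanSpace.single i (1 : ℝ)) (x := x)
      (sm_diff (hu.fderiv_right (m := ∞) (by norm_cast)) x) (differentiableAt_const _)).trans ?_
    simp
  have b3 : ∀ i, ‖fderiv ℝ (fun y => A i y (pv i u y)) x‖ ≤
      M * (‖fderiv ℝ u x‖ + ‖fderiv ℝ (fderiv ℝ u) x‖) := fun i => by
    refine (fd_app (sm_diff (h1 i).1 x) (sm_diff (sm_pv hu i) x)).trans ?_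
    rw [mul_add, add_comm]
    exact add_le_add (mul_le_mul (a1 i x).2 (norm_pv_le i u x) (norm_nonneg _) a0)
      (mul_le_mul (a1 i x).1 (b2 i) (norm_nonneg _) a0)
  have b4 : ‖fderiv ℝ (fun y => C y (u y)) x‖ ≤ M * ‖fderiv ℝ u x‖ + M * ‖u x‖ :=
    (fd_app (sm_diff h2.1 x) (sm_diff hu x)).trans (add_le_add
      (mul_le_mul_of_nonneg_right (a2 x).1 p2) (mul_le_mul_of_nonneg_right (a2 x).2 p1))
  have d1 : ∀ i, DifferentiableAt ℝ (fun y => A i y (pv i u y)) x := fun i =>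
    sm_diff ((h1 i).1.clm_apply (sm_pv hu i)) x
  constructor
  · rw [h3 u x hu]
    refine (norm_add_le_of_le ((norm_sum_le _ _).trans (Finset.sum_le_sum fun i _ => b1 i))
      ((C x).le_of_opNorm_le (a2 x).1 _)).trans
      (le_trans ?_ (mul_le_mul_of_nonneg_right hK (by positivity)))
    rw [Fin.sum_const, nsmul_eq_mul]
    nlinarith [mul_nonneg p4 p1, mul_nonneg a0 p2]
  · rw [show D u = fun y => ∑ i, A i y (pv i u y) + C y (u y) from funext fun y => h3 u y hu,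
      fderiv_fun_add (DifferentiableAt.fun_sum fun i _ => d1 i) (sm_diff (h2.1.clm_apply hu) x),
      fderiv_fun_sum fun i _ => d1 i]
    refine (norm_add_le_of_le ((norm_sum_le _ _).trans (Finset.sum_le_sum fun i _ => b3 i))
      b4).trans (le_trans ?_ (mul_le_mul_of_nonneg_right hK (by positivity)))
    rw [Fin.sum_const, nsmul_eq_mul]
    nlinarith [mul_nonneg p4 p1, mul_nonneg a0 p3]

variable {g : Field n} (c : Cm n V) (S : Cn g R)

theorem ga_k (i : Fin n) : ga c S i ∈ Kc n V R := ⟨sm_ga c S i, _, fun _ hx => ga_out c S hx.le i⟩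

theorem om_z (i : Fin n) : om c S i ∈ Z n V R := ⟨sm_om c S i, fun _ hx => om_out c S hx i⟩

theorem op_nb (i : Fin n) : Op (Kc n V R) (nb c S i) :=
  ((op1 (Φ := Kc n V R) (B := fun _ => 1) ⟨contDiff_const, 1, fun _ _ => rfl⟩ i).add
    (op0 (zk (om_z c S i)))).congr fun _ _ _ => rfl

theorem op_di : Op (Kc n V R) (di c S) :=
  op_sum fun i => (op_nb c S i).mul fun _ => k_mul (ga_k c S i)

end OprH

open OprH

/-- row BND -/
theorem bnd : BND := by
  intro n V _ _ c g R S hg hf B hB hB0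
  have h1 : ∀ i, Op (Kc n V R) fun u => kv c S u i := fun i =>
    (op_sum fun j => (op_nb c S j).smul fun _ => k_mul ⟨sm_one (hg.sm_up i j),
      (if i = j then 1 else 0 : ℝ) • 1, fun x hx => by
        simp only [up_of_eq (hf x hx.le), up_eu]⟩).add
        ((op_di c S).mul fun _ => k_mul (ga_k c S i))
  have h2 : Op (Kc n V R) (dq c S B) := (op_di c S).add (op0 (zk ⟨hB, hB0⟩))
  obtain ⟨K, ⟨⟨a1, a2⟩, a3⟩, a0⟩ := ((((eventually_all.2 fun i => k_bd (ga_k c S i)).and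
    (eventually_all.2 fun i => (h1 i).bd)).and h2.bd).and (eventually_gt_atTop 0)).exists
  exact ⟨K, a0, fun u x hu => ⟨fun i => (a1 i x).1, fun i => (a2 i u x hu).1, a3 u x hu⟩⟩

/-- row OPR -/
theorem opr_of (hW : WEI) : OPR := by
  intro n V _ _ c g R S hg hf B B' hP
  have hB : B ∈ Z n V R := ⟨hP.sm, fun x hx => (hP.out x hx).1⟩
  have hB' : B' ∈ Z n V R := ⟨hP.sm', fun x hx => (hP.out x hx).2⟩
  have h1 : ∀ i j, Op (Z n V R) fun u x => nb c S i (nb c S j u) x - pv i (pv j u) x := fun i j =>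
    (((op0 (pv_z (om_z c S j) i)).add (op1 (om_z c S j) i)).add ((op_nb c S j).mul
      fun _ h => z_mul (om_z c S i) h.1)).congr fun u x hu => by
        have e : pv i (nb c S j u) x = _ :=
          pv_add (sm_diff (sm_pv hu j) x) (sm_diff ((sm_om c S j).clm_apply hu) x) i
        rw [nb, e, pv_app (sm_diff (sm_om c S j) x) (sm_diff hu x)]
        abel
  have h2 : Op (Z n V R) fun u x => di c S (di c S u) x + lv g u x :=
    (((op_sum fun i => op_sum fun j => (h1 i j).smul (f := fun x => -up g i j x) fun _ =>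
      mul_z (sm_one (ContDiff.neg (hg.sm_up i j)))).add (op_sum fun j =>
        (op0 (om_z c S j)).smul (f := fun x => -bv g j x) fun _ =>
          mul_z (sm_one (ContDiff.neg (hg.sm_bv j))))).add
      (op0 (B := fun x => (scal g x / 4) • 1) ⟨sm_one (ContDiff.div_const hg.sm_scal 4),
        fun x hx => by simp [hf.scal_eq hx]⟩)).congr fun u x hu => by
      have e : ∀ j, ∑ i, ∑ k, up g i k x * chr g j i k x = -bv g j x := fun j => by
        rw [hg.bv_eq, neg_neg]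
      rw [hW n V c g R S hg hf u x hu, lv]
      simp only [e, smul_sub, neg_smul, Finset.sum_sub_distrib, Finset.sum_neg_distrib,
        nb.eq_1 c S _ u, smul_add, Finset.sum_add_distrib, smul_apply, one_apply_eq_self]
      abel
  have h3 : Op (Z n V R) fun u x => di c S (fun y => B' y (u y)) x :=
    op_sum fun i => ((((op0 (pv_z hB' i)).add (op1 hB' i)).add ((op0 hB').mul fun _ =>
      mul_z (sm_om c S i))).congr (D' := fun u => nb c S i fun y => B' y (u y))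
        fun u x hu => by rw [nb, pv_app (sm_diff hB'.1 x) (sm_diff hu x)]).mul
          fun _ => mul_z (sm_ga c S i)
  obtain ⟨A, C, a1, a2, a3⟩ := (h2.add h3).add
    (((op_di c S).add (op0 (zk hB'))).mul fun _ h => z_mul hB h.1)
  obtain ⟨K, hK⟩ := (k_bd (zk a2)).exists
  refine ⟨A, C, fun i => (a1 i).1, fun i x hx => (a1 i).2 x (by linarith), a2.1,
    ⟨K, fun x => (hK x).1, fun x y => convex_univ.norm_image_sub_le_of_norm_fderiv_le
      (fun z _ => sm_diff a2.1 z) (fun z _ => (hK z).2) (mem_univ y) (mem_univ x)⟩,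
    fun u x hu => ?_⟩
  have e : di c S (dq c S B' u) x = di c S (di c S u) x + di c S (fun y => B' y (u y)) x := by
    have k := dq_add c S 0 (sm_diff (sm_di c S hu) x) (sm_diff (hB'.1.clm_apply hu) x)
    simp only [dq, Pi.zero_apply, zero_apply, add_zero] at k
    exact k
  rw [← a3 u x hu, dq, e, dq]
  beta_reduce
  abel

end Vale.Agent.P366Z.Sp
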