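import Vale.Agent.P366Z.Sp.Api
import Mathlib.Algebra.Order.Chebyshev

/-!
# P366Z: the algebra of one sheet
-/

open Vale.Agent.P366.Stmt

noncomputable section

namespace Vale.Agent.P366Z.Sp

variable {n : ℕ} {V : Type} [NormedAddCommGroup V] [InnerProductSpace ℝ V] (c : Cm n V)

theorem norm_sum_e_le (Z : Fin n → V) : ‖∑ a, c.e a (Z a)‖ ^ 2 ≤ n * ∑ a, ‖Z a‖ ^ 2 := by
  have h1 : ‖∑ a, c.e a (Z a)‖ ≤ ∑ a, ‖Z a‖ :=
    (norm_sum_le _ _).trans_eq (Finset.sum_congr rfl fun a _ => e_norm c a _)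
  have h2 := sq_sum_le_card_mul_sum_sq (s := Finset.univ) (f := fun a => ‖Z a‖)
  rw [Finset.card_univ, Fintype.card_fin] at h2
  exact (pow_le_pow_left₀ (norm_nonneg _) h1 2).trans h2

theorem norm_sum_smul_e (d : Fin n → ℝ) (x : V) :
    ‖∑ a, d a • c.e a x‖ ^ 2 = (∑ a, d a ^ 2) * ‖x‖ ^ 2 := by
  rw [← real_inner_self_eq_norm_sq, sum_inner, Finset.sum_mul]
  refine Finset.sum_congr rfl fun a _ => ?_
  simp only [inner_sum, real_inner_smul_left, real_inner_smul_right, e_inner, mul_ite, mul_zero,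
    Finset.sum_ite_eq, Finset.mem_univ, if_true]
  ring

theorem norm3 (u v w : V) (p q : ℝ) : ‖u + p • v + q • w‖ ^ 2 = ‖u‖ ^ 2 + p ^ 2 * ‖v‖ ^ 2 +
    q ^ 2 * ‖w‖ ^ 2 + 2 * p * inner ℝ v u + 2 * q * inner ℝ u w + 2 * p * q * inner ℝ v w := by
  simp only [← real_inner_self_eq_norm_sq, inner_add_left, inner_add_right, real_inner_smul_left,
    real_inner_smul_right, real_inner_comm v u, real_inner_comm u w, real_inner_comm v w]
  ring

/-- the inequality in an orthonormal frame -/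
theorem sh1_frame (X Y : Fin n → V) (x y : V) {G t : ℝ} (d : Fin n → ℝ) (hn : 2 ≤ n) (hG : 0 < G)
    (hY : ∑ a, c.e a (Y a) = (-t) • y) :
    -((n : ℝ) * (n - 1) / (4 * G) * (∑ a, d a ^ 2) * ‖x‖ ^ 2) +
      (t ^ 2 / ((n : ℝ) - 1) * ‖y‖ ^ 2 - ∑ a, ‖Y a‖ ^ 2) / G +
      (n * ∑ a, d a * inner ℝ x (Y a) - t * ∑ a, d a * inner ℝ x (c.e a y)) / G ≤
    G * (∑ a, ‖X a‖ ^ 2 - ‖∑ a, c.e a (X a)‖ ^ 2) +
      (∑ a, d a * inner ℝ x (X a) + ∑ a, d a * inner ℝ x (c.e a (∑ b, c.e b (X b)))) +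
      ((n : ℝ) - 1) * ∑ a, d a * inner ℝ x (X a) - 2 * ∑ a, inner ℝ (X a) (Y a) +
      G * ‖∑ a, c.e a (X a) - (t / (((n : ℝ) - 1) * G)) • y‖ ^ 2 := by
  have n2 : (2 : ℝ) ≤ n := by exact_mod_cast hn
  have h1 := norm_sum_e_le c fun a => X a + (n / (2 * G) * d a) • x + (-G⁻¹) • Y a
  have h2 : ∑ a, c.e a (X a + (n / (2 * G) * d a) • x + (-G⁻¹) • Y a) =
      ∑ a, c.e a (X a) + (n / (2 * G)) • ∑ a, d a • c.e a x + (t / G) • y := by
    simp only [map_add, map_smul, Finset.sum_add_distrib, ← Finset.smul_sum, hY, mul_smul]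
    rw [smul_smul, neg_mul_neg, mul_comm G⁻¹, div_eq_mul_inv t]
  have h3 : ∀ u, inner ℝ (∑ a, d a • c.e a x) u = -∑ a, d a * inner ℝ x (c.e a u) := fun u => by
    simp only [sum_inner, real_inner_smul_left, c.skew, mul_neg, Finset.sum_neg_distrib]
  have h4 : ∑ a, ‖X a + (n / (2 * G) * d a) • x + (-G⁻¹) • Y a‖ ^ 2 = ∑ a, ‖X a‖ ^ 2 +
      (n / (2 * G)) ^ 2 * ‖x‖ ^ 2 * ∑ a, d a ^ 2 + G⁻¹ ^ 2 * ∑ a, ‖Y a‖ ^ 2 +
      n / G * ∑ a, d a * inner ℝ x (X a) - 2 / G * ∑ a, inner ℝ (X a) (Y a) -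
      n / G ^ 2 * ∑ a, d a * inner ℝ x (Y a) := by
    simp only [Finset.mul_sum, ← Finset.sum_add_distrib, ← Finset.sum_sub_distrib]
    refine Finset.sum_congr rfl fun a _ => ?_
    rw [norm3]
    field_simp
    ring
  rw [h2, h4, norm3, norm_sum_smul_e, h3, h3] at h1
  have h5 := norm3 (∑ a, c.e a (X a)) 0 y 0 (-(t / (((n : ℝ) - 1) * G)))
  rw [zero_smul, add_zero, neg_smul, ← sub_eq_add_neg] at h5
  have h6 := sq_nonneg ‖∑ a, c.e a (X a) - (t / (((n : ℝ) - 1) * G)) • y‖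
  rw [h5] at h6 ⊢
  generalize ∑ a, c.e a (X a) = D at *
  generalize ∑ a, d a * inner ℝ x (X a) = k1 at *
  generalize ∑ a, d a * inner ℝ x (Y a) = k2 at *
  generalize ∑ a, d a * inner ℝ x (c.e a D) = k3 at *
  generalize ∑ a, d a * inner ℝ x (c.e a y) = k4 at *
  generalize ∑ a, inner ℝ (X a) (Y a) = k5 at *
  generalize ∑ a, ‖X a‖ ^ 2 = k6 at *
  generalize ∑ a, ‖Y a‖ ^ 2 = k7 at *
  generalize ∑ a, d a ^ 2 = k8 at *
  have n0 : (0 : ℝ) < n := by linarith
  have n1 : (n : ℝ) - 1 ≠ 0 := by linarith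
  rw [← sub_nonneg] at h1 ⊢
  refine (mul_nonneg (div_nonneg hG.le n0.le) (add_nonneg h1 h6)).trans_eq ?_
  field_simp
  ring

variable {f h : Fin n → Fin n → ℝ}

theorem con_r (hf : ∀ i j, ∑ a, f a i * f a j = h i j) (u v : Fin n → ℝ) :
    ∑ i, ∑ j, h i j * u i * v j = ∑ a, (∑ i, f a i * u i) * ∑ j, f a j * v j := by
  simp only [← hf, Finset.sum_mul, Finset.mul_sum]
  rw [Finset.sum_comm (f := fun a i => ∑ j, f a j * u j * (f a i * v i)), Finset.sum_comm]
  refine Finset.sum_congr rfl fun j _ => ?_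
  rw [Finset.sum_comm]
  exact Finset.sum_congr rfl fun a _ => Finset.sum_congr rfl fun i _ => by ring

theorem con_v (hf : ∀ i j, ∑ a, f a i * f a j = h i j) (X Y : Fin n → V) :
    ∑ i, ∑ j, h i j * inner ℝ (X i) (Y j) =
      ∑ a, inner ℝ (∑ i, f a i • X i) (∑ j, f a j • Y j) := by
  simp only [← hf, Finset.sum_mul, sum_inner, inner_sum, real_inner_smul_left,
    real_inner_smul_right]
  rw [Finset.sum_comm (f := fun a i => ∑ j, f a i * (f a j * inner ℝ (X j) (Y i))),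
    Finset.sum_comm]
  refine Finset.sum_congr rfl fun j _ => ?_
  rw [Finset.sum_comm]
  exact Finset.sum_congr rfl fun a _ => Finset.sum_congr rfl fun i _ => by ring

theorem sum_gm (X : Fin n → V) : ∑ i, gm c f i (X i) = ∑ a, c.e a (∑ i, f a i • X i) := by
  simp only [gm_apply, map_sum, map_smul]
  exact Finset.sum_comm

theorem sum_inner_gm (W : Fin n → ℝ) (x y : V) : ∑ i, W i * inner ℝ x (gm c f i y) =
    ∑ a, (∑ i, f a i * W i) * inner ℝ x (c.e a y) := by
  simp only [gm_apply, inner_sum, real_inner_smul_right, Finset.mul_sum, Finset.sum_mul]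
  rw [Finset.sum_comm]
  exact Finset.sum_congr rfl fun a _ => Finset.sum_congr rfl fun i _ => by ring

theorem gm_inner (hf : ∀ i j, ∑ a, f a i * f a j = h i j) (i j : Fin n) (y : V) :
    inner ℝ (gm c f i y) (gm c f j y) = h i j * ‖y‖ ^ 2 := by
  simp only [gm_apply, sum_inner, inner_sum, real_inner_smul_left, real_inner_smul_right, e_inner,
    mul_ite, mul_zero, Finset.sum_ite_eq', Finset.mem_univ, if_true, ← hf, Finset.sum_mul]
  exact Finset.sum_congr rfl fun a _ => by ring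

theorem sum_gm_gm (hf : ∀ i j, ∑ a, f a i * f a j = h i j) {T : Fin n → Fin n → ℝ}
    (hT : ∀ i j, T i j = T j i) (y : V) : ∑ i, gm c f i (∑ j, T i j • gm c f j y) =
      (-∑ i, ∑ j, h i j * T i j) • y := by
  have h1 : ∑ i, ∑ j, T i j • gm c f i (gm c f j y) = ∑ i, ∑ j, T i j • gm c f j (gm c f i y) := by
    rw [Finset.sum_comm]
    exact Finset.sum_congr rfl fun i _ => Finset.sum_congr rfl fun j _ => by rw [hT]
  have h2 : ∀ i j, gm c f i (gm c f j y) + gm c f j (gm c f i y) = (-2 * h i j) • y :=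
    fun i j => by simpa [hf] using congrArg (fun L : En V => L y) (gm_rel c f i j)
  refine smul_right_injective V (two_ne_zero (α := ℝ)) ?_
  simp only [map_sum, map_smul]
  rw [two_smul]
  nth_rewrite 2 [h1]
  simp only [← Finset.sum_add_distrib, ← smul_add, h2, smul_smul, ← Finset.sum_smul,
    ← Finset.sum_neg_distrib, Finset.mul_sum]
  congr 1
  exact Finset.sum_congr rfl fun i _ => Finset.sum_congr rfl fun j _ => by ring

theorem sh1 : SH1 := by
  intro n V _ _ c f h gl T X x y G t d hn hf hl hT hG ht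
  have h0 := sh1_frame c (fun a => ∑ i, f a i • X i)
    (fun a => ∑ i, f a i • ∑ j, T i j • gm c f j y) x y (fun a => ∑ i, f a i * d i) hn hG
    (by rw [← sum_gm, sum_gm_gm c hf hT, ← ht])
  have e0 : ∀ (Y : Fin n → V) a, inner ℝ x (∑ i, f a i • Y i) = ∑ i, f a i * inner ℝ x (Y i) :=
    fun Y a => by simp only [inner_sum, real_inner_smul_right]
  have hs : ∀ i j, h i j = h j i := fun i j => by simp only [← hf, mul_comm]
  simp only [e0, ← real_inner_self_eq_norm_sq (∑ i, f _ i • _), sq (∑ i, f _ i * d i),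
    ← con_r hf, ← con_v hf, ← sum_gm, ← sum_inner_gm] at h0
  have e1 : ∑ i, ∑ j, h i j * inner ℝ (∑ j, T i j • gm c f j y) (∑ l, T j l • gm c f l y) =
      (∑ i, ∑ j, ∑ k, ∑ l, h i k * h j l * T i j * T k l) * ‖y‖ ^ 2 := by
    simp only [sum_inner, inner_sum, real_inner_smul_left, real_inner_smul_right, gm_inner c hf,
      Finset.mul_sum, Finset.sum_mul]
    refine Finset.sum_congr rfl fun i _ => ?_
    rw [Finset.sum_comm (f := fun j k => ∑ l, h i k * h j l * T i j * T k l * ‖y‖ ^ 2)]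
    refine Finset.sum_congr rfl fun k _ => ?_
    rw [Finset.sum_comm]
    exact Finset.sum_congr rfl fun j _ => Finset.sum_congr rfl fun l _ => by ring
  have e2 : ∀ j, ∑ k, gl j k * ∑ l, h k l * d l = d j := fun j => by
    simp only [Finset.mul_sum, ← mul_assoc]
    rw [Finset.sum_comm]
    simp [← Finset.sum_mul, hl]
  have e3 : ∑ j, (∑ k, ((n : ℝ) * T j k - t * gl j k) * ((∑ l, h k l * d l) / G)) *
      inner ℝ x (gm c f j y) = (n * ∑ i, ∑ j, h i j * d i * inner ℝ x (∑ l, T j l • gm c f l y) -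
        t * ∑ i, d i * inner ℝ x (gm c f i y)) / G := by
    have k1 : ∑ i, ∑ j, h i j * d i * inner ℝ x (∑ l, T j l • gm c f l y) =
        ∑ l, (∑ j, T l j * ∑ i, h j i * d i) * inner ℝ x (gm c f l y) := by
      simp only [inner_sum, real_inner_smul_right, Finset.mul_sum, Finset.sum_mul]
      rw [Finset.sum_comm, Finset.sum_comm (f := fun l j => ∑ i,
        T l j * (h j i * d i) * inner ℝ x (gm c f l y))]
      refine Finset.sum_congr rfl fun j _ => ?_
      rw [Finset.sum_comm]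
      exact Finset.sum_congr rfl fun l _ => Finset.sum_congr rfl fun i _ => by
        rw [hs i j, hT j l]; ring
    rw [k1, Finset.mul_sum, Finset.mul_sum, ← Finset.sum_sub_distrib, Finset.sum_div]
    refine Finset.sum_congr rfl fun j _ => ?_
    conv_rhs => rw [← e2 j]
    simp only [Finset.mul_sum (a := (n : ℝ)), Finset.mul_sum (a := t), Finset.sum_mul,
      ← Finset.sum_sub_distrib]
    rw [Finset.sum_div]
    exact Finset.sum_congr rfl fun k _ => by ring
  have e4 : ∑ i, d i * inner ℝ x (∑ j, h i j • X j + gm c f i (∑ j, gm c f j (X j))) =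
      ∑ i, ∑ j, h i j * d i * inner ℝ x (X j) +
        ∑ i, d i * inner ℝ x (gm c f i (∑ j, gm c f j (X j))) := by
    rw [← Finset.sum_add_distrib]
    refine Finset.sum_congr rfl fun i _ => ?_
    rw [inner_add_right, mul_add, inner_sum, Finset.mul_sum]
    congr 1
    exact Finset.sum_congr rfl fun j _ => by rw [real_inner_smul_right]; ring
  have e5 : ∑ i, (∑ j, h i j * d j) * inner ℝ x (X i) =
      ∑ i, ∑ j, h i j * d i * inner ℝ x (X j) := by
    rw [Finset.sum_comm]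
    simp only [Finset.sum_mul]
    exact Finset.sum_congr rfl fun i _ => Finset.sum_congr rfl fun j _ => by rw [hs]
  have e6 : ∑ i, ∑ k, ∑ j, h i k * T k j * inner ℝ (X i) (gm c f j y) =
      ∑ i, ∑ k, h i k * inner ℝ (X i) (∑ j, T k j • gm c f j y) := by
    simp only [inner_sum, real_inner_smul_right, Finset.mul_sum, mul_assoc]
  rw [e1] at h0
  rw [e3, e4, e5, e6]
  refine le_of_eq_of_le ?_ h0
  ring

end Vale.Agent.P366Z.Sp
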