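import Vale.Agent.P366Z.Sp.Api

/-!
# P366Z: derivatives of the pairings, the square of the Dirac operator
-/

open MeasureTheory Metric Filter Topology Set
open scoped ContDiff ENNReal
open Vale.Agent.P366.Stmt

noncomputable section

namespace Vale.Agent.P366Z.Sp

namespace WeiH

variable {n : ℕ} {V : Type} [NormedAddCommGroup V] [InnerProductSpace ℝ V] {g : Field n} {R : ℝ}
  (c : Cm n V) (S : Cn g R) {u w : E n → V} {x : E n}

theorem o1 (hu : DifferentiableAt ℝ u x) (hw : DifferentiableAt ℝ w x) (k : Fin n) :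
    pd k (fun y => inner ℝ (u y) (w y)) x =
      inner ℝ (nb c S k u x) (w x) + inner ℝ (u x) (nb c S k w x) := by
  rw [pd_inner hu hw, nb, nb, inner_add_left, inner_add_right, om_skew]
  ring

theorem dif_ga (hw : DifferentiableAt ℝ w x) (j : Fin n) :
    DifferentiableAt ℝ (fun y => ga c S j y (w y)) x := (sm_diff (sm_ga c S j) x).clm_apply hw

theorem o2 (hw : DifferentiableAt ℝ w x) (k j : Fin n) :
    nb c S k (fun y => ga c S j y (w y)) x =
      ga c S j x (nb c S k w x) - ∑ l, chr g j k l x • ga c S l x (w x) := by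
  rw [nb, nb, pv_app (sm_diff (sm_ga c S j) x) hw, cmp, map_add]
  simp only [sub_apply, neg_apply, sum_apply, smul_apply, mul_apply_eq_comp]
  abel

theorem o3 (hu : DifferentiableAt ℝ u x) (hw : DifferentiableAt ℝ w x) (k j : Fin n) :
    pd k (fun y => inner ℝ (u y) (ga c S j y (w y))) x =
      inner ℝ (nb c S k u x) (ga c S j x (w x)) + inner ℝ (u x) (ga c S j x (nb c S k w x)) -
        ∑ l, chr g j k l x * inner ℝ (u x) (ga c S l x (w x)) := by
  rw [o1 c S hu (dif_ga c S hw j), o2 c S hw, inner_sub_right, inner_sum]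
  simp only [real_inner_smul_right]
  ring

theorem o4 (hg : Met g) (hu : DifferentiableAt ℝ u x) (hw : DifferentiableAt ℝ w x) :
    dv g (fun i y => inner ℝ (u y) (ga c S i y (w y))) x =
      inner ℝ (u x) (di c S w x) - inner ℝ (di c S u x) (w x) := by
  rw [hg.dv_chr fun i => hu.inner ℝ (dif_ga c S hw i), di, di, inner_sum, sum_inner,
    ← Finset.sum_sub_distrib]
  refine Finset.sum_congr rfl fun i _ => ?_
  rw [o3 c S hu hw, ga_skew c S i x (nb c S i u x)]
  ring

/-- the symmetric and the skew part of a product of two multiplications -/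
theorem split (N : Fin n → Fin n → V) : ∑ i, ∑ j, ga c S i x (ga c S j x (N i j)) =
    (1 / 2 : ℝ) • ∑ i, ∑ j, ga c S i x (ga c S j x (N i j - N j i)) -
      ∑ i, ∑ j, up g i j x • N i j := by
  have h1 : ∑ i, ∑ j, ga c S i x (ga c S j x (N j i)) =
      ∑ i, ∑ j, ga c S j x (ga c S i x (N i j)) := Finset.sum_comm
  have h2 : ∑ i, ∑ j, ga c S i x (ga c S j x (N i j)) + ∑ i, ∑ j, ga c S j x (ga c S i x (N i j)) =
      (-2 : ℝ) • ∑ i, ∑ j, up g i j x • N i j := by
    simp only [← Finset.sum_add_distrib, Finset.smul_sum, smul_smul]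
    exact Finset.sum_congr rfl fun i _ => Finset.sum_congr rfl fun j _ =>
      congrArg (fun L : En V => L (N i j)) (ga_rel c S i j x)
  simp only [map_sub, Finset.sum_sub_distrib]
  rw [h1, eq_sub_of_add_eq' h2]
  module

theorem curv (hu : ContDiff ℝ ∞ u) (i j : Fin n) :
    nb c S i (nb c S j u) x - nb c S j (nb c S i u) x = (pv i (om c S j) x - pv j (om c S i) x +
      (om c S i x * om c S j x - om c S j x * om c S i x)) (u x) := by
  have h : ∀ i j, nb c S i (nb c S j u) x = pv i (pv j u) x + (pv i (om c S j) x (u x) +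
      om c S j x (pv i u x)) + om c S i x (pv j u x + om c S j x (u x)) := fun i j => by
    rw [← pv_app (sm_diff (sm_om c S j) x) (sm_diff hu x), ← pv_add (sm_diff (sm_pv hu j) x)
      (sm_diff ((sm_om c S j).clm_apply hu) x)]
    rfl
  rw [h, h, pv_comm hu i j]
  simp only [sub_apply, add_apply, mul_apply_eq_comp, map_add]
  abel

end WeiH

open WeiH

/-- **OMD** -/
theorem omd : OMD := fun _ _ _ _ c _ _ S hg _ _ _ _ hu hw =>
  ⟨o1 c S hu hw, o2 c S hw, o3 c S hu hw, o4 c S hg hu hw⟩

/-- **WEI** -/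
theorem wei_of (hL : LICH) (_ : OMD) : WEI := by
  intro n V _ _ c g R S hg hf u x hu
  have hn := fun j => sm_diff (sm_nb c S hu j) x
  have h1 : di c S (di c S u) x = ∑ i, ∑ j, ga c S i x (ga c S j x (nb c S i (nb c S j u) x)) -
      ∑ j, ∑ i, ∑ l, ga c S i x (ga c S l x (chr g j i l x • nb c S j u x)) := by
    rw [Finset.sum_comm (f := fun j i => ∑ l, ga c S i x (ga c S l x
      (chr g j i l x • nb c S j u x))), ← Finset.sum_sub_distrib]
    refine Finset.sum_congr rfl fun i _ => ?_
    have h2 : nb c S i (di c S u) x = _ := nb_sum c S Finset.univ (fun j _ => dif_ga c S (hn j) j) i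
    rw [h2, map_sum, ← Finset.sum_sub_distrib]
    refine Finset.sum_congr rfl fun j _ => ?_
    simp only [o2 c S (hn j), map_sub, map_sum, map_smul]
  have h3 : ∀ j, ∑ i, ∑ l, ga c S i x (ga c S l x (chr g j i l x • nb c S j u x)) =
      -((∑ i, ∑ k, up g i k x * chr g j i k x) • nb c S j u x) := fun j => by
    rw [split c S fun i l => chr g j i l x • nb c S j u x]
    simp only [hg.chr_sy j _ _ x, sub_self, map_zero, Finset.sum_const_zero, smul_zero, zero_sub,
      Finset.sum_smul, smul_smul]
  have h4 := congrArg (fun L : En V => L (u x)) (hL n V c g R S hg hf x)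
  simp only [sum_apply, mul_apply_eq_comp, smul_apply, one_apply_eq_self, ← curv c S hu] at h4
  rw [h1, split c S fun i j => nb c S i (nb c S j u) x, h4]
  simp only [h3, Finset.sum_neg_distrib]
  module

/-- **SL** -/
theorem sl_of (_ : OMD) (hW : WEI) : SL := by
  intro n V _ _ c g R S hg hf u x hu
  have hn := fun j => sm_diff (sm_nb c S hu j) x
  have h0 := sm_diff hu x
  have hd := sm_diff (sm_di c S hu) x
  have ha : ∀ j, DifferentiableAt ℝ (fun y => inner ℝ (u y) (nb c S j u y)) x :=
    fun j => h0.inner ℝ (hn j)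
  have hb : ∀ j i, DifferentiableAt ℝ (fun y => inner ℝ (u y) (nb c S j u y) * up g i j y) x :=
    fun j i => (ha j).fun_mul ((hg.sm_up i j).diff x)
  have e : (fun i y => inner ℝ (u y) (kv c S u i y)) = fun i y =>
      ∑ j, inner ℝ (u y) (nb c S j u y) * up g i j y + inner ℝ (u y) (ga c S i y (di c S u y)) := by
    funext i y
    simp only [kv, inner_add_right, inner_sum, real_inner_smul_right, mul_comm]
  have h1 : ∀ j, dv g (fun i y => inner ℝ (u y) (nb c S j u y) * up g i j y) x =
      -((∑ i, ∑ k, up g i k x * chr g j i k x) * inner ℝ (u x) (nb c S j u x)) +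
        ∑ i, up g i j x * (inner ℝ (nb c S i u x) (nb c S j u x) +
          inner ℝ (u x) (nb c S i (nb c S j u) x)) := fun j => by
    rw [hg.dv_smul (ha j) fun i => (hg.sm_up i j).diff x,
      show dv g (fun i => up g i j) x = _ from hg.bv_eq j x]
    simp only [o1 c S h0 (hn j), mul_neg, mul_comm]
  rw [e, hg.dv_add (fun i => DifferentiableAt.fun_sum fun j _ => hb j i)
    (fun i => h0.inner ℝ (dif_ga c S hd i)), hg.dv_sum Finset.univ hb, o4 c S hg h0 hd,
    hW n V c g R S hg hf u x hu, real_inner_self_eq_norm_sq]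
  simp only [h1, inner_add_right, inner_neg_right, inner_sum, real_inner_smul_right,
    real_inner_self_eq_norm_sq, Finset.sum_add_distrib, Finset.sum_neg_distrib, mul_add]
  rw [Finset.sum_comm (f := fun j i => up g i j x * inner ℝ (nb c S i u x) (nb c S j u x)),
    Finset.sum_comm (f := fun j i => up g i j x * inner ℝ (u x) (nb c S i (nb c S j u) x))]
  ring

end Vale.Agent.P366Z.Sp
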