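import Vale.Agent.P366Z.Sp.Api

/-!
# P366Z: the weighted inequality of Witten
-/

open scoped ContDiff
open Vale.Agent.P366.Stmt

noncomputable section

namespace Vale.Agent.P366Z.Sp

namespace Wit

variable {n : ℕ} {V : Type} [NormedAddCommGroup V] [InnerProductSpace ℝ V] (c : Cm n V)
  {g T : Field n} {R : ℝ} (S : Cn g R) {v : E n → ℝ} {u : E n → V}

/-- the inequality for one sheet -/
theorem one (hD : DCUR) (h1 : SH1) (hP : POW) (hn : 3 ≤ n) (hg : Met g) (hf : Flat g R)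
    (hT : ∀ x i j, T x i j = T x j i) (hv : Smooth v) (h0 : ∀ y, 0 < v y) (hu : ContDiff ℝ ∞ u)
    (x : E n) (y : V) :
    v x ^ (-bb n - 1) * cl g v x / 4 * ‖u x‖ ^ 2 + mq g T x * v x ^ bb n * ‖y‖ ^ 2 +
      ∑ j, (∑ k, ((n : ℝ) * T x j k - tr g T x * g x j k) *
        (gr g (fun y => v y ^ (-bb n)) k x / v x ^ (-bb n))) * inner ℝ (u x) (ga c S j x y) ≤
    dv g (cur c S (fun y => v y ^ (-bb n)) u) x -
      2 * ∑ i, ∑ k, ∑ j, up g i k x * T x k j * inner ℝ (nb c S i u x) (ga c S j x y) +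
      v x ^ (-bb n) * ‖di c S u x - al g T v x • y‖ ^ 2 := by
  have k : -((n : ℝ) * (n - 1) / (4 * v x ^ (-bb n)) *
        ip g (fun y => v y ^ (-bb n)) (fun y => v y ^ (-bb n)) x * ‖u x‖ ^ 2) +
      mq g T x / v x ^ (-bb n) * ‖y‖ ^ 2 + ∑ j, (∑ k, ((n : ℝ) * T x j k - tr g T x * g x j k) *
        (gr g (fun y => v y ^ (-bb n)) k x / v x ^ (-bb n))) * inner ℝ (u x) (ga c S j x y) ≤
      v x ^ (-bb n) * (∑ i, ∑ j, up g i j x * inner ℝ (nb c S i u x) (nb c S j u x) -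
        ‖di c S u x‖ ^ 2) + ∑ i, pd i (fun y => v y ^ (-bb n)) x * inner ℝ (u x) (kv c S u i x) +
      ((n : ℝ) - 1) * ∑ i, gr g (fun y => v y ^ (-bb n)) i x * inner ℝ (u x) (nb c S i u x) -
      2 * ∑ i, ∑ k, ∑ j, up g i k x * T x k j * inner ℝ (nb c S i u x) (ga c S j x y) +
      v x ^ (-bb n) * ‖di c S u x - al g T v x • y‖ ^ 2 :=
    h1 n V c (fun a j => S.f a j x) (fun i j => up g i j x) (g x) (T x) (fun i => nb c S i u x)
      (u x) y _ _ (fun i => pd i (fun y => v y ^ (-bb n)) x) (by omega) (fun i j => S.fr.up i j x)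
      (fun i j => hg.mul_up i j x) (hT x) (Real.rpow_pos_of_pos (h0 x) _) rfl
  rw [div_eq_mul_inv (mq g T x), Real.rpow_neg (h0 x).le (bb n), inv_inv,
    ← Real.rpow_neg (h0 x).le (bb n)] at k
  rw [hD n V c g R S hg hf _ u x (hv.rpow h0 _) hu, ← (hP n g v v x hn hg hv hv h0 h0).1]
  linarith

end Wit

open Wit in
theorem wit_of (hD : DCUR) (hC : DCRS) (h1 : SH1) (h3 : SH3) (hP : POW) : WIT := by
  intro n V _ _ c g T R S v v' u w x h hu hw
  have k1 := one c S hD h1 hP h.dim h.met h.flat h.syT h.smv h.v_pos hu x (w x)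
  have k2 := one c S hD h1 hP h.dim h.met h.flat h.syT h.smv' h.v'_pos hw x (-u x)
  have k3 : ∀ j a b, inner ℝ a (ga c S j x (-b)) = inner ℝ b (ga c S j x a) := fun j a b => by
    rw [map_neg, inner_neg_right, ← ga_skew, real_inner_comm]
  simp only [k3, norm_neg, smul_neg, sub_neg_eq_add] at k2
  have d1 := fun i => (sm_cur c S h.met (h.smv.rpow h.v_pos (-bb n)) hu i).diff x
  have d2 := fun i => (sm_cur c S h.met (h.smv'.rpow h.v'_pos (-bb n)) hw i).diff x
  have d3 := fun i => (sm_crs c S h.met h.smT hu hw i).diff x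
  have k4 : dv g (jj c S T v v' u w) x = dv g (cur c S (fun y => v y ^ (-bb n)) u) x +
      dv g (cur c S (fun y => v' y ^ (-bb n)) w) x + -2 * dv g (crs c S T u w) x := by
    rw [← h.met.dv_add d1 d2, ← dv_const_mul, ← h.met.dv_add (fun i => (d1 i).fun_add (d2 i))
      fun i => (d3 i).const_mul _]
    refine congrArg (fun X => dv g X x) (funext fun i => funext fun y => ?_)
    rw [jj]
    ring
  have k5 := hC n V c g R S h.met h.flat T u w x h.smT h.syT hu hw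
  simp only [mul_add, Finset.sum_add_distrib] at k5
  have k6 : 2 * ∑ j, wq g T v v' j x * inner ℝ (u x) (ga c S j x (w x)) =
      -2 * ∑ j, dvT g T j x * inner ℝ (u x) (ga c S j x (w x)) +
      ∑ j, (∑ k, ((n : ℝ) * T x j k - tr g T x * g x j k) *
        (gr g (fun y => v y ^ (-bb n)) k x / v x ^ (-bb n))) * inner ℝ (u x) (ga c S j x (w x)) +
      ∑ j, (∑ k, ((n : ℝ) * T x j k - tr g T x * g x j k) *
        (gr g (fun y => v' y ^ (-bb n)) k x / v' x ^ (-bb n))) *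
          inner ℝ (u x) (ga c S j x (w x)) := by
    rw [Finset.mul_sum, Finset.mul_sum, ← Finset.sum_add_distrib, ← Finset.sum_add_distrib]
    refine Finset.sum_congr rfl fun j _ => ?_
    rw [add_assoc, ← add_mul, ← Finset.sum_add_distrib, Finset.sum_congr rfl fun k _ => by
      rw [← mul_add, ← (hP n g v v' x h.dim h.met h.smv h.smv' h.v_pos h.v'_pos).2.1 k,
        mul_left_comm], ← Finset.mul_sum, wq]
    ring
  have k7 : (∑ j, wq g T v v' j x * inner ℝ (u x) (ga c S j x (w x))) ^ 2 ≤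
      covNorm g (wq g T v v') x ^ 2 * ‖u x‖ ^ 2 * ‖w x‖ ^ 2 := by
    rw [covNorm, Real.sq_sqrt (h.met.up_nonneg x _)]
    exact h3 n V c _ (fun i j => up g i j x) _ _ _ fun i j => S.fr.up i j x
  obtain ⟨p1, p2, p3⟩ := h.pos x
  have k8 := (abs_le_of_sq_le_sq' (a := 2 * ∑ j, wq g T v v' j x * inner ℝ (u x) (ga c S j x (w x)))
    (b := (cq g T v v' x * ‖u x‖ ^ 2 + cq g T v' v x * ‖w x‖ ^ 2) / 2) (by
      nlinarith [mul_le_mul_of_nonneg_right p3 (mul_nonneg (sq_nonneg ‖u x‖) (sq_nonneg ‖w x‖)),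
        sq_nonneg (cq g T v v' x * ‖u x‖ ^ 2 - cq g T v' v x * ‖w x‖ ^ 2)]) (by positivity)).1
  rw [rhs, k4, k5]
  rw [cq, cq] at k8 ⊢
  linarith

end Vale.Agent.P366Z.Sp
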