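import Vale.Agent.P366Z.Sp.Api

/-!
# P366Z, block `SPINEX`: the rows `SH2`, `SH3`, `WIT2`
-/

open MeasureTheory Metric Filter Topology Set
open scoped ContDiff ENNReal
open Vale.Agent.P366.Stmt

noncomputable section

namespace Vale.Agent.P366Z.Sp

namespace Wit2

variable {n : ℕ} {V : Type} [NormedAddCommGroup V] [InnerProductSpace ℝ V]

theorem cl_norm (c : Cm n V) (d : Fin n → ℝ) (x : V) :
    ‖∑ j, d j • c.e j x‖ ^ 2 = (∑ i, d i ^ 2) * ‖x‖ ^ 2 := by
  rw [← real_inner_self_eq_norm_sq, sum_inner, Finset.sum_mul]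
  refine Finset.sum_congr rfl fun i _ => ?_
  simp only [inner_sum, real_inner_smul_left, real_inner_smul_right, e_inner, mul_ite, mul_zero,
    Finset.sum_ite_eq, Finset.mem_univ, if_true]
  ring

theorem cl_skew (c : Cm n V) (d : Fin n → ℝ) (x y : V) :
    ∑ i, d i * inner ℝ x (c.e i y) = -inner ℝ (∑ j, d j • c.e j x) y := by
  simp only [sum_inner, real_inner_smul_left, c.skew, mul_neg, Finset.sum_neg_distrib, neg_neg]

end Wit2

open Wit2

theorem sh2 : SH2 := by
  intro n V _ _ c X x G d hG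
  have h1 := cl_norm c d x
  have h2 := cl_skew c d x (∑ j, d j • c.e j x)
  have h3 := cl_skew c d x (∑ j, c.e j (X j))
  rw [real_inner_self_eq_norm_sq] at h2
  generalize ∑ j, d j • c.e j x = y at h1 h2 h3 ⊢
  have h4 : inner ℝ y (∑ j, c.e j (X j)) = -∑ j, inner ℝ (X j) (c.e j y) := by
    rw [inner_sum, ← Finset.sum_neg_distrib]
    exact Finset.sum_congr rfl fun j _ => by rw [real_inner_comm, c.skew]
  have h5 : ∀ i, ‖X i + (2 * G)⁻¹ • (((n : ℝ) * d i) • x + c.e i y)‖ ^ 2 =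
      ‖X i‖ ^ 2 + G⁻¹ * n * (d i * inner ℝ x (X i)) + G⁻¹ * inner ℝ (X i) (c.e i y) +
        (2 * G)⁻¹ ^ 2 * n ^ 2 * ‖x‖ ^ 2 * d i ^ 2 +
        (2 * G)⁻¹ ^ 2 * 2 * n * (d i * inner ℝ x (c.e i y)) + (2 * G)⁻¹ ^ 2 * ‖y‖ ^ 2 :=
    fun i => by
    rw [norm_add_sq_real, norm_smul, mul_pow, norm_add_sq_real, norm_smul, mul_pow, e_norm,
      real_inner_smul_right, inner_add_right, real_inner_smul_right, real_inner_smul_left,
      real_inner_comm x (X i), Real.norm_eq_abs, Real.norm_eq_abs, sq_abs, sq_abs]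
    field_simp
    ring
  simp only [h5, inner_add_right, mul_add, Finset.sum_add_distrib, ← Finset.mul_sum,
    Finset.sum_const, Finset.card_univ, Fintype.card_fin, nsmul_eq_mul]
  rw [h2, h3, h4, h1]
  field_simp
  ring

theorem sh3 : SH3 := by
  intro n V _ _ c f h x y W hf
  have h1 : ∑ j, W j * inner ℝ x (gm c f j y) = inner ℝ x (∑ a, (∑ j, f a j * W j) • c.e a y) := by
    simp only [gm_apply, inner_sum, real_inner_smul_right, Finset.mul_sum, Finset.sum_mul]
    rw [Finset.sum_comm]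
    exact Finset.sum_congr rfl fun a _ => Finset.sum_congr rfl fun j _ => by ring
  have h2 : ∑ i, ∑ j, h i j * W i * W j = ∑ a, (∑ j, f a j * W j) ^ 2 := by
    simp only [← hf, Finset.sum_mul, sq, Finset.mul_sum]
    rw [eq_comm, Finset.sum_comm]
    refine Finset.sum_congr rfl fun i _ => ?_
    rw [Finset.sum_comm]
    exact Finset.sum_congr rfl fun j _ => Finset.sum_congr rfl fun a _ => by ring
  rw [h1, h2, mul_right_comm, ← cl_norm, ← sq_abs, ← mul_pow, mul_comm]
  exact pow_le_pow_left₀ (abs_nonneg _) (abs_real_inner_le_norm _ _) 2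

namespace Wit2

variable {n : ℕ} {V : Type} [NormedAddCommGroup V] [InnerProductSpace ℝ V]

/-- one sheet -/
theorem sheet (hD : DCUR) (hP : POW) (c : Cm n V) {g : Field n} {R : ℝ} (S : Cn g R)
    {v : E n → ℝ} {u : E n → V} {x : E n} (hn : 3 ≤ n) (hg : Met g) (hf : Flat g R)
    (hv : Smooth v) (h0 : ∀ y, 0 < v y) (hu : ContDiff ℝ ∞ u) (hx : R < ‖x‖) :
    dv g (cur c S (fun y => v y ^ (-bb n)) u) x + v x ^ (-bb n) * ‖di c S u x‖ ^ 2 =
      v x ^ (-bb n) * ∑ i, ‖c.df v u i x‖ ^ 2 + v x ^ (-bb n - 1) * cl g v x / 4 * ‖u x‖ ^ 2 := by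
  obtain ⟨p1, -, p3⟩ := hP n g v v x hn hg hv hv h0 h0
  have hG := Real.rpow_pos_of_pos (h0 x) (-bb n)
  have h1 := sh2 n V c (fun i => pv i u x) (u x) _ (fun i => pd i (fun y => v y ^ (-bb n)) x) hG
  have h2 : ∀ i j, up g i j x = if i = j then 1 else 0 := fun i j => by
    rw [up_of_eq (hf x hx.le), up_eu]
  have h3 : ∀ i, pv i u x + (2 * v x ^ (-bb n))⁻¹ •
      (((n : ℝ) * pd i (fun y => v y ^ (-bb n)) x) • u x +
        c.e i (∑ j, pd j (fun y => v y ^ (-bb n)) x • c.e j (u x))) = c.df v u i x := fun i => by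
    rw [Cm.df, sub_eq_add_neg, smul_add, smul_add, ← map_smul, ← map_smul, Finset.smul_sum,
      Finset.smul_sum, smul_smul, smul_smul, mul_left_comm, p3, neg_add, ← map_neg,
      ← Finset.sum_neg_distrib, ← neg_smul, mul_left_comm, mul_neg]
    simp only [smul_smul, p3, neg_smul]
  simp only [h3] at h1
  rw [hD n V c g R S hg hf _ u x (hv.rpow h0 _) hu, ← p1]
  simp only [kv, gr, ip, h2, ite_mul, ite_smul, one_mul, zero_mul, one_smul, zero_smul,
    Finset.sum_ite_eq, Finset.mem_univ, if_true, nb_out c S hx, ga_out c S hx.le, di_out c S hx,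
    real_inner_self_eq_norm_sq, ← sq]
  linear_combination h1

end Wit2

theorem wit2_of (hD : DCUR) (hP : POW) : WIT2 := by
  intro n V _ _ c g T R S v v' u w x h hu hw hx
  have hT := h.out x hx.le
  have h1 : dv g (jj c S T v v' u w) x = dv g (fun i y => cur c S (fun y => v y ^ (-bb n)) u i y +
      cur c S (fun y => v' y ^ (-bb n)) w i y) x := dv_congr fun i => by
    filter_upwards [(isOpen_lt continuous_const continuous_norm).mem_nhds hx] with y hy
    simp [jj, crs, h.out y (le_of_lt hy)]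
  have h2 := sheet hD hP c S h.dim h.met h.flat h.smv h.v_pos hu hx
  have h3 := sheet hD hP c S h.dim h.met h.flat h.smv' h.v'_pos hw hx
  have h4 : mq g T x = 0 := by simp [mq, tr, normSq, hT]
  obtain ⟨h5, h6, -⟩ := h.pos x
  rw [cq, h4, zero_mul, add_zero] at h5 h6
  rw [rhs, h1, h.met.dv_add
    (fun i => (sm_cur c S h.met (h.smv.rpow h.v_pos _) hu i).diff x)
    (fun i => (sm_cur c S h.met (h.smv'.rpow h.v'_pos _) hw i).diff x), al_out _ hT, al_out _ hT,
    zero_smul, zero_smul, sub_zero, add_zero]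
  have h7 := mul_nonneg h5.le (sq_nonneg ‖u x‖)
  have h8 := mul_nonneg h6.le (sq_nonneg ‖w x‖)
  have h9 := mul_nonneg (Real.rpow_pos_of_pos (h.v'_pos x) (-bb n)).le
    (Finset.sum_nonneg fun i (_ : i ∈ Finset.univ) => sq_nonneg ‖c.df v' w i x‖)
  linarith

end Vale.Agent.P366Z.Sp
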