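import Vale.Agent.P366Z.Sp.Algl
import Vale.Agent.P366Z.Sp.Clx
import Vale.Agent.P366Z.Sp.Coer
import Vale.Agent.P366Z.Sp.Dcur
import Vale.Agent.P366Z.Sp.Fin
import Vale.Agent.P366Z.Sp.Frm
import Vale.Agent.P366Z.Sp.Ibp
import Vale.Agent.P366Z.Sp.Iter
import Vale.Agent.P366Z.Sp.Lich
import Vale.Agent.P366Z.Sp.Lin2
import Vale.Agent.P366Z.Sp.Opr
import Vale.Agent.P366Z.Sp.Sh1
import Vale.Agent.P366Z.Sp.Wei
import Vale.Agent.P366Z.Sp.Wit
import Vale.Agent.P366Z.Sp.Wit2
import Vale.Agent.P366Z.Asy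
import Vale.Agent.P366Z.Lina
import Vale.Agent.P366Z.Linb
import Vale.Agent.P366Z.Max

/-!
# P366Z: the block `SPINEX`
-/

namespace Vale.Agent.P366Z

/-- the resolvent of systems -/
theorem linv : LINV := linv_of lina (linb_of wmb)

namespace Sp

theorem wei : WEI := wei_of (lich_of algl) omd

theorem dcur : DCUR := dcur_of omd (sl_of omd wei)

theorem wit : WIT := wit_of dcur (dcrs_of omd) sh1 sh3 pow

end Sp

open Sp in
/-- the spinor argument -/
theorem spinex : SPINEX :=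
  spinex_of asy flux (asg_of asy) clx (con_of frm) wit (wit2_of dcur pow) (lin2_of linv)
    (iter_of (opr_of wei) bnd int (ibp_of omd bnd int) (cut_of bnd int)) (coer_of wit bnd int)

end Vale.Agent.P366Z
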