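import Vale.Agent.P366Z.Sp.Sk

/-!
# P366Z, block `SPINEX`: the contraction of the curvature (row ALGL)
-/

open Finset

noncomputable section

namespace Vale.Agent.P366Z.Sp

namespace Algl

variable {n : ℕ} {A : Type} [Ring A] [Algebra ℝ A] {e : Fin n → A}

theorem swap (h : ∀ i j, e i * e j + e j * e i = if i = j then (-2 : ℝ) • (1 : A) else 0)
    (i j : Fin n) : e i * e j = -(e j * e i) - (if i = j then (2 : ℝ) else 0) • (1 : A) := by
  rw [eq_sub_iff_add_eq, eq_neg_iff_add_eq_zero, add_right_comm, h]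
  split_ifs <;> simp

theorem rot3 {M : Type} [AddCommMonoid M] (G : Fin n → Fin n → Fin n → M) :
    ∑ a, ∑ b, ∑ k, G a b k = ∑ a, ∑ b, ∑ k, G k a b := by
  rw [sum_comm]
  exact sum_congr rfl fun b _ => sum_comm

theorem three (h : ∀ i j, e i * e j + e j * e i = if i = j then (-2 : ℝ) • (1 : A) else 0)
    {B : Fin n → Fin n → Fin n → ℝ} (h1 : ∀ a b k, B a b k = -B b a k)
    (h2 : ∀ a b k, B a b k + B b k a + B k a b = 0) :
    ∑ a, ∑ b, ∑ k, B a b k • (e a * e b * e k) = (2 : ℝ) • ∑ a, ∑ b, B a b a • e b := by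
  have h0 : ∀ a k, B a a k = 0 := fun a k => by linarith [h1 a a k]
  have e1 : ∀ a b k, e k * e a * e b = e a * e b * e k + (if k = b then (2 : ℝ) else 0) • e a -
      (if k = a then (2 : ℝ) else 0) • e b := fun a b k => by
    rw [swap h k a, sub_mul, neg_mul, mul_assoc, swap h k b, mul_sub, mul_neg, ← mul_assoc,
      mul_smul_comm, smul_mul_assoc, mul_one, one_mul]
    abel
  have e2 : ∀ a b k, e b * e k * e a = e a * e b * e k + (if b = a then (2 : ℝ) else 0) • e k -
      (if k = a then (2 : ℝ) else 0) • e b := fun a b k => by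
    rw [mul_assoc, swap h k a, mul_sub, mul_neg, ← mul_assoc, swap h b a, sub_mul, neg_mul,
      mul_smul_comm, smul_mul_assoc, mul_one, one_mul]
    abel
  have s1 : ∑ a, ∑ b, ∑ k, B a b k • (if k = a then (2 : ℝ) else 0) • e b =
      (2 : ℝ) • ∑ a, ∑ b, B a b a • e b := by
    simp only [ite_smul, zero_smul, smul_ite, smul_zero, sum_ite_eq', mem_univ, if_true, smul_sum,
      smul_comm (2 : ℝ)]
  have s2 : ∑ a, ∑ b, ∑ k, B a b k • (if k = b then (2 : ℝ) else 0) • e a =
      -((2 : ℝ) • ∑ a, ∑ b, B a b a • e b) := by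
    simp only [ite_smul, zero_smul, smul_ite, smul_zero, sum_ite_eq', mem_univ, if_true, smul_sum,
      smul_comm (2 : ℝ), ← sum_neg_distrib]
    rw [sum_comm]
    exact sum_congr rfl fun a _ => sum_congr rfl fun b _ => by rw [h1, neg_smul]
  have s3 : ∑ a, ∑ b, ∑ k, B a b k • (if b = a then (2 : ℝ) else 0) • e k = 0 :=
    sum_eq_zero fun a _ => sum_eq_zero fun b _ => sum_eq_zero fun k _ => by
      split_ifs with hb
      · rw [hb, h0, zero_smul]
      · rw [zero_smul, smul_zero]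
  have t1 : ∑ a, ∑ b, ∑ k, B b k a • (e a * e b * e k) =
      ∑ a, ∑ b, ∑ k, B a b k • (e k * e a * e b) := rot3 _
  have t2 : ∑ a, ∑ b, ∑ k, B k a b • (e a * e b * e k) =
      ∑ a, ∑ b, ∑ k, B a b k • (e b * e k * e a) :=
    (rot3 fun a b k => B a b k • (e b * e k * e a)).symm
  have t0 : ∑ a, ∑ b, ∑ k, B a b k • (e a * e b * e k) +
      ∑ a, ∑ b, ∑ k, B b k a • (e a * e b * e k) +
      ∑ a, ∑ b, ∑ k, B k a b • (e a * e b * e k) = 0 := by
    simp only [← sum_add_distrib, ← add_smul, h2, zero_smul, sum_const_zero]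
  have u1 : ∑ a, ∑ b, ∑ k, B a b k • (e k * e a * e b) =
      ∑ a, ∑ b, ∑ k, B a b k • (e a * e b * e k) +
      ∑ a, ∑ b, ∑ k, B a b k • (if k = b then (2 : ℝ) else 0) • e a -
      ∑ a, ∑ b, ∑ k, B a b k • (if k = a then (2 : ℝ) else 0) • e b := by
    simp only [← sum_add_distrib, ← sum_sub_distrib, ← smul_add, ← smul_sub]
    exact sum_congr rfl fun a _ => sum_congr rfl fun b _ => sum_congr rfl fun k _ => by rw [e1]
  have u2 : ∑ a, ∑ b, ∑ k, B a b k • (e b * e k * e a) =
      ∑ a, ∑ b, ∑ k, B a b k • (e a * e b * e k) +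
      ∑ a, ∑ b, ∑ k, B a b k • (if b = a then (2 : ℝ) else 0) • e k -
      ∑ a, ∑ b, ∑ k, B a b k • (if k = a then (2 : ℝ) else 0) • e b := by
    simp only [← sum_add_distrib, ← sum_sub_distrib, ← smul_add, ← smul_sub]
    exact sum_congr rfl fun a _ => sum_congr rfl fun b _ => sum_congr rfl fun k _ => by rw [e2]
  rw [t1, t2, u1, u2, s1, s2, s3] at t0
  linear_combination (norm := module) (1 / 3 : ℝ) • t0

theorem two (h : ∀ i j, e i * e j + e j * e i = if i = j then (-2 : ℝ) • (1 : A) else 0)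
    {S : Fin n → Fin n → ℝ} (h1 : ∀ a b, S a b = S b a) :
    ∑ a, ∑ b, S a b • (e a * e b) = -((∑ a, S a a) • (1 : A)) := by
  have t1 : ∑ a, ∑ b, S a b • (e b * e a) = ∑ a, ∑ b, S a b • (e a * e b) := by
    rw [sum_comm]
    exact sum_congr rfl fun a _ => sum_congr rfl fun b _ => by rw [h1]
  have t2 : ∑ a, ∑ b, S a b • (e a * e b) + ∑ a, ∑ b, S a b • (e b * e a) =
      (-2 : ℝ) • ((∑ a, S a a) • (1 : A)) := by
    simp only [← sum_add_distrib, ← smul_add, h, smul_ite, smul_zero, sum_ite_eq, mem_univ, if_true,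
      sum_smul, smul_sum, smul_comm (-2 : ℝ)]
  rw [t1] at t2
  linear_combination (norm := module) (1 / 2 : ℝ) • t2

theorem anti (h : ∀ i j, e i * e j + e j * e i = if i = j then (-2 : ℝ) • (1 : A) else 0)
    {F : A} {R : Fin n → Fin n → ℝ} (h3 : ∀ k, F * e k - e k * F = -∑ d, R k d • e d)
    (k d : Fin n) : (R k d + R d k) • (1 : A) = 0 := by
  have t1 : F * (e k * e d + e d * e k) - (e k * e d + e d * e k) * F = 0 := by
    rw [h]
    split_ifs <;> simp
  have t2 : F * (e k * e d + e d * e k) - (e k * e d + e d * e k) * F =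
      ((F * e k - e k * F) * e d + e d * (F * e k - e k * F)) +
        ((F * e d - e d * F) * e k + e k * (F * e d - e d * F)) := by noncomm_ring
  have t3 : ∀ k d, (F * e k - e k * F) * e d + e d * (F * e k - e k * F) =
      (2 * R k d) • (1 : A) := fun k d => by
    rw [h3, neg_mul, mul_neg, sum_mul, mul_sum, ← neg_add, ← sum_add_distrib]
    simp only [smul_mul_assoc, mul_smul_comm, ← smul_add, h, smul_ite, smul_zero, sum_ite_eq',
      mem_univ, if_true, smul_smul, ← neg_smul]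
    congr 1
    ring
  rw [t2, t3, t3] at t1
  linear_combination (norm := module) (1 / 2 : ℝ) • t1

theorem main (h : ∀ i j, e i * e j + e j * e i = if i = j then (-2 : ℝ) • (1 : A) else 0)
    {F : Fin n → Fin n → A} {R : Fin n → Fin n → Fin n → Fin n → ℝ}
    (h1 : ∀ k d a b, R k d a b = -R k d b a) (h2 : ∀ k d a b, R k d a b + R k a b d + R k b d a = 0)
    (h3 : ∀ a b k, F a b * e k - e k * F a b = -∑ d, R k d a b • e d)
    (h4 : ∀ a b, ∑ k, e k * (F a b * e k - e k * F a b) = (4 : ℝ) • F a b) :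
    ∑ a, ∑ b, e a * e b * F a b = ((∑ a, ∑ b, R a b a b) / 2) • (1 : A) := by
  rcases subsingleton_or_nontrivial A with hA | hA
  · exact Subsingleton.elim _ _
  have h5 : ∀ k d a b, R k d a b = -R d k a b := fun k d a b => by
    have := anti h (R := fun k d => R k d a b) (h3 a b) k d
    rw [← Algebra.algebraMap_eq_smul_one, map_eq_zero] at this
    linarith
  have h6 : ∀ a d b, R a d a b = R a b a d := fun a d b => by
    linarith [h2 a d a b, h5 a a b d, h1 a b d a]
  have t1 : ∀ a b, (4 : ℝ) • (e a * e b * F a b) =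
      -∑ d, ∑ k, R k d a b • (e a * e b * e k) * e d := fun a b => by
    rw [← mul_smul_comm, ← h4, sum_comm, mul_sum, ← sum_neg_distrib]
    refine sum_congr rfl fun k _ => ?_
    rw [h3, mul_neg, mul_neg, mul_sum, mul_sum]
    simp only [smul_mul_assoc, mul_smul_comm, mul_assoc]
  have t2 : ∀ d, ∑ a, ∑ b, ∑ k, R k d a b • (e a * e b * e k) =
      (2 : ℝ) • ∑ a, ∑ b, R a d a b • e b := fun d =>
    three h (B := fun a b k => R k d a b) (fun a b k => h1 k d a b) fun a b k => by
      linarith [h2 d k a b, h5 k d a b, h5 a d b k, h5 b d k a]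
  have t3 : ∑ a, ∑ b, ∑ d, ∑ k, R k d a b • (e a * e b * e k) * e d =
      ∑ d, (∑ a, ∑ b, ∑ k, R k d a b • (e a * e b * e k)) * e d := by
    simp only [sum_mul]
    exact (rot3 fun d a b => ∑ k, R k d a b • (e a * e b * e k) * e d).symm
  have t4 : ∑ d, (∑ a, ∑ b, R a d a b • e b) * e d =
      ∑ b, ∑ d, (∑ a, R a d a b) • (e b * e d) := by
    simp only [sum_mul, sum_smul, smul_mul_assoc]
    exact (rot3 fun b d a => R a d a b • (e b * e d)).symm
  have t5 := two h (S := fun b d => ∑ a, R a d a b) fun b d => sum_congr rfl fun a _ => h6 a d b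
  have t6 : (4 : ℝ) • ∑ a, ∑ b, e a * e b * F a b =
      -∑ a, ∑ b, ∑ d, ∑ k, R k d a b • (e a * e b * e k) * e d := by
    simp only [smul_sum, t1, sum_neg_distrib]
  rw [t3] at t6
  simp only [t2, smul_mul_assoc, ← smul_sum] at t6
  rw [t4, t5, sum_comm (f := fun b a => R a b a b)] at t6
  linear_combination (norm := module) (1 / 4 : ℝ) • t6

end Algl

/-- row ALGL -/
theorem algl : ALGL := fun _ _ _ _ c _ _ h1 h2 h3 h4 =>
  Algl.main (fun i j => ContinuousLinearMap.ext fun u => (c.rel i j u).trans (by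
    split_ifs <;> rfl)) h1 h2 h3 h4

end Vale.Agent.P366Z.Sp
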