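import Vale.Agent.P366Z.Sp.Sk
import Vale.Agent.P366Z.Calc3
import Vale.Agent.P366Z.Int

/-!
# P366Z: the block `SPINEX`, shared lemmas
-/

open MeasureTheory Metric Filter Topology Set
open scoped ContDiff ENNReal
open Vale.Agent.P366.Stmt

noncomputable section

namespace Vale.Agent.P366Z.Sp

variable {n : ℕ}

/-! ### the derivative of vector valued functions -/

section Pv

variable {V : Type} [NormedAddCommGroup V] [NormedSpace ℝ V] {u w : E n → V} {x : E n}

theorem pv_of {L : E n →L[ℝ] V} (h : HasFDerivAt u L x) (i : Fin n) :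
    pv i u x = L (EuclideanSpace.single i 1) := by rw [pv, h.fderiv]

theorem pv_eq_pd {f : E n → ℝ} (hf : DifferentiableAt ℝ f x) (i : Fin n) : pv i f x = pd i f x :=
  (pd_eq hf i).symm

theorem pv_congr (e : u =ᶠ[𝓝 x] w) (i : Fin n) : pv i u x = pv i w x := by
  rw [pv, pv, e.fderiv_eq]

theorem pv_congr_ev (e : u =ᶠ[𝓝 x] w) (i : Fin n) : pv i u =ᶠ[𝓝 x] pv i w :=
  e.eventuallyEq_nhds.mono fun _ hy => pv_congr hy i

theorem pv_const (a : V) (i : Fin n) (x : E n) : pv i (fun _ => a) x = 0 := by simp [pv]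

theorem pv_add (hu : DifferentiableAt ℝ u x) (hw : DifferentiableAt ℝ w x) (i : Fin n) :
    pv i (fun y => u y + w y) x = pv i u x + pv i w x :=
  pv_of (hu.hasFDerivAt.fun_add hw.hasFDerivAt) i

theorem pv_sub (hu : DifferentiableAt ℝ u x) (hw : DifferentiableAt ℝ w x) (i : Fin n) :
    pv i (fun y => u y - w y) x = pv i u x - pv i w x :=
  pv_of (hu.hasFDerivAt.fun_sub hw.hasFDerivAt) i

theorem pv_neg (i : Fin n) : pv i (fun y => -u y) x = -pv i u x := by
  simp [pv, fderiv_fun_neg]

theorem pv_sum {ι : Type*} (s : Finset ι) {F : ι → E n → V}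
    (hF : ∀ k ∈ s, DifferentiableAt ℝ (F k) x) (i : Fin n) :
    pv i (fun y => ∑ k ∈ s, F k y) x = ∑ k ∈ s, pv i (F k) x := by
  rw [pv_of (HasFDerivAt.fun_sum fun k hk => (hF k hk).hasFDerivAt), sum_apply]
  rfl

theorem pv_smul {f : E n → ℝ} (hf : DifferentiableAt ℝ f x) (hu : DifferentiableAt ℝ u x)
    (i : Fin n) : pv i (fun y => f y • u y) x = pd i f x • u x + f x • pv i u x := by
  rw [pv_of (hf.hasFDerivAt.fun_smul hu.hasFDerivAt), pd_eq hf, add_comm]
  rfl

theorem pv_smul_const {f : E n → ℝ} (hf : DifferentiableAt ℝ f x) (a : V) (i : Fin n) :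
    pv i (fun y => f y • a) x = pd i f x • a := by
  rw [pv_smul hf (differentiableAt_const a), pv_const, smul_zero, add_zero]

theorem pv_const_smul (a : ℝ) (hu : DifferentiableAt ℝ u x) (i : Fin n) :
    pv i (fun y => a • u y) x = a • pv i u x := by
  rw [pv_smul (differentiableAt_const a) hu, pd_const, zero_smul, zero_add]

theorem pv_clm {W : Type} [NormedAddCommGroup W] [NormedSpace ℝ W] (L : V →L[ℝ] W)
    (hu : DifferentiableAt ℝ u x) (i : Fin n) : pv i (fun y => L (u y)) x = L (pv i u x) :=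
  pv_of (L.hasFDerivAt.comp x hu.hasFDerivAt) i

theorem pv_app {W : Type} [NormedAddCommGroup W] [NormedSpace ℝ W] {B : E n → V →L[ℝ] W}
    (hB : DifferentiableAt ℝ B x) (hu : DifferentiableAt ℝ u x) (i : Fin n) :
    pv i (fun y => B y (u y)) x = pv i B x (u x) + B x (pv i u x) := by
  rw [pv_of (hB.hasFDerivAt.clm_apply hu.hasFDerivAt), add_comm]
  rfl

theorem norm_pv_le (i : Fin n) (u : E n → V) (x : E n) : ‖pv i u x‖ ≤ ‖fderiv ℝ u x‖ := by
  simpa [pv] using (fderiv ℝ u x).le_opNorm (EuclideanSpace.single i 1)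

theorem sm_pv (hu : ContDiff ℝ ∞ u) (i : Fin n) : ContDiff ℝ ∞ (pv i u) :=
  (hu.fderiv_right (m := ∞) (by norm_cast)).clm_apply contDiff_const

theorem sm_diff (hu : ContDiff ℝ ∞ u) (x : E n) : DifferentiableAt ℝ u x :=
  hu.differentiable (by simp) x

theorem pv_pv (hu : ContDiff ℝ ∞ u) (i j : Fin n) : pv i (pv j u) x =
    fderiv ℝ (fderiv ℝ u) x (EuclideanSpace.single i 1) (EuclideanSpace.single j 1) := by
  have h1 : DifferentiableAt ℝ (fderiv ℝ u) x :=
    sm_diff (hu.fderiv_right (m := ∞) (by norm_cast)) x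
  have h2 := pv_app (B := fderiv ℝ u) (u := fun _ => EuclideanSpace.single j (1 : ℝ)) h1
    (differentiableAt_const _) i
  rw [pv_const, map_zero, add_zero] at h2
  exact h2

theorem pv_comm (hu : ContDiff ℝ ∞ u) (i j : Fin n) : pv i (pv j u) x = pv j (pv i u) x := by
  rw [pv_pv hu, pv_pv hu]
  exact ((hu.contDiffAt.of_le (by norm_cast) : ContDiffAt ℝ 2 u x).isSymmSndFDerivAt
    (by simp)).eq _ _

theorem pv_out {R : ℝ} {a : V} (e : ∀ y, R < ‖y‖ → u y = a) (hx : R < ‖x‖) (i : Fin n) :
    pv i u x = 0 := by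
  have : u =ᶠ[𝓝 x] fun _ => a := by
    filter_upwards [(isOpen_lt continuous_const continuous_norm).mem_nhds hx] with z hz
    exact e z hz
  rw [pv_congr this, pv_const]

end Pv

variable {V : Type} [NormedAddCommGroup V] [InnerProductSpace ℝ V]

theorem pv_mul {B C : E n → En V} {x : E n} (hB : DifferentiableAt ℝ B x)
    (hC : DifferentiableAt ℝ C x) (i : Fin n) :
    pv i (fun y => B y * C y) x = pv i B x * C x + B x * pv i C x := by
  rw [pv_of (hB.hasFDerivAt.fun_mul' hC.hasFDerivAt), add_comm]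
  rfl

theorem pd_inner {u w : E n → V} {x : E n} (hu : DifferentiableAt ℝ u x)
    (hw : DifferentiableAt ℝ w x) (i : Fin n) : pd i (fun y => inner ℝ (u y) (w y)) x =
      inner ℝ (pv i u x) (w x) + inner ℝ (u x) (pv i w x) := by
  rw [pd_of_hasFDerivAt (hu.hasFDerivAt.inner ℝ hw.hasFDerivAt), add_comm]
  rfl

theorem pv_coord {N : ℕ} {u : E n → E N} {x : E n} (hu : DifferentiableAt ℝ u x) (i : Fin n)
    (a : Fin N) :
    pv i u x a = pd i (fun y => u y a) x := by
  have h := pv_clm (EuclideanSpace.proj (𝕜 := ℝ) a) hu i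
  have h1 : DifferentiableAt ℝ (fun y => u y a) x :=
    (EuclideanSpace.proj (𝕜 := ℝ) a).differentiableAt.comp x hu
  exact h.symm.trans (pv_eq_pd h1 i)

/-! ### Clifford algebra -/

section Cliff

variable (c : Cm n V)

theorem e_rel (i j : Fin n) :
    c.e i * c.e j + c.e j * c.e i = (if i = j then (-2 : ℝ) else 0) • (1 : En V) := by
  ext1 u
  have := c.rel i j u
  by_cases h : i = j <;> simpa [h] using this

theorem e_swap (i j : Fin n) :
    c.e i * c.e j = -(c.e j * c.e i) + (if i = j then (-2 : ℝ) else 0) • (1 : En V) := by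
  rw [← e_rel]; abel

theorem e_e (i : Fin n) (u : V) : c.e i (c.e i u) = -u := by
  have h := c.rel i i u
  rw [if_pos rfl, ← two_smul ℝ] at h
  have h2 : (2 : ℝ) • c.e i (c.e i u) = (2 : ℝ) • -u := by rw [h]; simp
  exact smul_right_injective _ two_ne_zero h2

theorem e_inner (i j : Fin n) (u : V) :
    inner ℝ (c.e i u) (c.e j u) = if i = j then ‖u‖ ^ 2 else 0 := by
  have h1 := c.skew i u (c.e j u)
  have h2 := c.skew j u (c.e i u)
  have h3 := congrArg (inner ℝ u) (c.rel i j u)
  rw [inner_add_right] at h3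
  rw [real_inner_comm] at h2
  by_cases h : i = j
  · rw [if_pos h] at h3 ⊢
    rw [inner_smul_right, real_inner_self_eq_norm_sq] at h3
    linarith
  · rw [if_neg h] at h3 ⊢
    rw [inner_zero_right] at h3
    linarith

theorem e_norm (i : Fin n) (u : V) : ‖c.e i u‖ = ‖u‖ := by
  have h := e_inner c i i u
  rw [if_pos rfl, real_inner_self_eq_norm_sq] at h
  exact (pow_left_inj₀ (norm_nonneg _) (norm_nonneg _) two_ne_zero).1 h

theorem e_self (i : Fin n) (u : V) : inner ℝ u (c.e i u) = 0 := by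
  have h := c.skew i u u
  rw [real_inner_comm] at h
  linarith

theorem ee_comm (a b k : Fin n) : c.e a * c.e b * c.e k - c.e k * (c.e a * c.e b) =
    (if a = k then (2 : ℝ) else 0) • c.e b - (if b = k then (2 : ℝ) else 0) • c.e a := by
  have h1 : c.e a * c.e b * c.e k = c.e a * (c.e b * c.e k + c.e k * c.e b) -
      (c.e a * c.e k + c.e k * c.e a) * c.e b + c.e k * (c.e a * c.e b) := by noncomm_ring
  rw [h1, e_rel, e_rel]
  by_cases h2 : a = k <;> by_cases h3 : b = k <;> simp [h2, h3]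

theorem rho_comm {A : Fin n → Fin n → ℝ} (hA : ∀ a b, A a b = -A b a) (k : Fin n) :
    rho c A * c.e k - c.e k * rho c A = -∑ a, A a k • c.e a := by
  have h1 : rho c A * c.e k - c.e k * rho c A = (1 / 4 : ℝ) • ∑ a, ∑ b, A a b •
      (c.e a * c.e b * c.e k - c.e k * (c.e a * c.e b)) := by
    simp only [rho, smul_mul_assoc, mul_smul_comm, Finset.sum_mul, Finset.mul_sum, smul_sub,
      Finset.sum_sub_distrib]
  have h2 : ∑ a, ∑ b, A a b • ((if a = k then (2 : ℝ) else 0) • c.e b) =
      (-2 : ℝ) • ∑ a, A a k • c.e a := by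
    rw [Finset.sum_eq_single k (fun a _ h => by simp [h]) (by simp), Finset.smul_sum]
    refine Finset.sum_congr rfl fun b _ => ?_
    rw [if_pos rfl, hA k b, smul_smul, smul_smul]
    congr 1
    ring
  have h3 : ∑ a, ∑ b, A a b • ((if b = k then (2 : ℝ) else 0) • c.e a) =
      (2 : ℝ) • ∑ a, A a k • c.e a := by
    rw [Finset.smul_sum]
    refine Finset.sum_congr rfl fun a _ => ?_
    rw [Finset.sum_eq_single k (fun b _ h => by simp [h]) (by simp), if_pos rfl, smul_comm]
  rw [h1]
  simp only [ee_comm, smul_sub, Finset.sum_sub_distrib]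
  rw [h2, h3]
  module

theorem rho_biv {A : Fin n → Fin n → ℝ} (hA : ∀ a b, A a b = -A b a) :
    ∑ k, c.e k * (rho c A * c.e k - c.e k * rho c A) = (4 : ℝ) • rho c A := by
  simp only [rho_comm c hA]
  rw [rho, smul_smul]
  norm_num
  rw [← Finset.sum_neg_distrib]
  refine Finset.sum_congr rfl fun a _ => ?_
  rw [Finset.mul_sum, ← Finset.sum_neg_distrib]
  refine Finset.sum_congr rfl fun b _ => ?_
  rw [hA a b, mul_smul_comm, neg_smul]

theorem rho_add (A A' : Fin n → Fin n → ℝ) :
    rho c (fun a b => A a b + A' a b) = rho c A + rho c A' := by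
  simp only [rho, add_smul, Finset.sum_add_distrib, smul_add]

theorem rho_sub (A A' : Fin n → Fin n → ℝ) :
    rho c (fun a b => A a b - A' a b) = rho c A - rho c A' := by
  simp only [rho, sub_smul, Finset.sum_sub_distrib, smul_sub]

theorem rho_zero : rho c (fun _ _ => 0) = 0 := by simp [rho]

theorem rho_bracket {A A' : Fin n → Fin n → ℝ} (hA : ∀ a b, A a b = -A b a) :
    rho c A * rho c A' - rho c A' * rho c A =
      rho c fun a b => ∑ d, (A' a d * A d b - A a d * A' d b) := by
  have h1 : ∀ a b, rho c A * (c.e a * c.e b) - c.e a * c.e b * rho c A =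
      -∑ d, A d a • (c.e d * c.e b) + ∑ d, A b d • (c.e a * c.e d) := fun a b => by
    have h2 : rho c A * (c.e a * c.e b) - c.e a * c.e b * rho c A =
        (rho c A * c.e a - c.e a * rho c A) * c.e b +
          c.e a * (rho c A * c.e b - c.e b * rho c A) := by noncomm_ring
    rw [h2, rho_comm c hA, rho_comm c hA]
    simp only [neg_mul, mul_neg, Finset.sum_mul, Finset.mul_sum, smul_mul_assoc, mul_smul_comm]
    congr 1
    rw [← Finset.sum_neg_distrib]
    exact Finset.sum_congr rfl fun d _ => by rw [hA b d, neg_smul]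
  have h3 : rho c A * rho c A' - rho c A' * rho c A = (1 / 4 : ℝ) • ∑ a, ∑ b, A' a b •
      (rho c A * (c.e a * c.e b) - c.e a * c.e b * rho c A) := by
    generalize rho c A = B
    simp only [rho, smul_mul_assoc, mul_smul_comm, Finset.sum_mul, Finset.mul_sum, smul_sub,
      Finset.sum_sub_distrib]
  rw [h3]
  simp only [h1]
  rw [rho]
  congr 1
  simp only [smul_add, smul_neg, Finset.smul_sum, smul_smul, Finset.sum_add_distrib,
    Finset.sum_neg_distrib, Finset.sum_sub_distrib, sub_smul, Finset.sum_smul]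
  rw [add_comm, ← sub_eq_add_neg]
  congr 1
  · exact Finset.sum_congr rfl fun a _ => Finset.sum_comm
  · rw [Finset.sum_comm]
    refine Eq.trans (Finset.sum_congr rfl fun b _ => Finset.sum_comm) ?_
    rw [Finset.sum_comm]
    refine Finset.sum_congr rfl fun a _ => Finset.sum_congr rfl fun b _ =>
      Finset.sum_congr rfl fun d _ => by rw [mul_comm]

theorem rho_skew {A : Fin n → Fin n → ℝ} (hA : ∀ a b, A a b = -A b a) (u v : V) :
    inner ℝ (rho c A u) v = -inner ℝ u (rho c A v) := by
  simp only [rho, smul_apply, sum_apply,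
    mul_apply_eq_comp, real_inner_smul_left, real_inner_smul_right, sum_inner,
    inner_sum]
  rw [← mul_neg, Finset.sum_comm, ← Finset.sum_neg_distrib]
  congr 1
  refine Finset.sum_congr rfl fun a _ => ?_
  rw [← Finset.sum_neg_distrib]
  refine Finset.sum_congr rfl fun b _ => ?_
  rw [c.skew, c.skew, hA b a]
  ring

theorem gm_apply (f : Fin n → Fin n → ℝ) (i : Fin n) (u : V) :
    gm c f i u = ∑ a, f a i • c.e a u := by
  simp [gm, sum_apply]

theorem gm_skew (f : Fin n → Fin n → ℝ) (i : Fin n) (u v : V) :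
    inner ℝ (gm c f i u) v = -inner ℝ u (gm c f i v) := by
  simp only [gm_apply, sum_inner, inner_sum, real_inner_smul_left, real_inner_smul_right, c.skew,
    mul_neg, Finset.sum_neg_distrib]

theorem gm_rel (f : Fin n → Fin n → ℝ) (i j : Fin n) : gm c f i * gm c f j + gm c f j * gm c f i =
    (-2 * ∑ a, f a i * f a j) • (1 : En V) := by
  have h1 : gm c f i * gm c f j + gm c f j * gm c f i =
      ∑ a, ∑ b, (f a i * f b j) • (c.e a * c.e b + c.e b * c.e a) := by
    simp only [gm, Finset.sum_mul, Finset.mul_sum, smul_mul_assoc, mul_smul_comm, smul_smul,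
      smul_add, Finset.sum_add_distrib, Finset.smul_sum]
    congr 1
    rw [Finset.sum_comm]
    exact Finset.sum_congr rfl fun a _ => Finset.sum_congr rfl fun b _ => by rw [mul_comm]
  rw [h1, Finset.mul_sum, Finset.sum_smul]
  refine Finset.sum_congr rfl fun a _ => ?_
  rw [Finset.sum_eq_single a (fun b _ h => by rw [e_rel, if_neg h.symm]; simp) (by simp), e_rel,
    if_pos rfl, smul_smul, mul_comm]

variable {c} {L : En V}

theorem gm_L (hL : ∀ i u, L (c.e i u) = c.e i (L u)) (f : Fin n → Fin n → ℝ) (i : Fin n)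
    (u : V) : L (gm c f i u) = gm c f i (L u) := by
  simp only [gm_apply, map_sum, map_smul, hL]

theorem rho_L (hL : ∀ i u, L (c.e i u) = c.e i (L u)) (A : Fin n → Fin n → ℝ) (u : V) :
    L (rho c A u) = rho c A (L u) := by
  simp only [rho, smul_apply, sum_apply,
    mul_apply_eq_comp, map_sum, map_smul, hL]

end Cliff

/-! ### the spin structure -/

section Spin

variable {g : Field n} {R : ℝ} (c : Cm n V) (S : Cn g R) {u w : E n → V} {x : E n}

theorem ga_rel (i j : Fin n) (x : E n) : ga c S i x * ga c S j x + ga c S j x * ga c S i x =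
    (-2 * up g i j x) • (1 : En V) := by
  rw [ga, ga, gm_rel, S.fr.up]

theorem ga_skew (i : Fin n) (x : E n) (u v : V) :
    inner ℝ (ga c S i x u) v = -inner ℝ u (ga c S i x v) := gm_skew c _ i u v

theorem om_skew (i : Fin n) (x : E n) (u v : V) :
    inner ℝ (om c S i x u) v = -inner ℝ u (om c S i x v) :=
  rho_skew c (fun a b => S.anti i a b x) u v

theorem sm_ga (i : Fin n) : ContDiff ℝ ∞ (ga c S i) := by
  unfold ga gm
  exact ContDiff.sum fun a _ => ContDiff.fun_smul (S.fr.sm a i) contDiff_const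

theorem sm_om (i : Fin n) : ContDiff ℝ ∞ (om c S i) :=
  ContDiff.const_smul _ (ContDiff.sum fun a _ => ContDiff.sum fun b _ =>
    ContDiff.smul (S.sm i a b) contDiff_const)

theorem pv_om (i j : Fin n) (x : E n) :
    pv i (om c S j) x = rho c fun a b => pd i (S.A j a b) x := by
  have h1 : ∀ a b, ContDiff ℝ ∞ fun y => S.A j a b y • (c.e a * c.e b) :=
    fun a b => ContDiff.smul (S.sm j a b) contDiff_const
  unfold om rho
  rw [pv_const_smul _ (sm_diff (ContDiff.sum fun a _ => ContDiff.sum fun b _ => h1 a b) x),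
    pv_sum _ fun a _ => sm_diff (ContDiff.sum fun b _ => h1 a b) x]
  congr 1
  refine Finset.sum_congr rfl fun a _ => ?_
  rw [pv_sum _ fun b _ => sm_diff (h1 a b) x]
  exact Finset.sum_congr rfl fun b _ => pv_smul_const ((S.sm j a b).diff x) _ i

/-- the Clifford multiplication is parallel -/
theorem cmp (i j : Fin n) (x : E n) : pv i (ga c S j) x =
    -(om c S i x * ga c S j x - ga c S j x * om c S i x) - ∑ k, chr g j i k x • ga c S k x := by
  have h1 : pv i (ga c S j) x = ∑ a, pd i (S.f a j) x • c.e a := by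
    unfold ga gm
    rw [pv_sum _ fun a _ => sm_diff (ContDiff.fun_smul (S.fr.sm a j) contDiff_const) x]
    exact Finset.sum_congr rfl fun a _ => pv_smul_const ((S.fr.sm a j).diff x) _ i
  have h2 : om c S i x * ga c S j x - ga c S j x * om c S i x =
      -∑ a, (∑ b, S.A i a b x * S.f b j x) • c.e a := by
    have h3 : om c S i x * ga c S j x - ga c S j x * om c S i x =
        ∑ b, S.f b j x • (om c S i x * c.e b - c.e b * om c S i x) := by
      simp only [ga, gm, Finset.sum_mul, Finset.mul_sum, smul_mul_assoc, mul_smul_comm, smul_sub,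
        Finset.sum_sub_distrib]
    rw [h3]
    simp only [om, rho_comm c fun a b => S.anti i a b x, smul_neg, Finset.sum_neg_distrib,
      Finset.smul_sum, Finset.sum_smul, smul_smul]
    rw [Finset.sum_comm]
    exact congrArg _ (Finset.sum_congr rfl fun a _ => Finset.sum_congr rfl fun b _ => by
      rw [mul_comm])
  have h4 : ∑ k, chr g j i k x • ga c S k x = ∑ a, (∑ k, chr g j i k x * S.f a k x) • c.e a := by
    simp only [ga, gm, Finset.smul_sum, Finset.sum_smul, smul_smul]
    exact Finset.sum_comm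
  rw [h1, h2, h4, neg_neg, ← Finset.sum_sub_distrib]
  refine Finset.sum_congr rfl fun a _ => ?_
  rw [← sub_smul, ← S.con, add_sub_cancel_right]

/-- the generators in terms of the coordinate multiplications -/
theorem e_eq (k : Fin n) (x : E n) :
    c.e k = ∑ l, (∑ p, g x l p * S.f k p x) • ga c S l x := by
  simp only [ga, gm, Finset.smul_sum, smul_smul]
  rw [Finset.sum_comm]
  simp only [← Finset.sum_smul]
  have h : ∀ a, ∑ l, (∑ p, g x l p * S.f k p x) * S.f a l x = if a = k then 1 else 0 := fun a => by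
    rw [← S.fr.on a k x]
    refine Finset.sum_congr rfl fun l _ => ?_
    rw [Finset.sum_mul]
    exact Finset.sum_congr rfl fun p _ => by ring
  simp [h]

theorem ga_out (hx : R ≤ ‖x‖) (i : Fin n) : ga c S i x = c.e i := by
  simp [ga, gm, S.fr.flat _ _ x hx]

theorem om_out (hx : R < ‖x‖) (i : Fin n) : om c S i x = 0 := by
  simp [om, rho, S.out _ _ _ x hx]

theorem nb_out (hx : R < ‖x‖) (i : Fin n) (u : E n → V) : nb c S i u x = pv i u x := by
  simp [nb, om_out c S hx]

theorem di_out (hx : R < ‖x‖) (u : E n → V) : di c S u x = ∑ i, c.e i (pv i u x) := by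
  simp only [di, nb_out c S hx, ga_out c S hx.le]

theorem sm_nb (hu : ContDiff ℝ ∞ u) (i : Fin n) : ContDiff ℝ ∞ (nb c S i u) :=
  (sm_pv hu i).add ((sm_om c S i).clm_apply hu)

theorem sm_di (hu : ContDiff ℝ ∞ u) : ContDiff ℝ ∞ (di c S u) :=
  ContDiff.sum fun i _ => (sm_ga c S i).clm_apply (sm_nb c S hu i)

theorem sm_dq {B : E n → En V} (hB : ContDiff ℝ ∞ B) (hu : ContDiff ℝ ∞ u) :
    ContDiff ℝ ∞ (dq c S B u) := (sm_di c S hu).add (hB.clm_apply hu)

theorem sm_kv (hg : Met g) (hu : ContDiff ℝ ∞ u) (i : Fin n) : ContDiff ℝ ∞ (kv c S u i) :=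
  (ContDiff.sum fun j _ => ContDiff.smul (hg.sm_up i j) (sm_nb c S hu j)).add
    ((sm_ga c S i).clm_apply (sm_di c S hu))

theorem sm_cur (hg : Met g) {G : E n → ℝ} (hG : Smooth G) (hu : ContDiff ℝ ∞ u) (i : Fin n) :
    Smooth (cur c S G u i) :=
  (ContDiff.mul hG (hu.inner ℝ (sm_kv c S hg hu i))).add
    (contDiff_const.mul (ContDiff.mul (hg.sm_gr hG i) (hu.norm_sq ℝ)))

theorem sm_crs (hg : Met g) {T : Field n} (hT : ∀ i j, Smooth fun x => T x i j)
    (hu : ContDiff ℝ ∞ u) (hw : ContDiff ℝ ∞ w) (i : Fin n) : Smooth (crs c S T u w i) :=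
  ContDiff.sum fun k _ => ContDiff.sum fun j _ => ContDiff.mul
    (ContDiff.mul (hg.sm_up i k) (hT k j)) (hu.inner ℝ ((sm_ga c S j).clm_apply hw))

theorem nb_add (hu : DifferentiableAt ℝ u x) (hw : DifferentiableAt ℝ w x) (i : Fin n) :
    nb c S i (fun y => u y + w y) x = nb c S i u x + nb c S i w x := by
  simp only [nb, pv_add hu hw, map_add]
  abel

theorem nb_sub (hu : DifferentiableAt ℝ u x) (hw : DifferentiableAt ℝ w x) (i : Fin n) :
    nb c S i (fun y => u y - w y) x = nb c S i u x - nb c S i w x := by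
  simp only [nb, pv_sub hu hw, map_sub]
  abel

theorem nb_sum {ι : Type*} (s : Finset ι) {F : ι → E n → V}
    (hF : ∀ k ∈ s, DifferentiableAt ℝ (F k) x) (i : Fin n) :
    nb c S i (fun y => ∑ k ∈ s, F k y) x = ∑ k ∈ s, nb c S i (F k) x := by
  simp only [nb, pv_sum s hF, map_sum, Finset.sum_add_distrib]

theorem nb_smul {f : E n → ℝ} (hf : DifferentiableAt ℝ f x) (hu : DifferentiableAt ℝ u x)
    (i : Fin n) : nb c S i (fun y => f y • u y) x = pd i f x • u x + f x • nb c S i u x := by
  simp only [nb, pv_smul hf hu, map_smul, smul_add, add_assoc]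

theorem dq_add (B : E n → En V) (hu : DifferentiableAt ℝ u x) (hw : DifferentiableAt ℝ w x) :
    dq c S B (fun y => u y + w y) x = dq c S B u x + dq c S B w x := by
  simp only [dq, di, nb_add c S hu hw, map_add, Finset.sum_add_distrib]
  abel

theorem dq_smul (B : E n → En V) {f : E n → ℝ} (hf : DifferentiableAt ℝ f x)
    (hu : DifferentiableAt ℝ u x) : dq c S B (fun y => f y • u y) x =
      f x • dq c S B u x + ∑ i, pd i f x • ga c S i x (u x) := by
  simp only [dq, di, nb_smul c S hf hu, map_add, map_smul, Finset.sum_add_distrib, smul_add,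
    Finset.smul_sum]
  abel

theorem dq_const_smul (B : E n → En V) (a : ℝ) (hu : DifferentiableAt ℝ u x) :
    dq c S B (fun y => a • u y) x = a • dq c S B u x := by
  rw [dq_smul c S B (differentiableAt_const a) hu]
  simp [pd_const]

theorem dq_congr (B : E n → En V) (e : u =ᶠ[𝓝 x] w) : dq c S B u x = dq c S B w x := by
  simp only [dq, di, nb, pv_congr e, e.eq_of_nhds]

variable {c} {L : En V}

theorem nb_L (hL : ∀ i u, L (c.e i u) = c.e i (L u)) (hu : DifferentiableAt ℝ u x) (i : Fin n) :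
    nb c S i (fun y => L (u y)) x = L (nb c S i u x) := by
  rw [nb, nb, pv_clm L hu, map_add, om, rho_L hL]

/-- the Dirac operator commutes with the endomorphisms of the module -/
theorem di_p (hL : ∀ i u, L (c.e i u) = c.e i (L u)) (hu : DifferentiableAt ℝ u x) :
    di c S (fun y => L (u y)) x = L (di c S u x) := by
  simp only [di, map_sum, nb_L S hL hu, ga, gm_L hL]

end Spin

/-! ### the data -/

section Data

variable {g T : Field n} {v v' : E n → ℝ} {R : ℝ}

theorem Dat.v_pos (h : Dat g T v v' R) (x : E n) : 0 < v x :=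
  let ⟨_, hk, _, h1⟩ := h.bd
  hk.trans_le (h1 x).1

theorem Dat.v'_pos (h : Dat g T v v' R) (x : E n) : 0 < v' x :=
  let ⟨_, hk, _, h1⟩ := h.bd
  hk.trans_le (h1 x).2.2.1

theorem sm_tr (hg : Met g) (hT : ∀ i j, Smooth fun x => T x i j) : Smooth (tr g T) :=
  ContDiff.sum fun i _ => ContDiff.sum fun j _ => ContDiff.mul (hg.sm_up i j) (hT i j)

theorem sm_al (hn : 3 ≤ n) (hg : Met g) (hT : ∀ i j, Smooth fun x => T x i j) (hv : Smooth v)
    (h0 : ∀ x, 0 < v x) : Smooth (al g T v) :=
  ContDiff.div (sm_tr hg hT) (contDiff_const.mul (hv.rpow h0 _)) fun x =>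
    mul_ne_zero (by linarith [nm2_pos hn]) (Real.rpow_pos_of_pos (h0 x) _).ne'

theorem al_out (v : E n → ℝ) {x : E n} (hx : T x = 0) : al g T v x = 0 := by
  simp [al, tr, hx]

theorem Dat.sm_jj (h : Dat g T v v' R) (c : Cm n V) (S : Cn g R) {u w : E n → V}
    (hu : ContDiff ℝ ∞ u) (hw : ContDiff ℝ ∞ w) (i : Fin n) : Smooth (jj c S T v v' u w i) :=
  ((sm_cur c S h.met (h.smv.rpow h.v_pos _) hu i).add
    (sm_cur c S h.met (h.smv'.rpow h.v'_pos _) hw i)).sub
    (contDiff_const.mul (sm_crs c S h.met h.smT hu hw i))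

theorem Dat.pot (h : Dat g T v v' R) (c : Cl2 n V) :
    Pot2 R (bo c.p c.q g T v v') (bo c.q c.p g T v v') := by
  have h1 := sm_al h.dim h.met h.smT h.smv h.v_pos
  have h2 := sm_al h.dim h.met h.smT h.smv' h.v'_pos
  refine ⟨(ContDiff.smul h1.neg contDiff_const).add (ContDiff.smul h2 contDiff_const),
    (ContDiff.smul h1.neg contDiff_const).add (ContDiff.smul h2 contDiff_const),
    fun x u w => ?_, fun x hx => ?_⟩
  · have h3 := c.adj w u
    rw [real_inner_comm, real_inner_comm (c.q u)] at h3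
    simp only [bo, add_apply, smul_apply, inner_add_left,
      inner_add_right, real_inner_smul_left, real_inner_smul_right, c.adj, h3]
  · simp [bo, al_out _ (h.out x hx.le)]

theorem Cl2.qq (c : Cl2 n V) (u : V) : c.q (c.q u) = 0 := by
  have h : inner ℝ (c.q (c.q u)) (c.q (c.q u)) = (0 : ℝ) := by
    rw [← c.adj, ← c.adj, c.pp, inner_zero_left]
  exact inner_self_eq_zero.1 h

theorem Cl2.pqp (c : Cl2 n V) (u : V) : c.p (c.q (c.p u)) = c.p u := by
  have h := c.pq (c.p u)
  rwa [c.pp, map_zero, add_zero] at h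

theorem Cl2.norm_split (c : Cl2 n V) (u : V) :
    ‖c.p (c.q u)‖ ^ 2 + ‖c.p u‖ ^ 2 = ‖u‖ ^ 2 := by
  have h1 : c.q (c.p (c.q u)) = c.q u := by
    have h := c.pq (c.q u)
    rwa [c.qq, map_zero, zero_add] at h
  rw [← real_inner_self_eq_norm_sq, ← real_inner_self_eq_norm_sq, ← real_inner_self_eq_norm_sq,
    c.adj (c.q u), h1, ← c.adj, c.adj u, real_inner_comm (c.q (c.p u)), ← inner_add_left, c.pq]

theorem Cl2.pqe (c : Cl2 n V) (i : Fin n) (u : V) :
    (c.p * c.q) (c.e i u) = c.e i ((c.p * c.q) u) := by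
  simp only [mul_apply_eq_comp, c.qe, c.pe]

end Data

end Vale.Agent.P366Z.Sp
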