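import Vale.Agent.P366Z.Sp.Api

/-!
# P366Z: the algebra of one sheet
-/

open Vale.Agent.P366.Stmt

noncomputable section

namespace Vale.Agent.P366Z.Sp.ShB

variable {n : ℕ} {V : Type} [NormedAddCommGroup V] [InnerProductSpace ℝ V] (c : Cm n V)

theorem norm_sum_e (W : Fin n → ℝ) (y : V) :
    ‖∑ b, W b • c.e b y‖ ^ 2 = (∑ b, W b ^ 2) * ‖y‖ ^ 2 := by
  rw [← real_inner_self_eq_norm_sq, sum_inner, Finset.sum_mul]
  refine Finset.sum_congr rfl fun a _ => ?_
  simp only [inner_sum, real_inner_smul_left, real_inner_smul_right, e_inner]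
  rw [Finset.sum_eq_single a (fun b _ h => by simp [h.symm]) (by simp), if_pos rfl]
  ring

theorem cs_e (W : Fin n → V) : ‖∑ a, c.e a (W a)‖ ^ 2 ≤ n * ∑ a, ‖W a‖ ^ 2 := by
  have h1 : ‖∑ a, c.e a (W a)‖ ≤ ∑ a, ‖W a‖ :=
    (norm_sum_le _ _).trans (le_of_eq (Finset.sum_congr rfl fun a _ => e_norm c a _))
  have h2 := Finset.sum_mul_sq_le_sq_mul_sq Finset.univ (fun _ => (1 : ℝ)) fun a => ‖W a‖
  simp only [one_mul, one_pow, Finset.sum_const, Finset.card_univ, Fintype.card_fin, nsmul_eq_mul,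
    mul_one] at h2
  exact (pow_le_pow_left₀ (norm_nonneg _) h1 2).trans h2

theorem sym_ee {P : Fin n → Fin n → ℝ} (hP : ∀ a b, P a b = P b a) (y : V) :
    ∑ a, c.e a (∑ b, P a b • c.e b y) = -(∑ a, P a a) • y := by
  have h1 : ∑ a, ∑ b, P a b • c.e a (c.e b y) = ∑ a, ∑ b, P a b • c.e b (c.e a y) := by
    rw [Finset.sum_comm]
    exact Finset.sum_congr rfl fun a _ => Finset.sum_congr rfl fun b _ => by rw [hP]
  have h2 : ∑ a, ∑ b, P a b • c.e a (c.e b y) + ∑ a, ∑ b, P a b • c.e b (c.e a y) =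
      (2 : ℝ) • (-(∑ a, P a a) • y) := by
    simp only [← Finset.sum_add_distrib, ← smul_add, c.rel]
    rw [← Finset.sum_neg_distrib, Finset.sum_smul, Finset.smul_sum]
    refine Finset.sum_congr rfl fun a _ => ?_
    rw [Finset.sum_eq_single a (fun b _ h => by simp [h.symm]) (by simp), if_pos rfl]
    module
  rw [← h1, ← two_smul ℝ] at h2
  simp only [map_sum, map_smul]
  exact smul_right_injective _ two_ne_zero h2

theorem norm3 (a b d : V) : ‖a + b + d‖ ^ 2 = ‖a‖ ^ 2 + ‖b‖ ^ 2 + ‖d‖ ^ 2 + 2 * inner ℝ a b +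
    2 * inner ℝ a d + 2 * inner ℝ b d := by
  rw [norm_add_sq_real, norm_add_sq_real, inner_add_left]
  ring

theorem sh_frame (hn : 2 ≤ n) (X : Fin n → V) (x y : V) {G : ℝ} (hG : 0 < G) (d : Fin n → ℝ)
    {P : Fin n → Fin n → ℝ} (hP : ∀ a b, P a b = P b a) :
    -((n : ℝ) * (n - 1) / (4 * G) * (∑ a, d a ^ 2) * ‖x‖ ^ 2) +
      ((∑ a, P a a) ^ 2 / ((n : ℝ) - 1) - ∑ a, ∑ b, P a b ^ 2) / G * ‖y‖ ^ 2 +
      (n * ∑ a, d a * inner ℝ x (∑ b, P a b • c.e b y) -
        (∑ a, P a a) * inner ℝ x (∑ a, d a • c.e a y)) / G ≤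
    G * (∑ a, ‖X a‖ ^ 2 - ‖∑ a, c.e a (X a)‖ ^ 2) + (∑ a, d a * inner ℝ x (X a) +
      inner ℝ x (∑ a, d a • c.e a (∑ a, c.e a (X a)))) +
      ((n : ℝ) - 1) * ∑ a, d a * inner ℝ x (X a) -
      2 * ∑ a, inner ℝ (X a) (∑ b, P a b • c.e b y) +
      G * ‖∑ a, c.e a (X a) - ((∑ a, P a a) / (((n : ℝ) - 1) * G)) • y‖ ^ 2 := by
  have h0 : (2 : ℝ) ≤ n := by exact_mod_cast hn
  have h1 := cs_e c fun a => (2 * G) • X a + ((n : ℝ) * d a) • x + (-2 : ℝ) • ∑ b, P a b • c.e b y
  have h2 : ∑ a, c.e a ((2 * G) • X a + ((n : ℝ) * d a) • x + (-2 : ℝ) • ∑ b, P a b • c.e b y) =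
      (2 * G) • ∑ a, c.e a (X a) + (n : ℝ) • ∑ a, d a • c.e a x + (2 * ∑ a, P a a) • y := by
    simp only [map_add, map_smul, Finset.sum_add_distrib, mul_smul, ← Finset.smul_sum]
    rw [sym_ee c hP]
    module
  have h3 : ∀ z, inner ℝ (∑ a, d a • c.e a x) z = -inner ℝ x (∑ a, d a • c.e a z) := fun z => by
    simp only [sum_inner, inner_sum, real_inner_smul_left, real_inner_smul_right, c.skew, mul_neg,
      Finset.sum_neg_distrib]
  have h4 : ∑ a, ‖(2 * G) • X a + ((n : ℝ) * d a) • x + (-2 : ℝ) • ∑ b, P a b • c.e b y‖ ^ 2 =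
      4 * G ^ 2 * ∑ a, ‖X a‖ ^ 2 + n ^ 2 * ‖x‖ ^ 2 * ∑ a, d a ^ 2 +
        4 * ‖y‖ ^ 2 * ∑ a, ∑ b, P a b ^ 2 + 4 * G * n * ∑ a, d a * inner ℝ x (X a) -
        8 * G * ∑ a, inner ℝ (X a) (∑ b, P a b • c.e b y) -
        4 * n * ∑ a, d a * inner ℝ x (∑ b, P a b • c.e b y) := by
    simp only [Finset.mul_sum _ _ (4 * G ^ 2), Finset.mul_sum _ _ ((n : ℝ) ^ 2 * ‖x‖ ^ 2),
      Finset.mul_sum _ (fun a => ∑ b, P a b ^ 2), Finset.mul_sum _ _ (4 * G * n),
      Finset.mul_sum _ _ (8 * G), Finset.mul_sum _ _ (4 * (n : ℝ)), ← Finset.sum_add_distrib,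
      ← Finset.sum_sub_distrib]
    refine Finset.sum_congr rfl fun a _ => ?_
    rw [norm3]
    simp only [norm_smul, mul_pow, Real.norm_eq_abs, sq_abs, norm_sum_e, real_inner_smul_left,
      real_inner_smul_right, real_inner_comm x (X a)]
    ring
  rw [h2, h4, norm3] at h1
  simp only [norm_smul, mul_pow, Real.norm_eq_abs, sq_abs, norm_sum_e, real_inner_smul_left,
    real_inner_smul_right] at h1
  simp only [h3, real_inner_comm (∑ a, d a • c.e a x)] at h1
  have h5 := sq_nonneg ‖∑ a, c.e a (X a) - ((∑ a, P a a) / (((n : ℝ) - 1) * G)) • y‖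
  rw [norm_sub_sq_real, real_inner_smul_right, norm_smul, mul_pow, Real.norm_eq_abs, sq_abs]
    at h5 ⊢
  generalize ∑ a, ‖X a‖ ^ 2 = A at *
  generalize ‖∑ a, c.e a (X a)‖ ^ 2 = D at *
  generalize ∑ a, d a * inner ℝ x (X a) = p at *
  generalize inner ℝ x (∑ a, d a • c.e a (∑ a, c.e a (X a))) = q at *
  generalize ∑ a, inner ℝ (X a) (∑ b, P a b • c.e b y) = s at *
  generalize inner ℝ (∑ a, c.e a (X a)) y = r at *
  generalize ∑ a, d a * inner ℝ x (∑ b, P a b • c.e b y) = o at *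
  generalize inner ℝ x (∑ a, d a • c.e a y) = o' at *
  generalize ∑ a, ∑ b, P a b ^ 2 = PP at *
  generalize ∑ a, P a a = t at *
  generalize ∑ a, d a ^ 2 = dd at *
  generalize ‖x‖ ^ 2 = xx at *
  generalize ‖y‖ ^ 2 = yy at *
  have h6 : (n : ℝ) - 1 ≠ 0 := by linarith
  have h7 : (n : ℝ) ≠ 0 := by linarith
  have h8 := add_nonneg (div_nonneg (sub_nonneg.2 h1) (show 0 ≤ 4 * G * n by positivity))
    (mul_nonneg (show 0 ≤ G / n by positivity) h5)
  rw [← sub_nonneg]
  refine h8.trans (le_of_eq ?_)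
  field_simp
  ring

theorem sh1 : SH1 := by
  intro n V _ _ c f h gl T X x y G t d hn hf hg hT hG ht
  have key := sh_frame c hn (fun a => ∑ i, f a i • X i) x y hG (fun a => ∑ i, f a i * d i)
    (P := fun a b => ∑ i, ∑ j, f a i * f b j * T i j) fun a b => by
      rw [Finset.sum_comm]
      exact Finset.sum_congr rfl fun i _ => Finset.sum_congr rfl fun j _ => by rw [hT j i]; ring
  have s3 : ∀ {M : Type} [AddCommMonoid M] (F : Fin n → Fin n → Fin n → M),
      ∑ a, ∑ i, ∑ j, F a i j = ∑ i, ∑ j, ∑ a, F a i j := fun F =>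
    Finset.sum_comm.trans (Finset.sum_congr rfl fun _ _ => Finset.sum_comm)
  have bil : ∀ F : Fin n → Fin n → ℝ, ∑ a, ∑ i, ∑ j, f a i * f a j * F i j =
      ∑ i, ∑ j, h i j * F i j := fun F => by
    rw [s3]
    simp only [← Finset.sum_mul, hf]
  have e0 : ∀ (W : Fin n → ℝ) (z : V),
      ∑ a, (∑ i, f a i * W i) • c.e a z = ∑ i, W i • gm c f i z := fun W z => by
    simp only [gm_apply, Finset.sum_smul, Finset.smul_sum, smul_smul, mul_comm (W _)]
    exact Finset.sum_comm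
  have e1 : ∑ a, c.e a (∑ i, f a i • X i) = ∑ i, gm c f i (X i) := by
    simp only [gm_apply, map_sum, map_smul]
    exact Finset.sum_comm
  have e2 : ∑ a, ∑ i, ∑ j, f a i * f a j * T i j = t := by rw [bil, ht]
  have e3 : ∑ a, (∑ i, f a i * d i) ^ 2 = ∑ i, ∑ j, h i j * d i * d j := by
    simp only [mul_assoc]
    rw [← bil]
    refine Finset.sum_congr rfl fun a _ => ?_
    rw [sq, Finset.sum_mul_sum]
    exact Finset.sum_congr rfl fun i _ => Finset.sum_congr rfl fun j _ => by ring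
  have e4 : ∑ a, ‖∑ i, f a i • X i‖ ^ 2 = ∑ i, ∑ j, h i j * inner ℝ (X i) (X j) := by
    rw [← bil]
    refine Finset.sum_congr rfl fun a _ => ?_
    simp only [← real_inner_self_eq_norm_sq, sum_inner, inner_sum, real_inner_smul_left,
      real_inner_smul_right]
    rw [Finset.sum_comm]
    exact Finset.sum_congr rfl fun i _ => Finset.sum_congr rfl fun j _ => by ring
  have e5 : ∀ Y : Fin n → ℝ, ∑ a, (∑ i, f a i * d i) * ∑ j, f a j * Y j =
      ∑ i, ∑ j, h i j * (d i * Y j) := fun Y => by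
    rw [← bil]
    refine Finset.sum_congr rfl fun a _ => ?_
    rw [Finset.sum_mul_sum]
    exact Finset.sum_congr rfl fun i _ => Finset.sum_congr rfl fun j _ => by ring
  have hs : ∀ i j, h i j = h j i := fun i j => by
    rw [← hf, ← hf]
    exact Finset.sum_congr rfl fun a _ => mul_comm _ _
  have e6 : ∀ a, ∑ b, (∑ i, ∑ j, f a i * f b j * T i j) • c.e b y =
      ∑ i, f a i • ∑ j, T i j • gm c f j y := fun a => by
    simp only [← e0, Finset.smul_sum, Finset.sum_smul, smul_smul]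
    rw [Finset.sum_comm]
    exact Finset.sum_congr rfl fun i _ => Finset.sum_congr rfl fun b _ =>
      Finset.sum_congr rfl fun j _ => by rw [mul_assoc]
  have e7 : ∑ a, ∑ b, (∑ i, ∑ j, f a i * f b j * T i j) ^ 2 =
      ∑ i, ∑ j, ∑ k, ∑ l, h i k * h j l * T i j * T k l := by
    have a1 : ∀ a b, (∑ i, ∑ j, f a i * f b j * T i j) ^ 2 =
        ∑ j, ∑ l, f b j * f b l * ((∑ i, f a i * T i j) * ∑ k, f a k * T k l) := fun a b => by
      have a2 : ∑ i, ∑ j, f a i * f b j * T i j = ∑ j, f b j * ∑ i, f a i * T i j := by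
        rw [Finset.sum_comm]
        refine Finset.sum_congr rfl fun j _ => ?_
        rw [Finset.mul_sum]
        exact Finset.sum_congr rfl fun i _ => by ring
      rw [a2, sq, Finset.sum_mul_sum]
      exact Finset.sum_congr rfl fun j _ => Finset.sum_congr rfl fun l _ => by ring
    have a3 : ∀ j l, ∑ a, (∑ i, f a i * T i j) * ∑ k, f a k * T k l =
        ∑ i, ∑ k, h i k * (T i j * T k l) := fun j l => by
      rw [← bil]
      refine Finset.sum_congr rfl fun a _ => ?_
      rw [Finset.sum_mul_sum]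
      exact Finset.sum_congr rfl fun i _ => Finset.sum_congr rfl fun j _ => by ring
    simp only [a1, bil]
    rw [s3]
    simp only [← Finset.mul_sum, a3]
    simp only [Finset.mul_sum]
    refine (Finset.sum_congr rfl fun j _ => s3 _).trans ?_
    rw [Finset.sum_comm]
    exact Finset.sum_congr rfl fun i _ => Finset.sum_congr rfl fun j _ =>
      Finset.sum_congr rfl fun k _ => Finset.sum_congr rfl fun l _ => by ring
  have e8 : ∑ a, inner ℝ (∑ i, f a i • X i) (∑ i, f a i • ∑ j, T i j • gm c f j y) =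
      ∑ i, ∑ k, ∑ j, h i k * T k j * inner ℝ (X i) (gm c f j y) := by
    have a1 : ∀ i k, ∑ j, h i k * T k j * inner ℝ (X i) (gm c f j y) =
        h i k * inner ℝ (X i) (∑ j, T k j • gm c f j y) := fun i k => by
      simp only [inner_sum, real_inner_smul_right, Finset.mul_sum, mul_assoc]
    simp only [a1]
    rw [← bil]
    refine Finset.sum_congr rfl fun a _ => ?_
    rw [sum_inner]
    refine Finset.sum_congr rfl fun i _ => ?_
    rw [inner_sum]
    refine Finset.sum_congr rfl fun k _ => ?_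
    rw [real_inner_smul_left, real_inner_smul_right, mul_assoc]
  have e9 : ∀ (a : Fin n) (Y : Fin n → V),
      inner ℝ x (∑ i, f a i • Y i) = ∑ j, f a j * inner ℝ x (Y j) := fun a Y => by
    simp only [inner_sum, real_inner_smul_right]
  have f1 : ∀ F : Fin n → ℝ, ∑ j, (∑ k, gl j k * ∑ l, h k l * d l) * F j = ∑ j, d j * F j :=
    fun F => Finset.sum_congr rfl fun j _ => by
      congr 1
      simp only [Finset.mul_sum, ← mul_assoc]
      rw [Finset.sum_comm]
      simp only [← Finset.sum_mul, hg]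
      simp
  have f2 : ∑ j, (∑ k, ((n : ℝ) * T j k - t * gl j k) * ((∑ l, h k l * d l) / G)) *
      inner ℝ x (gm c f j y) = (n * ∑ i, ∑ j, h i j * (d i * inner ℝ x (∑ k, T j k • gm c f k y)) -
        t * inner ℝ x (∑ i, d i • gm c f i y)) / G := by
    have a1 : ∀ j, (∑ k, ((n : ℝ) * T j k - t * gl j k) * ((∑ l, h k l * d l) / G)) *
        inner ℝ x (gm c f j y) = (n * ((∑ k, T j k * ∑ l, h k l * d l) * inner ℝ x (gm c f j y)) -
          t * ((∑ k, gl j k * ∑ l, h k l * d l) * inner ℝ x (gm c f j y))) / G := fun j => by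
      generalize inner ℝ x (gm c f j y) = z
      rw [Finset.sum_mul, Finset.sum_mul, Finset.sum_mul, Finset.mul_sum, Finset.mul_sum,
        ← Finset.sum_sub_distrib, Finset.sum_div]
      exact Finset.sum_congr rfl fun k _ => by ring
    simp only [a1]
    rw [← Finset.sum_div, Finset.sum_sub_distrib, ← Finset.mul_sum, ← Finset.mul_sum, f1]
    congr 3
    · simp only [inner_sum, real_inner_smul_right, Finset.mul_sum, Finset.sum_mul]
      rw [s3, Finset.sum_comm]
      exact Finset.sum_congr rfl fun i _ => Finset.sum_congr rfl fun j _ =>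
        Finset.sum_congr rfl fun k _ => by rw [hs i j, hT j k]; ring
    · simp only [inner_sum, real_inner_smul_right]
  have f3 : ∑ i, d i * inner ℝ x (∑ j, h i j • X j + gm c f i (∑ j, gm c f j (X j))) =
      ∑ i, ∑ j, h i j * (d i * inner ℝ x (X j)) +
        inner ℝ x (∑ i, d i • gm c f i (∑ j, gm c f j (X j))) := by
    generalize ∑ j, gm c f j (X j) = D
    simp only [inner_add_right, inner_sum, real_inner_smul_right, mul_add, Finset.sum_add_distrib,
      Finset.mul_sum]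
    congr 1
    exact Finset.sum_congr rfl fun i _ => Finset.sum_congr rfl fun j _ => by ring
  have f4 : ∑ i, (∑ j, h i j * d j) * inner ℝ x (X i) =
      ∑ i, ∑ j, h i j * (d i * inner ℝ x (X j)) := by
    rw [Finset.sum_comm]
    refine Finset.sum_congr rfl fun i _ => ?_
    rw [Finset.sum_mul]
    exact Finset.sum_congr rfl fun j _ => by rw [hs i j]; ring
  simp only [e6] at key
  rw [e1, e2, e3, e4, e7, e8, e0, e0] at key
  simp only [e9] at key
  rw [e5, e5] at key
  rw [f2, f3, f4]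
  exact key

end Vale.Agent.P366Z.Sp.ShB
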