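import Vale.Agent.P366Z.Calc2

/-!
# P366Z: the block `SPINEX`, definitions and statements
-/

open MeasureTheory Metric Filter Topology Set
open scoped ContDiff ENNReal
open Vale.Agent.P366.Stmt

noncomputable section

namespace Vale.Agent.P366Z.Sp

variable {n : ℕ} {V : Type} [NormedAddCommGroup V] [InnerProductSpace ℝ V]

/-- endomorphisms of the module -/
abbrev En (V : Type) [NormedAddCommGroup V] [InnerProductSpace ℝ V] := V →L[ℝ] V

/-- the derivative of a vector valued function in a coordinate direction -/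
def pv {W : Type} [NormedAddCommGroup W] [NormedSpace ℝ W] (i : Fin n) (u : E n → W) (x : E n) :
    W := fderiv ℝ u x (EuclideanSpace.single i 1)

/-- a Clifford module -/
structure Cm (n : ℕ) (V : Type) [NormedAddCommGroup V] [InnerProductSpace ℝ V] where
  e : Fin n → En V
  skew : ∀ i u v, inner ℝ (e i u) v = -inner ℝ u (e i v)
  rel : ∀ i j u, e i (e j u) + e j (e i u) = if i = j then (-2 : ℝ) • u else 0

/-- the defect of `y` to be parallel for the conformally flat metric of `v` -/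
def Cm.df (c : Cm n V) (v : E n → ℝ) (y : E n → V) (i : Fin n) (x : E n) : V :=
  pv i y x - (((n : ℝ) - 2) * v x)⁻¹ •
    (((n : ℝ) * pd i v x) • y x + c.e i (∑ j, pd j v x • c.e j (y x)))

/-- a doubled Clifford module: `p (x, y) = (y, 0)`, `q (x, y) = (0, x)` -/
structure Cl2 (n : ℕ) (V : Type) [NormedAddCommGroup V] [InnerProductSpace ℝ V]
    extends Cm n V where
  p : En V
  q : En V
  adj : ∀ u v, inner ℝ (p u) v = inner ℝ u (q v)
  pp : ∀ u, p (p u) = 0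
  pq : ∀ u, p (q u) + q (p u) = u
  pe : ∀ i u, p (e i u) = e i (p u)
  qe : ∀ i u, q (e i u) = e i (q u)

/-- an orthonormal frame: `f a i` is the component `i` of the vector field number `a` -/
structure Fr (g : Field n) (R : ℝ) (f : Fin n → Fin n → E n → ℝ) : Prop where
  sm : ∀ a i, Smooth (f a i)
  up : ∀ i j x, ∑ a, f a i x * f a j x = up g i j x
  on : ∀ a b x, ∑ i, ∑ j, g x i j * f a i x * f b j x = if a = b then 1 else 0
  flat : ∀ a i x, R ≤ ‖x‖ → f a i x = if a = i then 1 else 0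

/-- a frame with its connection coefficients -/
structure Cn (g : Field n) (R : ℝ) where
  f : Fin n → Fin n → E n → ℝ
  A : Fin n → Fin n → Fin n → E n → ℝ
  fr : Fr g R f
  sm : ∀ i a b, Smooth (A i a b)
  anti : ∀ i a b x, A i a b x = -A i b a x
  out : ∀ i a b x, R < ‖x‖ → A i a b x = 0
  con : ∀ i a j x, pd i (f a j) x + ∑ k, chr g j i k x * f a k x = ∑ b, A i a b x * f b j x

/-- Clifford multiplication by the coordinate covector number `i` -/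
def gm (c : Cm n V) (f : Fin n → Fin n → ℝ) (i : Fin n) : En V := ∑ a, f a i • c.e a

/-- the spin representation -/
def rho (c : Cm n V) (A : Fin n → Fin n → ℝ) : En V :=
  (1 / 4 : ℝ) • ∑ a, ∑ b, A a b • (c.e a * c.e b)

section

variable {g : Field n} {R : ℝ} (c : Cm n V) (S : Cn g R)

/-- the Clifford multiplication -/
def ga (i : Fin n) (x : E n) : En V := gm c (fun a j => S.f a j x) i

/-- the spin connection -/
def om (i : Fin n) (x : E n) : En V := rho c fun a b => S.A i a b x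

/-- the covariant derivative -/
def nb (i : Fin n) (u : E n → V) (x : E n) : V := pv i u x + om c S i x (u x)

/-- the Dirac operator -/
def di (u : E n → V) (x : E n) : V := ∑ i, ga c S i x (nb c S i u x)

/-- the Dirac operator with a potential -/
def dq (B : E n → En V) (u : E n → V) (x : E n) : V := di c S u x + B x (u x)

/-- the operator of Witten -/
def kv (u : E n → V) (i : Fin n) (x : E n) : V :=
  ∑ j, up g i j x • nb c S j u x + ga c S i x (di c S u x)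

/-- the current of one sheet -/
def cur (G : E n → ℝ) (u : E n → V) (i : Fin n) (x : E n) : ℝ :=
  G x * inner ℝ (u x) (kv c S u i x) + ((n : ℝ) - 1) / 2 * (gr g G i x * ‖u x‖ ^ 2)

/-- the mixed current -/
def crs (T : Field n) (u w : E n → V) (i : Fin n) (x : E n) : ℝ :=
  ∑ k, ∑ j, up g i k x * T x k j * inner ℝ (u x) (ga c S j x (w x))

/-- the current -/
def jj (T : Field n) (v v' : E n → ℝ) (u w : E n → V) (i : Fin n) (x : E n) : ℝ :=
  cur c S (fun y => v y ^ (-bb n)) u i x + cur c S (fun y => v' y ^ (-bb n)) w i x -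
    2 * crs c S T u w i x

end

/-- the coupling -/
def al (g T : Field n) (v : E n → ℝ) (x : E n) : ℝ := tr g T x / (((n : ℝ) - 1) * v x ^ (-bb n))

/-- the potential; `bo c.p c.q` and `bo c.q c.p` are adjoint to each other -/
def bo (p q : En V) (g T : Field n) (v v' : E n → ℝ) (x : E n) : En V :=
  (-al g T v x) • p + al g T v' x • q

/-- the data of the identity -/
structure Dat (g T : Field n) (v v' : E n → ℝ) (R : ℝ) : Prop where
  dim : 3 ≤ n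
  met : Met g
  flat : Flat g R
  smT : ∀ i j, Smooth fun x => T x i j
  syT : ∀ x i j, T x i j = T x j i
  out : ∀ x, R ≤ ‖x‖ → T x = 0
  smv : Smooth v
  smv' : Smooth v'
  bd : ∃ k > (0 : ℝ), ∃ K, ∀ x, k ≤ v x ∧ v x ≤ K ∧ k ≤ v' x ∧ v' x ≤ K ∧
    ‖fderiv ℝ v x‖ ≤ K ∧ ‖fderiv ℝ v' x‖ ≤ K
  pos : ∀ x, 0 < cq g T v v' x ∧ 0 < cq g T v' v x ∧
    4 * covNorm g (wq g T v v') x ^ 2 ≤ cq g T v v' x * cq g T v' v x

/-- a pair of adjoint potentials with compact support -/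
structure Pot2 (R : ℝ) (B B' : E n → En V) : Prop where
  sm : ContDiff ℝ ∞ B
  sm' : ContDiff ℝ ∞ B'
  adj : ∀ x u v, inner ℝ (B x u) v = inner ℝ u (B' x v)
  out : ∀ x, R < ‖x‖ → B x = 0 ∧ B' x = 0

/-! ### the structure -/

/-- **CLX**: doubled Clifford modules exist -/
def CLX : Prop := ∀ n : ℕ, ∃ (N : ℕ) (c : Cl2 n (E N)) (y : E N), ‖y‖ = 1 ∧ c.p y = 0

/-- **FRM**: frames exist -/
def FRM : Prop := ∀ (n : ℕ) (g : Field n) (R : ℝ), Met g → Flat g R → ∃ f, Fr g R f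

/-- **CON**: the connection coefficients exist -/
def CON : Prop := ∀ (n : ℕ) (g : Field n) (R : ℝ), Met g → Flat g R → Nonempty (Cn g R)

/-- **ALGL**: the contraction of the curvature -/
def ALGL : Prop := ∀ (n : ℕ) (V : Type) [NormedAddCommGroup V] [InnerProductSpace ℝ V] (c : Cm n V)
  (F : Fin n → Fin n → En V)
  (Rm : Fin n → Fin n → Fin n → Fin n → ℝ), (∀ k d a b, Rm k d a b = -Rm k d b a) →
  (∀ k d a b, Rm k d a b + Rm k a b d + Rm k b d a = 0) →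
  (∀ a b k, F a b * c.e k - c.e k * F a b = -∑ d, Rm k d a b • c.e d) →
  (∀ a b, ∑ k, c.e k * (F a b * c.e k - c.e k * F a b) = (4 : ℝ) • F a b) →
  ∑ a, ∑ b, c.e a * c.e b * F a b = ((∑ a, ∑ b, Rm a b a b) / 2) • (1 : En V)

/-- a statement for all modules, metrics and frames -/
def ForC (P : ∀ (n : ℕ) (V : Type) [NormedAddCommGroup V] [InnerProductSpace ℝ V] (_ : Cm n V)
    (g : Field n) (R : ℝ) (_ : Cn g R), Prop) : Prop :=
  ∀ (n : ℕ) (V : Type) [NormedAddCommGroup V] [InnerProductSpace ℝ V] (c : Cm n V)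
  (g : Field n) (R : ℝ) (S : Cn g R), Met g → Flat g R → P n V c g R S

/-- **LICH**: the curvature term -/
def LICH : Prop := ForC fun _ V _ _ c g _ S => ∀ x,
  ∑ i, ∑ j, ga c S i x * ga c S j x * (pv i (om c S j) x - pv j (om c S i) x +
    (om c S i x * om c S j x - om c S j x * om c S i x)) = (scal g x / 2) • (1 : En V)

/-- **OMD**: derivatives of the pairings -/
def OMD : Prop := ForC fun n V _ _ c g _ S => ∀ (u w : E n → V) (x : E n), DifferentiableAt ℝ u x →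
  DifferentiableAt ℝ w x →
  (∀ k, pd k (fun y => inner ℝ (u y) (w y)) x =
    inner ℝ (nb c S k u x) (w x) + inner ℝ (u x) (nb c S k w x)) ∧
  (∀ k j, nb c S k (fun y => ga c S j y (w y)) x =
    ga c S j x (nb c S k w x) - ∑ l, chr g j k l x • ga c S l x (w x)) ∧
  (∀ k j, pd k (fun y => inner ℝ (u y) (ga c S j y (w y))) x =
    inner ℝ (nb c S k u x) (ga c S j x (w x)) + inner ℝ (u x) (ga c S j x (nb c S k w x)) -
      ∑ l, chr g j k l x * inner ℝ (u x) (ga c S l x (w x))) ∧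
  dv g (fun i y => inner ℝ (u y) (ga c S i y (w y))) x =
    inner ℝ (u x) (di c S w x) - inner ℝ (di c S u x) (w x)

/-- **WEI**: the square of the Dirac operator -/
def WEI : Prop := ForC fun n V _ _ c g _ S => ∀ (u : E n → V) (x : E n), ContDiff ℝ ∞ u →
  di c S (di c S u) x = -(∑ i, ∑ j, up g i j x • nb c S i (nb c S j u) x) +
    ∑ j, (∑ i, ∑ k, up g i k x * chr g j i k x) • nb c S j u x + (scal g x / 4) • u x

/-- **SL**: the identity of Schrödinger and Lichnerowicz -/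
def SL : Prop := ForC fun n V _ _ c g _ S => ∀ (u : E n → V) (x : E n), ContDiff ℝ ∞ u →
  dv g (fun i y => inner ℝ (u y) (kv c S u i y)) x =
    ∑ i, ∑ j, up g i j x * inner ℝ (nb c S i u x) (nb c S j u x) - ‖di c S u x‖ ^ 2 +
      scal g x / 4 * ‖u x‖ ^ 2

/-- the Laplacian of a vector valued function -/
def lv (g : Field n) (u : E n → V) (x : E n) : V :=
  ∑ i, ∑ j, up g i j x • pv i (pv j u) x + ∑ j, bv g j x • pv j u x

/-- **OPR**: the operator has the form of `LINV` -/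
def OPR : Prop := ForC fun n V _ _ c g R S => ∀ B B' : E n → En V, Pot2 R B B' →
  ∃ (A : Fin n → E n → En V) (C : E n → En V), (∀ i, ContDiff ℝ ∞ (A i)) ∧
    (∀ i x, R + 1 ≤ ‖x‖ → A i x = 0) ∧ ContDiff ℝ ∞ C ∧ (∃ K, BL K C) ∧
    ∀ (u : E n → V) (x : E n), ContDiff ℝ ∞ u →
      dq c S B (dq c S B' u) x = -lv g u x + (∑ i, A i x (pv i u x) + C x (u x))

/-- the resolvent -/
def Lin (n : ℕ) (V : Type) [NormedAddCommGroup V] [InnerProductSpace ℝ V] : Prop :=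
  ∀ (g : Field n) (ρ : ℝ) (A : Fin n → E n → En V) (C : E n → En V), Met g → Flat g ρ →
    (∀ i, ContDiff ℝ ∞ (A i)) → (∀ i x, ρ ≤ ‖x‖ → A i x = 0) → ContDiff ℝ ∞ C → (∃ K, BL K C) →
    ∃ l > (0 : ℝ), ∀ f : E n → V, ContDiff ℝ ∞ f → Dec f → Dec (fderiv ℝ f) → ∃ u : E n → V,
      ContDiff ℝ ∞ u ∧ Dec u ∧ Dec (fderiv ℝ u) ∧ (∃ K, ∀ x, ‖fderiv ℝ (fderiv ℝ u) x‖ ≤ K) ∧
      ∀ x, l • u x - lv g u x + (∑ i, A i x (pv i u x) + C x (u x)) = f x

/-- **LIN2**: the resolvent in the Euclidean spaces -/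
def LIN2 : Prop := ∀ n N : ℕ, 0 < n → Lin n (E N)

/-! ### the identity -/

/-- **DCUR**: the divergence of the current of one sheet -/
def DCUR : Prop := ForC fun n V _ _ c g _ S => ∀ (G : E n → ℝ) (u : E n → V) (x : E n), Smooth G →
  ContDiff ℝ ∞ u → dv g (cur c S G u) x =
    G x * (∑ i, ∑ j, up g i j x * inner ℝ (nb c S i u x) (nb c S j u x) - ‖di c S u x‖ ^ 2 +
      scal g x / 4 * ‖u x‖ ^ 2) + ∑ i, pd i G x * inner ℝ (u x) (kv c S u i x) +
      ((n : ℝ) - 1) / 2 * (lap g G x * ‖u x‖ ^ 2 +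
        2 * ∑ i, gr g G i x * inner ℝ (u x) (nb c S i u x))

/-- **DCRS**: the divergence of the mixed current -/
def DCRS : Prop := ForC fun n V _ _ c g _ S => ∀ (T : Field n) (u w : E n → V) (x : E n),
  (∀ i j, Smooth fun x => T x i j) → (∀ x i j, T x i j = T x j i) → ContDiff ℝ ∞ u →
  ContDiff ℝ ∞ w → dv g (crs c S T u w) x =
    ∑ j, dvT g T j x * inner ℝ (u x) (ga c S j x (w x)) +
      ∑ i, ∑ k, ∑ j, up g i k x * T x k j * (inner ℝ (nb c S i u x) (ga c S j x (w x)) +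
        inner ℝ (u x) (ga c S j x (nb c S i w x)))

/-- **SH1**: the algebra of one sheet -/
def SH1 : Prop := ∀ (n : ℕ) (V : Type) [NormedAddCommGroup V] [InnerProductSpace ℝ V] (c : Cm n V)
  (f h gl T : Fin n → Fin n → ℝ) (X : Fin n → V)
  (x y : V) (G t : ℝ) (d : Fin n → ℝ), 2 ≤ n → (∀ i j, ∑ a, f a i * f a j = h i j) →
  (∀ i j, ∑ k, gl i k * h k j = if i = j then 1 else 0) → (∀ i j, T i j = T j i) → 0 < G →
  t = ∑ i, ∑ j, h i j * T i j →
  -((n : ℝ) * (n - 1) / (4 * G) * (∑ i, ∑ j, h i j * d i * d j) * ‖x‖ ^ 2) +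
      (t ^ 2 / ((n : ℝ) - 1) - ∑ i, ∑ j, ∑ k, ∑ l, h i k * h j l * T i j * T k l) / G * ‖y‖ ^ 2 +
      ∑ j, (∑ k, ((n : ℝ) * T j k - t * gl j k) * ((∑ l, h k l * d l) / G)) *
        inner ℝ x (gm c f j y) ≤
    G * (∑ i, ∑ j, h i j * inner ℝ (X i) (X j) - ‖∑ i, gm c f i (X i)‖ ^ 2) +
      ∑ i, d i * inner ℝ x (∑ j, h i j • X j + gm c f i (∑ j, gm c f j (X j))) +
      ((n : ℝ) - 1) * ∑ i, (∑ j, h i j * d j) * inner ℝ x (X i) -
      2 * ∑ i, ∑ k, ∑ j, h i k * T k j * inner ℝ (X i) (gm c f j y) +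
      G * ‖∑ i, gm c f i (X i) - (t / (((n : ℝ) - 1) * G)) • y‖ ^ 2

/-- **SH2**: the flat sheet -/
def SH2 : Prop := ∀ (n : ℕ) (V : Type) [NormedAddCommGroup V] [InnerProductSpace ℝ V] (c : Cm n V)
  (X : Fin n → V) (x : V) (G : ℝ) (d : Fin n → ℝ),
  0 < G → G * ∑ i, ‖X i‖ ^ 2 + ∑ i, d i * inner ℝ x (X i + c.e i (∑ j, c.e j (X j))) +
      ((n : ℝ) - 1) * ∑ i, d i * inner ℝ x (X i) =
    G * ∑ i, ‖X i + (2 * G)⁻¹ • (((n : ℝ) * d i) • x + c.e i (∑ j, d j • c.e j x))‖ ^ 2 -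
      (n : ℝ) * (n - 1) / (4 * G) * (∑ i, d i ^ 2) * ‖x‖ ^ 2

/-- **SH3**: the mixed term -/
def SH3 : Prop := ∀ (n : ℕ) (V : Type) [NormedAddCommGroup V] [InnerProductSpace ℝ V] (c : Cm n V)
  (f h : Fin n → Fin n → ℝ) (x y : V) (W : Fin n → ℝ),
  (∀ i j, ∑ a, f a i * f a j = h i j) → (∑ j, W j * inner ℝ x (gm c f j y)) ^ 2 ≤
    (∑ i, ∑ j, h i j * W i * W j) * ‖x‖ ^ 2 * ‖y‖ ^ 2

/-- **POW**: the weight is a power -/
def POW : Prop := ∀ (n : ℕ) (g : Field n) (v v' : E n → ℝ) (x : E n), 3 ≤ n → Met g → Smooth v →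
  Smooth v' → (∀ y, 0 < v y) → (∀ y, 0 < v' y) →
  (v x ^ (-bb n) * (scal g x / 4) + ((n : ℝ) - 1) / 2 * lap g (fun y => v y ^ (-bb n)) x -
      (n : ℝ) * (n - 1) / (4 * v x ^ (-bb n)) *
        ip g (fun y => v y ^ (-bb n)) (fun y => v y ^ (-bb n)) x =
    v x ^ (-bb n - 1) * cl g v x / 4) ∧
  (∀ k, 2 * gr g (fun y => -(bb n / 2) * Real.log (v y * v' y)) k x =
    gr g (fun y => v y ^ (-bb n)) k x / v x ^ (-bb n) +
      gr g (fun y => v' y ^ (-bb n)) k x / v' x ^ (-bb n)) ∧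
  ∀ i, (2 * v x ^ (-bb n))⁻¹ * pd i (fun y => v y ^ (-bb n)) x =
    -((((n : ℝ) - 2) * v x)⁻¹ * pd i v x)

/-- **ASG**: the expansion of the gradient of the weight -/
def ASG : Prop := ∀ (n : ℕ) (v : E n → ℝ) (a β : ℝ), 3 ≤ n → Smooth v →
  (∃ k > (0 : ℝ), ∃ K, ∀ x, k ≤ v x ∧ v x ≤ K) → Asy v a β → 0 < a ∧ ∃ C R : ℝ, ∀ x : E n,
    R ≤ ‖x‖ → ∀ i, |((n : ℝ) - 1) / 2 * pd i (fun y => v y ^ (-bb n)) x -
      ((n : ℝ) - 1) * β * a ^ (-bb n - 1) * x i * ‖x‖ ^ (-n : ℝ)| ≤ C * ‖x‖ ^ (-n : ℝ)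

/-- the right hand side of the inequality -/
def rhs {g : Field n} {R : ℝ} (c : Cm n V) (S : Cn g R) (T : Field n) (v v' : E n → ℝ)
    (u w : E n → V) (x : E n) : ℝ :=
  dv g (jj c S T v v' u w) x + v x ^ (-bb n) * ‖di c S u x - al g T v x • w x‖ ^ 2 +
    v' x ^ (-bb n) * ‖di c S w x + al g T v' x • u x‖ ^ 2

/-- **WIT**: the weighted inequality of Witten -/
def WIT : Prop := ∀ (n : ℕ) (V : Type) [NormedAddCommGroup V] [InnerProductSpace ℝ V] (c : Cm n V)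
  (g T : Field n) (R : ℝ) (S : Cn g R) (v v' : E n → ℝ)
  (u w : E n → V) (x : E n), Dat g T v v' R → ContDiff ℝ ∞ u → ContDiff ℝ ∞ w →
  (cq g T v v' x * ‖u x‖ ^ 2 + cq g T v' v x * ‖w x‖ ^ 2) / 2 ≤ rhs c S T v v' u w x

/-- **WIT2**: the inequality outside the ball -/
def WIT2 : Prop := ∀ (n : ℕ) (V : Type) [NormedAddCommGroup V] [InnerProductSpace ℝ V] (c : Cm n V)
  (g T : Field n) (R : ℝ) (S : Cn g R) (v v' : E n → ℝ)
  (u w : E n → V) (x : E n), Dat g T v v' R → ContDiff ℝ ∞ u → ContDiff ℝ ∞ w → R < ‖x‖ →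
  v x ^ (-bb n) * ∑ i, ‖c.df v u i x‖ ^ 2 ≤ rhs c S T v v' u w x

/-! ### the analysis -/

/-- **BND**: pointwise bounds -/
def BND : Prop := ForC fun n V _ _ c _ R S => ∀ B : E n → En V, ContDiff ℝ ∞ B →
  (∀ x, R < ‖x‖ → B x = 0) → ∃ K > (0 : ℝ), ∀ (u : E n → V) (x : E n), ContDiff ℝ ∞ u →
    (∀ i, ‖ga c S i x‖ ≤ K) ∧ (∀ i, ‖kv c S u i x‖ ≤ K * (‖u x‖ + ‖fderiv ℝ u x‖)) ∧
    ‖dq c S B u x‖ ≤ K * (‖u x‖ + ‖fderiv ℝ u x‖) ∧
    ‖fderiv ℝ (dq c S B u) x‖ ≤ K * (‖u x‖ + ‖fderiv ℝ u x‖ + ‖fderiv ℝ (fderiv ℝ u) x‖)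

/-- **IBP**: integration by parts -/
def IBP : Prop := ForC fun n V _ _ c g R S => 3 ≤ n → ∀ B B' : E n → En V, Pot2 R B B' →
  ∀ u w : E n → V, ContDiff ℝ ∞ u → ContDiff ℝ ∞ w → Dec u → Dec (fderiv ℝ u) →
    (∃ K, ∀ x, ‖w x‖ ≤ K ∧ ‖fderiv ℝ w x‖ ≤ K) →
    ∫ x, inner ℝ (u x) (dq c S B w x) * dens g x = ∫ x, inner ℝ (dq c S B' u x) (w x) * dens g x

/-- **INT**: integrability -/
def INT : Prop := ∀ (n : ℕ) (V : Type) [NormedAddCommGroup V] [InnerProductSpace ℝ V]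
  (g : Field n) (R : ℝ) (u w : E n → V), Met g → Flat g R →
  Continuous u → Continuous w → Dec u → (∃ K, ∀ x, ‖w x‖ ≤ K) →
  Integrable fun x => inner ℝ (u x) (w x) * dens g x

/-- **CUT**: cutting off -/
def CUT : Prop := ForC fun n V _ _ c g _ S => ∀ (B : E n → En V) (f ξ : E n → V) (e : ℝ),
  ContDiff ℝ ∞ B → Continuous f → ContDiff ℝ ∞ ξ → Dec f → Dec ξ → Dec (dq c S B ξ) →
  ∫ x, ‖f x - dq c S B ξ x‖ ^ 2 * dens g x < e → ∃ ξ' : E n → V, ContDiff ℝ ∞ ξ' ∧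
    (∃ R' : ℝ, ∀ x, R' ≤ ‖x‖ → ξ' x = 0) ∧ ∫ x, ‖f x - dq c S B ξ' x‖ ^ 2 * dens g x < e

/-- coercivity -/
def Coer {g : Field n} {R : ℝ} (c : Cm n V) (S : Cn g R) (B' : E n → En V) : Prop :=
  ∀ ρ : ℝ, ∃ k > (0 : ℝ), ∀ u : E n → V, ContDiff ℝ ∞ u → Dec u → Dec (fderiv ℝ u) →
    k * ∫ x in ball (0 : E n) ρ, ‖u x‖ ^ 2 * dens g x ≤ ∫ x, ‖dq c S B' u x‖ ^ 2 * dens g x

/-- **ITER**: approximate solutions -/
def ITER : Prop := ForC fun n V _ _ c g R S => 3 ≤ n → Lin n V → ∀ B B' : E n → En V, Pot2 R B B' →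
  Coer c S B' → ∀ f : E n → V, ContDiff ℝ ∞ f → (∃ R' : ℝ, ∀ x, R' ≤ ‖x‖ → f x = 0) →
    ∀ e > (0 : ℝ), ∃ ξ : E n → V, ContDiff ℝ ∞ ξ ∧ (∃ R' : ℝ, ∀ x, R' ≤ ‖x‖ → ξ x = 0) ∧
      ∫ x, ‖f x - dq c S B ξ x‖ ^ 2 * dens g x < e

/-- **COER**: the adjoint operator is coercive -/
def COER : Prop := ∀ (n : ℕ) (V : Type) [NormedAddCommGroup V] [InnerProductSpace ℝ V] (c : Cl2 n V)
  (g T : Field n) (R : ℝ) (S : Cn g R)
  (v v' : E n → ℝ), Dat g T v v' R → Coer c.toCm S (bo c.q c.p g T v v')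

end Vale.Agent.P366Z.Sp
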